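import Vale.Agent.P307.R2.H650.Defs
import Vale.Agent.P307.R2.H229.Tree

/-!
Prime chains: a prime chain over `P` is free over `P` from a model as soon as its finite sets of
points are.
-/

set_option linter.unusedSectionVars false

universe u

open Set Cardinal Function

namespace Vale.Agent.P307.R2.H913

open Vale.Agent.P307.R2.H541 Vale.Agent.P307.R2.H541.PG Vale.Agent.P307.R2.H650

variable {C : Type u} {M : PG C} {P R X Y D : Set C}

theorem isol_map {B X E : Set C} (h : M.Isol B X E)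
    {g : Equiv.Perm C} (hg : g ∈ M.G) : M.Isol (g '' B) (g '' X) (g '' E) := by
  intro k hk hkB A hA hAc
  obtain ⟨l, hl, h1, h2⟩ := h (g⁻¹ * k * g) (M.G.mul_mem (M.G.mul_mem (M.G.inv_mem hg) hk) hg)
    (fun b hb => by
      change g⁻¹ (k (g b)) = b
      rw [hkB _ (mem_image_of_mem g hb), inv_ap]) ((g⁻¹ : Equiv.Perm C) '' A) (by
      rintro _ ⟨a, ha, rfl⟩
      obtain ⟨x, hx, rfl⟩ := hA ha
      rw [inv_ap]
      exact hx) (small_image _ hAc)
  refine ⟨g * l * g⁻¹, M.G.mul_mem (M.G.mul_mem hg hl) (M.G.inv_mem hg), fun a ha => ?_, ?_⟩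
  · change g (l (g⁻¹ a)) = a
    rw [h1 _ (mem_image_of_mem _ ha), ap_inv]
  · rintro _ ⟨e, he, rfl⟩
    change g (l (g⁻¹ (g e))) = k (g e)
    rw [inv_ap, h2 e he]
    change g (g⁻¹ (k (g e))) = _
    rw [ap_inv]

theorem atomic_map {N X : Set C} (h : M.Atomic N X)
    {g : Equiv.Perm C} (hg : g ∈ M.G) : M.Atomic (g '' N) (g '' X) := by
  refine ⟨M.S_inv hg h.mem, image_mono h.sub, fun E hE hEc => ?_⟩
  obtain ⟨B, hB, hBc, hiso⟩ := h.iso ((g⁻¹ : Equiv.Perm C) '' E) (by
    rintro _ ⟨e, he, rfl⟩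
    obtain ⟨x, hx, rfl⟩ := hE he
    rw [inv_ap]
    exact hx) (small_image _ hEc)
  refine ⟨g '' B, image_mono hB, small_image g hBc, ?_⟩
  have h1 := isol_map hiso hg
  have h2 : g '' ((g⁻¹ : Equiv.Perm C) '' E) = E := by
    rw [← image_comp]
    have : (g ∘ (g⁻¹ : Equiv.Perm C)) = id := by
      funext a
      exact ap_inv g a
    rw [this, image_id]
  rwa [h2] at h1

/-- Independence of a pair. -/
theorem ind_pair (h1 : M.Ind P (X ∪ Y) D) (h2 : M.Ind P X Y) : M.Ind P X (D ∪ Y) := by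
  intro A hA hAc B hB hBc
  obtain ⟨g, hg, hg1, hg2⟩ := h1 (A ∪ (B ∩ Y)) (by
    refine union_subset (hA.trans ?_) ?_
    · exact union_subset_union_right P subset_union_left
    · exact fun b hb => Or.inr (Or.inr hb.2)) (small_union hAc (small_inter_left Y hBc)) (B ∩ D)
    inter_subset_right (small_inter_left D hBc)
  obtain ⟨k, hk, hk1, hk2⟩ := h2 (A ∪ g '' (B ∩ D)) (by
    refine union_subset hA ?_
    rintro _ ⟨b, hb, rfl⟩
    exact Or.inl (hg2 b hb)) (small_union hAc (small_image g (small_inter_left D hBc))) (B ∩ Y)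
    inter_subset_right (small_inter_left Y hBc)
  refine ⟨k * g, M.G.mul_mem hk hg, fun a ha => ?_, fun b hb => ?_⟩
  · rw [Equiv.Perm.mul_apply, hg1 a (Or.inl ha), hk1 a (Or.inl ha)]
  · rw [Equiv.Perm.mul_apply]
    rcases hB hb with h | h
    · rw [hk1 _ (Or.inr ⟨b, ⟨hb, h⟩, rfl⟩)]
      exact hg2 b ⟨hb, h⟩
    · rw [hg1 b (Or.inr ⟨hb, h⟩)]
      exact hk2 b ⟨hb, h⟩

/-- The Tarski–Vaught property given by a free set. -/
theorem tv_of_ind {N : Set C} (h : M.Ind N X D) : M.TV (X ∪ N) (X ∪ D) := by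
  intro A hA hAc E hE hEc
  obtain ⟨g, hg, h1, h2⟩ := h (A ∪ (E ∩ X)) (by
    rw [union_comm X N] at hA
    exact union_subset hA fun e he => Or.inr he.2) (small_union hAc (small_inter_left X hEc))
    (E ∩ D) inter_subset_right (small_inter_left D hEc)
  refine ⟨g, hg, fun a ha => h1 a (Or.inl ha), fun e he => ?_⟩
  rcases hE he with h3 | h3
  · rw [h1 e (Or.inr ⟨he, h3⟩)]
    exact Or.inl h3
  · exact Or.inr (h2 e ⟨he, h3⟩)

/-- Transitivity of atomicity. -/
theorem atomic_trans {N Z : Set C} (hN : M.Atomic N (X ∪ Y)) (hZX : Z ⊆ X ∪ Y)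
    (hZ : ∀ E ⊆ X ∪ Y, #E < M.χ → ∃ B ⊆ Z, #B < M.χ ∧ M.Isol B Z E) : M.Atomic N Z := by
  refine ⟨hN.mem, hZX.trans hN.sub, fun E hE hEc => ?_⟩
  obtain ⟨B, hBX, hBc, hB⟩ := hN.iso E hE hEc
  obtain ⟨B', hBZ, hBc', hB'⟩ := hZ B hBX hBc
  have h1 : M.Isol B (Z ∪ B) E := hB.mono (union_subset hZX hBX)
  have h2 := hB'.trans hBc hBZ hBc' h1 subset_union_right hBc
  refine ⟨B' ∪ (B ∩ Z), union_subset hBZ inter_subset_right,
    small_union hBc' (small_inter_left Z hBc), h2.subset subset_union_right⟩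

/-- The step of the chain. -/
theorem ind_step (hM : M.Calc) (hP : P ∈ M.S) {N Q T : Set C} {c : C} (hN : N ∈ M.S)
    (hD : D ∈ M.S) (hPN : P ⊆ N) (hND : N ⊆ D) (hQ : M.Atomic Q ({c} ∪ N))
    (hT : M.Atomic T (D ∪ Q)) (h1 : M.Ind P (X ∪ {c}) D) (h2 : M.Ind P X {c}) : M.Ind P X T := by
  have hPD := hPN.trans hND
  have h3 : M.Ind N {c} D := hM.ind_base hP hN hPN (h1.mono subset_union_right (by
    exact union_subset hND Subset.rfl))
  have hTV : M.TV ({c} ∪ N) ({c} ∪ D) := tv_of_ind h3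
  have hT' : M.Atomic T ({c} ∪ D) := by
    refine atomic_trans hT ?_ fun E hE hEc => ?_
    · rintro x (hx | hx)
      · exact Or.inr (hQ.sub (Or.inl hx))
      · exact Or.inl hx
    obtain ⟨B, hBX, hBc, hB⟩ := hQ.iso (E ∩ Q) inter_subset_right (small_inter_left Q hEc)
    have hBX' : B ⊆ {c} ∪ D := hBX.trans (union_subset_union_right _ hND)
    have h4 : M.Isol B ({c} ∪ D) (E ∩ Q) := hB.lift hTV hBX hBc
    have h5 : M.Isol (E ∩ D ∪ B) ({c} ∪ D) (E ∩ Q) := h4.mono_base subset_union_right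
    have h6 := h5.union_self (union_subset (fun x hx => Or.inr hx.2) hBX')
      (small_union (small_inter_left D hEc) hBc)
    refine ⟨E ∩ D ∪ B, union_subset (fun x hx => Or.inr hx.2) hBX',
      small_union (small_inter_left D hEc) hBc, h6.subset fun e he => ?_⟩
    rcases hE he with h | h
    · exact Or.inr (Or.inl ⟨he, h⟩)
    · exact Or.inl ⟨he, h⟩
  have h7 : M.Ind P X (D ∪ {c}) := ind_pair h1 h2
  have h8 : M.Ind D X {c} := hM.ind_base hP hD hPD h7
  have h9 : M.Ind D T X := hT'.dom (hM.sym hD h8)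
  exact (h7.mono Subset.rfl subset_union_left).trans (hM.sym hD h9) hPD

variable {ι : Type u} [LinearOrder ι] {c : ι → C} {Q T : ι → Set C} {i : ι}

/-- Finite sets of points above `i` are free from the part before `i`. -/
theorem fin_pre (hM : M.Calc) (h : PCh M P c Q) (x : Finset ι) :
    ∀ i, (∀ k ∈ x, i ≤ k) → M.Ind P (c '' x) (pre P Q i) := by
  classical
  induction x using Finset.induction_on_max with
  | empty =>
    intro i _ A hA hAc B _ hBc
    rw [Finset.coe_empty, image_empty, union_empty] at hA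
    exact M.sat h.base hA hAc hBc
  | insert a s hs ih =>
    intro i hi
    have h1 := ih i fun k hk => hi k (Finset.mem_insert_of_mem hk)
    have h2 : pre P Q i ∪ c '' s ⊆ pre P Q a := by
      refine union_subset ?_ ?_
      · refine union_subset_union_right P (iUnion_subset fun j => ?_)
        exact subset_iUnion (fun j : Iio a => Q j)
          ⟨j.1, lt_of_lt_of_le j.2 (hi a (Finset.mem_insert_self a s))⟩
      · rintro _ ⟨k, hk, rfl⟩
        exact sub_pre P Q (hs k hk) (h.mem k)
    have h3 : M.Ind P (pre P Q i ∪ c '' s) {c a} :=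
      hM.sym h.base ((h.ind a).mono Subset.rfl h2)
    have h4 := ind_pair h3 (hM.sym h.base h1)
    rw [Finset.coe_insert, image_insert_eq, ← singleton_union]
    exact hM.sym h.base h4

theorem card_pre (hR : R ∈ M.S) (hι : #ι ≤ M.χ) (hT : ∀ k < i, T k ∈ M.S) :
    #(pre R T i : Set C) ≤ M.χ := by
  refine (mk_union_le _ _).trans (add_le_of_le M.hχ (M.S_card hR).le ?_)
  have h1 : #(Iio i) ≤ M.χ := (mk_set_le _).trans hι
  have h2 : (⨆ j : Iio i, #(T j : Set C)) ≤ M.χ := ciSup_le' fun k => (M.S_card (hT k.1 k.2)).le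
  exact (mk_iUnion_le _).trans ((mul_le_mul' h1 h2).trans (mul_eq_self M.hχ).le)

section

variable (hT : ∀ k < i, M.Atomic (T k) (pre R T k ∪ Q k))

include hT

theorem T_mono {j k : ι} (hj : j ≤ k) (hk : k < i) : T j ⊆ T k := by
  rcases hj.lt_or_eq with h | rfl
  · exact (sub_pre R T h).trans (subset_union_left.trans (hT k hk).sub)
  · exact Subset.rfl

theorem pre_mem' (hC : Chn M) (hR : R ∈ M.S) (hι : #ι ≤ M.χ) : pre R T i ∈ M.S := by
  refine hC.union' (N := fun j : Iio i => T j) hR (fun j k hjk => T_mono hT hjk k.2)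
    (fun j => (hT j.1 j.2).mem) (fun j => ?_) (card_pre hR hι fun k hk => (hT k hk).mem)
  exact (subset_pre R T j.1).trans (subset_union_left.trans (hT j.1 j.2).sub)

theorem pre_sub_pre (hPR : P ⊆ R) : pre P Q i ⊆ pre R T i := by
  refine union_subset_union hPR (iUnion_mono fun j => ?_)
  exact subset_union_right.trans (hT j.1 j.2).sub

end

/-- The finite sets of points stay free along a chain of atomic models. -/
theorem fin_inv (hM : M.Calc) (hC : Chn M) [WellFoundedLT ι] (h : PCh M P c Q)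
    (hc : #(tot P Q) ≤ M.χ) (hι : #ι ≤ M.χ) (hR : R ∈ M.S) (hPR : P ⊆ R)
    (hx : ∀ x : Finset ι, M.Ind P (c '' x) R) : ∀ i : ι,
    (∀ k < i, M.Atomic (T k) (pre R T k ∪ Q k)) → ∀ x : Finset ι, (∀ k ∈ x, i ≤ k) →
      M.Ind P (c '' x) (pre R T i) := by
  classical
  intro i
  induction i using (wellFounded_lt (α := ι)).induction with
  | h i ih =>
    intro hT x hxi
    have key : ∀ j < i, M.Ind P (c '' x) (T j) := by
      intro j hj
      have hT' : ∀ k < j, M.Atomic (T k) (pre R T k ∪ Q k) := fun k hk => hT k (hk.trans hj)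
      have h1 := ih j hj hT' (insert j x) fun k hk => by
        rcases Finset.mem_insert.1 hk with rfl | hk
        · exact le_rfl
        · exact hj.le.trans (hxi k hk)
      rw [Finset.coe_insert, image_insert_eq, ← singleton_union, union_comm] at h1
      refine ind_step hM h.base (h.pre_mem hC hc j) (pre_mem' hT' hC hR hι) (subset_pre P Q j)
        (pre_sub_pre hT' hPR) (h.atomic j) (hT j hj) h1 ?_
      exact (fin_pre hM h x i hxi).mono Subset.rfl
        (singleton_subset_iff.2 (sub_pre P Q hj (h.mem j)))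
    rcases isEmpty_or_nonempty (Iio i) with hE | hE
    · have h1 : pre R T i = R := by
        unfold pre
        rw [iUnion_of_empty, union_empty]
      rw [h1]
      exact hx x
    · have hsub : ∀ j : Iio i, R ⊆ T j := fun j =>
        (subset_pre R T j.1).trans (subset_union_left.trans (hT j.1 j.2).sub)
      have h1 : pre R T i = ⋃ j : Iio i, T j := by
        obtain ⟨j⟩ := hE
        exact union_eq_self_of_subset_left ((hsub j).trans
          (subset_iUnion (fun j : Iio i => T j) j))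
      have h2 := card_pre (T := T) (i := i) hR hι fun k hk => (hT k hk).mem
      rw [h1] at h2 ⊢
      obtain ⟨j, hj⟩ := hC.loc (Iio i) (fun j => T j) (fun j k hjk => T_mono hT hjk k.2)
        (fun j => (hT j.1 j.2).mem) h2 (c '' x) (x.finite_toSet.image c)
      exact (key j.1 j.2).trans hj (hPR.trans (hsub j))

/-- Gluing an element of the group on a model with the identity on a prime one-point extension of
a smaller model. -/
theorem le_glue (hM : M.Calc) {N Q : Set C} {c : C} (hN : N ∈ M.S) (hND : N ⊆ D)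
    (hQ : M.Atomic Q ({c} ∪ N)) {h0 : Equiv.Perm C} (h0G : h0 ∈ M.G) (hfix : ∀ a ∈ N, h0 a = a)
    (J1 : M.Ind N {c} D) (J2 : M.Ind N {c} (h0 '' D)) : ∀ A ⊆ D ∪ Q, #A < M.χ →
    ∃ k ∈ M.G, (∀ a ∈ A, a ∈ D → k a = h0 a) ∧ ∀ a ∈ A, a ∈ Q → k a = a := by
  classical
  intro A hA hAc
  obtain ⟨p, hpN, hpc, hb⟩ := hM.based hN (E := {c}) (small_finite (finite_singleton c))
  let f0 : C → C := fun a => if a = c then c else h0 a
  have hf0c : f0 c = c := if_pos rfl
  have hf0D : ∀ a ∈ D, f0 a = h0 a := by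
    intro a ha
    by_cases h : a = c
    · subst h
      rw [hf0c, hfix a (J1.inter_sub ⟨rfl, ha⟩)]
    · exact if_neg h
  have hLE : M.LE f0 ({c} ∪ D) := by
    intro B hB hBc
    obtain ⟨k, hk, -, hk1, hk2⟩ := hb h0 h0G (fun x hx => hfix x (hpN hx)) (B ∩ D)
      (small_inter_left D hBc) (J1.mono Subset.rfl inter_subset_right)
      (J2.mono Subset.rfl (image_mono inter_subset_right))
    refine ⟨k, hk, fun a ha => ?_⟩
    rcases hB ha with h | h
    · rw [mem_singleton_iff.1 h, hf0c]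
      exact hk1 c rfl
    · rw [hk2 a ⟨ha, h⟩, hf0D a h]
  obtain ⟨B, hBX, hBc, hB⟩ := hQ.iso (A ∩ Q) inter_subset_right (small_inter_left Q hAc)
  have hB' := hB.lift (tv_of_ind J1) hBX hBc
  obtain ⟨k, hk, hk1, hk2⟩ := hB'.compat (hBX.trans (union_subset_union_right _ hND)) hBc hLE
    M.G.one_mem (fun b hb => by
      rcases hBX hb with h | h
      · rw [mem_singleton_iff.1 h, hf0c]
        rfl
      · rw [hf0D b (hND h), hfix b h]
        rfl) (A ∩ D) (fun a ha => Or.inr ha.2) (small_inter_left D hAc)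
  refine ⟨k, hk, fun a ha haD => ?_, fun a ha haQ => ?_⟩
  · rw [hk1 a ⟨ha, haD⟩, hf0D a haD]
  · rw [hk2 a ⟨ha, haQ⟩]
    rfl

theorem pre_congr {T' : ι → Set C} (h : ∀ k < i, T k = T' k) : pre R T i = pre R T' i := by
  unfold pre
  congr 1
  exact iUnion_congr fun j => h j.1 j.2

theorem image_pre {T' : ι → Set C} {R' : Set C} {g : Equiv.Perm C} (hR : g '' R = R')
    (h : ∀ k < i, g '' T k = T' k) : g '' pre R T i = pre R' T' i := by
  unfold pre
  rw [image_union, image_iUnion, hR]
  congr 1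
  exact iUnion_congr fun j => h j.1 j.2

/-- **Prime chains**: an element of the group on `R` which is the identity on `P` is glued with the
identity on a prime chain over `P`, if the finite sets of points of the chain are free from `R` and
from the image of `R`. -/
theorem _root_.Vale.Agent.P307.R2.H650.PCh.exists_glue (hM : M.Calc) (hB : M.Big) (hC : Chn M)
    (hPt : Pt1 M) [WellFoundedLT ι] (h : PCh M P c Q) (hc : #(tot P Q) ≤ M.χ)
    (hι : #ι ≤ M.χ) (hR : R ∈ M.S) (hPR : P ⊆ R) (hx : ∀ x : Finset ι, M.Ind P (c '' x) R)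
    {g : Equiv.Perm C} (hg : g ∈ M.G) (hgP : ∀ a ∈ P, g a = a)
    (hx' : ∀ x : Finset ι, M.Ind P (c '' x) (g '' R)) :
    ∃ h ∈ M.G, (∀ a ∈ tot P Q, h a = a) ∧ ∀ a ∈ R, h a = g a := by
  classical
  have hgPi : g '' P = P := by
    ext a
    constructor
    · rintro ⟨b, hb, rfl⟩
      rwa [hgP b hb]
    · exact fun ha => ⟨a, ha, hgP a ha⟩
  have hPR' : P ⊆ g '' R := by
    rw [← hgPi]
    exact image_mono hPR
  have hR' : g '' R ∈ M.S := M.S_inv hg hR
  obtain ⟨d, hd⟩ := Vale.Agent.P307.R2.H541.exists_rec (D := Set C × Equiv.Perm C) (fun i d =>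
      M.Atomic (d i).1 (pre R (fun k => (d k).1) i ∪ Q i) ∧ (d i).2 ∈ M.G ∧
        (∀ a ∈ Q i, (d i).2 a = a) ∧ (∀ a ∈ R, (d i).2 a = g a) ∧
          ∀ k < i, ∀ a ∈ (d k).1, (d i).2 a = (d k).2 a) (by
      rintro i d d' hdd ⟨h1, h2, h3, h4, h5⟩
      have hi : d i = d' i := hdd i le_rfl
      have hk : ∀ k < i, d k = d' k := fun k hk => hdd k hk.le
      refine ⟨?_, hi ▸ h2, hi ▸ h3, hi ▸ h4, fun k hki => ?_⟩
      · rw [← hi, ← pre_congr (T := fun k => (d k).1) (fun k hki => by rw [hk k hki])]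
        exact h1
      · rw [← hi, ← hk k hki]
        exact h5 k hki) (by
      intro i d hd
      -- the stages before `i`
      let T : ι → Set C := fun k => (d k).1
      have hT : ∀ k < i, M.Atomic (T k) (pre R T k ∪ Q k) := fun k hk => (hd k hk).1
      have hD : pre R T i ∈ M.S := pre_mem' hT hC hR hι
      have hND : pre P Q i ⊆ pre R T i := pre_sub_pre hT hPR
      have hRT : ∀ k < i, R ⊆ T k := fun k hk =>
        (subset_pre R T k).trans (subset_union_left.trans (hT k hk).sub)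
      obtain ⟨h0, h0G, h01, h02⟩ : ∃ h0 ∈ M.G, (∀ a ∈ R, h0 a = g a) ∧
          ∀ k < i, ∀ a ∈ T k, h0 a = (d k).2 a := by
        rcases isEmpty_or_nonempty (Iio i) with hE | hE
        · exact ⟨g, hg, fun _ _ => rfl, fun k hk => (hE.false ⟨k, hk⟩).elim⟩
        · have h1 := card_pre (T := T) (i := i) hR hι fun k hk => (hT k hk).mem
          obtain ⟨h0, h0G, h2⟩ := hC.glue (Iio i) (fun j => T j) (fun j => (d j).2)
            (fun j k hjk => T_mono hT hjk k.2) (fun j => (hT j.1 j.2).mem)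
            ((mk_le_mk_of_subset subset_union_right).trans h1) (fun j => (hd j.1 j.2).2.1)
            (by
              intro j k hjk a ha
              rcases hjk.lt_or_eq with h3 | rfl
              · exact (hd k.1 k.2).2.2.2.2 j.1 h3 a ha
              · rfl)
          refine ⟨h0, h0G, fun a ha => ?_, fun k hk => h2 ⟨k, hk⟩⟩
          obtain ⟨j⟩ := hE
          rw [h2 j a (hRT j.1 j.2 ha)]
          exact (hd j.1 j.2).2.2.2.1 a ha
      have hfix : ∀ a ∈ pre P Q i, h0 a = a := by
        rintro a (ha | ha)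
        · rw [h01 a (hPR ha), hgP a ha]
        · obtain ⟨k, hk⟩ := mem_iUnion.1 ha
          rw [h02 k.1 k.2 a (subset_union_right.trans (hT k.1 k.2).sub hk)]
          exact (hd k.1 k.2).2.2.1 a hk
      have hfixi : ∀ k < i, (d k).2 '' Q k = Q k := by
        intro k hk
        ext a
        constructor
        · rintro ⟨b, hb, rfl⟩
          rwa [(hd k hk).2.2.1 b hb]
        · exact fun ha => ⟨a, ha, (hd k hk).2.2.1 a ha⟩
      -- the point is free on both sides
      have I1 : M.Ind P {c i} (pre R T i) := by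
        have h1 := fin_inv hM hC h hc hι hR hPR hx i hT {i} fun k hk => by
          rw [Finset.mem_singleton.1 hk]
        rwa [Finset.coe_singleton, image_singleton] at h1
      let T' : ι → Set C := fun k => (d k).2 '' T k
      have hRg : ∀ k < i, (d k).2 '' R = g '' R := fun k hk =>
        image_congr fun a ha => (hd k hk).2.2.2.1 a ha
      have hT' : ∀ k < i, M.Atomic (T' k) (pre (g '' R) T' k ∪ Q k) := by
        intro k hk
        have h1 := atomic_map (hT k hk) (hd k hk).2.1
        rwa [image_union, hfixi k hk, image_pre (T' := T') (hRg k hk) fun j hj =>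
          image_congr fun a ha => (hd k hk).2.2.2.2 j hj a ha] at h1
      have I2 : M.Ind P {c i} (h0 '' pre R T i) := by
        have h1 := fin_inv hM hC h hc hι hR' hPR' hx' i hT' {i} fun k hk => by
          rw [Finset.mem_singleton.1 hk]
        rw [Finset.coe_singleton, image_singleton] at h1
        rwa [image_pre (T' := T') (image_congr fun a ha => h01 a ha) fun j hj =>
          image_congr fun a ha => h02 j hj a ha]
      have hN := h.pre_mem hC hc i
      have hPN := subset_pre P Q i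
      have hND' : pre P Q i ⊆ h0 '' pre R T i := fun a ha => ⟨a, hND ha, hfix a ha⟩
      have J1 : M.Ind (pre P Q i) {c i} (pre R T i) :=
        hM.ind_base h.base hN hPN (I1.mono Subset.rfl (union_subset hND Subset.rfl))
      have J2 : M.Ind (pre P Q i) {c i} (h0 '' pre R T i) :=
        hM.ind_base h.base hN hPN (I2.mono Subset.rfl (union_subset hND' Subset.rfl))
      have hG := le_glue hM hN hND (h.atomic i) h0G hfix J1 J2
      let f : C → C := fun a => if a ∈ Q i then a else h0 a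
      have hfQ : ∀ a ∈ Q i, f a = a := fun a ha => if_pos ha
      have hfD : ∀ a ∈ pre R T i, f a = h0 a := by
        intro a ha
        by_cases haQ : a ∈ Q i
        · rw [hfQ a haQ]
          obtain ⟨k, -, hk1, hk2⟩ := hG {a} (singleton_subset_iff.2 (Or.inl ha))
            (small_finite (finite_singleton a))
          rw [← hk1 a rfl ha, hk2 a rfl haQ]
        · exact if_neg haQ
      have hLE : M.LE f (pre R T i ∪ Q i) := by
        intro A hA hAc
        obtain ⟨k, hk, hk1, hk2⟩ := hG A hA hAc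
        refine ⟨k, hk, fun a ha => ?_⟩
        rcases hA ha with h1 | h1
        · rw [hk1 a ha h1, hfD a h1]
        · rw [hk2 a ha h1, hfQ a h1]
      obtain ⟨Ti, hTi⟩ := hPt _ hN _ hD hND (c i) (Q i) J1 (h.atomic i)
      obtain ⟨N', hN', hfN'⟩ := hB.ls (f '' (pre R T i ∪ Q i)) (mk_image_le.trans
        ((mk_union_le _ _).trans (add_le_of_le M.hχ (M.S_card hD).le
          (M.S_card (h.atomic i).mem).le)))
      obtain ⟨hi, hiG, hi1, -⟩ := hTi.exists_embed hLE hN' fun x hx => hfN' ⟨x, hx, rfl⟩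
      refine ⟨(Ti, hi), ?_⟩
      have hu : ∀ k < i, update d i (Ti, hi) k = d k := fun k hk => update_of_ne hk.ne _ _
      rw [update_self]
      refine ⟨?_, hiG, fun a ha => ?_, fun a ha => ?_, fun k hk a ha => ?_⟩
      · rw [pre_congr (T' := T) fun k hk => by rw [hu k hk]]
        exact hTi
      · change hi a = a
        rw [hi1 a (Or.inr ha), hfQ a ha]
      · change hi a = g a
        rw [hi1 a (Or.inl (Or.inl ha)), hfD a (Or.inl ha), h01 a ha]
      · rw [hu k hk] at ha ⊢
        change hi a = _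
        have h1 : a ∈ pre R T i := sub_pre R T hk ha
        rw [hi1 a (Or.inl h1), hfD a h1, h02 k hk a ha])
  -- the end
  rcases isEmpty_or_nonempty ι with hE | hE
  · have h1 : tot P Q = P := by
      unfold tot
      rw [iUnion_of_empty, union_empty]
    exact ⟨g, hg, fun a ha => hgP a (h1 ▸ ha), fun _ _ => rfl⟩
  · have hmono : Monotone fun k => (d k).1 := by
      intro j k hjk
      rcases hjk.lt_or_eq with h1 | rfl
      · exact (sub_pre R (fun k => (d k).1) h1).trans
          (subset_union_left.trans (hd k).1.sub)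
      · exact Subset.rfl
    obtain ⟨u, hu, hu1⟩ := hC.glue ι (fun k => (d k).1) (fun k => (d k).2) hmono
      (fun k => (hd k).1.mem) ((mk_iUnion_le _).trans ((mul_le_mul' hι
        (ciSup_le' fun k => (M.S_card (hd k).1.mem).le)).trans (mul_eq_self M.hχ).le))
      (fun k => (hd k).2.1) (by
        intro j k hjk a ha
        rcases hjk.lt_or_eq with h3 | rfl
        · exact (hd k).2.2.2.2 j h3 a ha
        · rfl)
    have hRd : ∀ k, R ⊆ (d k).1 := fun k =>
      (subset_pre R (fun k => (d k).1) k).trans (subset_union_left.trans (hd k).1.sub)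
    have huR : ∀ a ∈ R, u a = g a := by
      intro a ha
      obtain ⟨k⟩ := hE
      rw [hu1 k a (hRd k ha)]
      exact (hd k).2.2.2.1 a ha
    refine ⟨u, hu, ?_, huR⟩
    rintro a (ha | ha)
    · rw [huR a (hPR ha), hgP a ha]
    · obtain ⟨k, hk⟩ := mem_iUnion.1 ha
      rw [hu1 k a (subset_union_right.trans (hd k).1.sub hk)]
      exact (hd k).2.2.1 a hk

/-- Independence is transported by the glued map. -/
theorem ind_of_glue {Z R : Set C} {g u : Equiv.Perm C} (hP : P ∈ M.S) (hM : M.Calc)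
    (hu : u ∈ M.G) (huZ : ∀ a ∈ Z, u a = a) (hPZ : P ⊆ Z) (huR : ∀ a ∈ R, u a = g a)
    (hI : M.Ind P (g '' R) Z) : M.Ind P Z R := by
  have h1 := (hM.sym hP hI).smul (M.G.inv_mem hu)
  have h2 : ∀ Z : Set C, (∀ a ∈ Z, u a = a) → (u⁻¹ : Equiv.Perm C) '' Z = Z := by
    intro Z hZ
    ext a
    constructor
    · rintro ⟨b, hb, rfl⟩
      rwa [fix_inv (hZ b hb)]
    · exact fun ha => ⟨a, ha, fix_inv (hZ a ha)⟩
  have h3 : (u⁻¹ : Equiv.Perm C) '' (g '' R) = R := by
    ext a
    constructor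
    · rintro ⟨_, ⟨b, hb, rfl⟩, rfl⟩
      rwa [← huR b hb, inv_ap]
    · exact fun ha => ⟨g a, ⟨a, ha, rfl⟩, by rw [← huR a ha, inv_ap]⟩
  rwa [h2 P fun a ha => huZ a (hPZ ha), h2 Z huZ, h3] at h1

/-- A prime chain over `P` is free from `R` over `P` if its finite sets of points are. -/
theorem _root_.Vale.Agent.P307.R2.H650.PCh.ind_of_fin (hM : M.Calc) (hB : M.Big) (hC : Chn M)
    (hF : FreeM M) (hPt : Pt1 M) [WellFoundedLT ι] (h : PCh M P c Q) (hc : #(tot P Q) ≤ M.χ)
    (hι : #ι ≤ M.χ) (hR : R ∈ M.S) (hPR : P ⊆ R) (hx : ∀ x : Finset ι, M.Ind P (c '' x) R) :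
    M.Ind P (tot P Q) R := by
  obtain ⟨g, hg, hgP, hgI⟩ := hF P h.base R hR hPR (tot P Q) hc
  obtain ⟨u, hu, huT, huR⟩ := h.exists_glue hM hB hC hPt hc hι hR hPR hx hg hgP fun x => by
    refine hM.sym h.base (hgI.mono Subset.rfl ?_)
    rintro _ ⟨k, -, rfl⟩
    exact sub_tot P Q k (h.mem k)
  exact ind_of_glue h.base hM hu huT (subset_tot P Q) huR hgI

end Vale.Agent.P307.R2.H913
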