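import Vale.Agent.P307.R2.H913.Tiny1
import Vale.Agent.P307.R2.H806.TwoPG
import Vale.Agent.P307.R2.H68.AllD
import Vale.Agent.P307.R2.H287.PackPG
import Vale.Agent.P307.R2.H650.Defs

/-!
Closed traces of the atomic models over a model and finitely many points, and of prime chains.
-/

set_option linter.unusedSectionVars false

universe u v w

open FirstOrder Cardinal Set

namespace Vale.Agent.P307.R2.H913

open Vale.Agent.P307 Vale.Agent.P307.H304 Vale.Agent.P307.R2.H287 Vale.Agent.P307.R2.H1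
  Vale.Agent.P307.R2.H971 Vale.Agent.P307.R2.H804 Vale.Agent.P307.R2.H541
  Vale.Agent.P307.R2.H541.PG Vale.Agent.P307.R2.H68 Vale.Agent.P307.R2.H650
  Language.Structure Language.Substructure

variable {L : Language.{u, u}} {K : AEC L} {ℓ Λ τ θ : Cardinal.{u}}
  {κf α : Cardinal.{u} → Cardinal.{u}} {C : Type u} [L.Structure C]

/-- Two closures. -/
theorem clo_union {φ ψ : Finset C → Set C} {H : Set C} (h : Clo (fun s => φ s ∪ ψ s) H) :
    Clo φ H ∧ Clo ψ H :=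
  ⟨h.mono fun _ => subset_union_left, h.mono fun _ => subset_union_right⟩

/-- A closure for an injective family of closures. -/
theorem exists_clo_fam (hτ : ℵ₀ ≤ τ) {J : Type u} (c : J → C) (hc : Function.Injective c)
    (φ : J → Finset C → Set C) (hφ : ∀ j s, #(φ j s) ≤ τ) :
    ∃ ψ : Finset C → Set C, (∀ s, #(ψ s) ≤ τ) ∧ ∀ H : Set C, Clo ψ H → ∀ j, c j ∈ H →
      Clo (φ j) H := by
  classical
  refine ⟨fun s => ⋃ q : {t : Finset C // t ⊆ s} × {j : J // c j ∈ s}, φ q.2.1 q.1.1, fun s => ?_,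
    fun H hH j hj => ?_⟩
  · have h1 : Finite {t : Finset C // t ⊆ s} := by
      refine Finite.of_injective (β := {t // t ∈ s.powerset})
        (fun t => ⟨t.1, Finset.mem_powerset.2 t.2⟩) ?_
      intro t t' h
      exact Subtype.ext (Subtype.mk.inj h)
    have h2 : Finite {j : J // c j ∈ s} := by
      refine Finite.of_injective (β := {x // x ∈ s}) (fun j => ⟨c j.1, j.2⟩) ?_
      intro j j' h
      exact Subtype.ext (hc (Subtype.mk.inj h))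
    refine (mk_iUnion_le _).trans ((mul_le_mul' ((lt_aleph0_of_finite _).le.trans hτ)
      (ciSup_le' fun q => hφ _ _)).trans (mul_eq_self hτ).le)
  · intro s hs
    have h1 : ((insert (c j) s : Finset C) : Set C) ⊆ H := by
      rw [Finset.coe_insert]
      exact insert_subset hj hs
    refine Subset.trans ?_ (hH (insert (c j) s) h1)
    exact subset_iUnion (fun q : {t : Finset C // t ⊆ insert (c j) s} ×
      {i : J // c i ∈ insert (c j) s} => φ q.2.1 q.1.1)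
      (⟨s, Finset.subset_insert _ _⟩, ⟨j, Finset.mem_insert_self _ _⟩)

section

variable (h₀ : BasePt K ℓ κf α θ) (hK : K.IsLS ℓ)
  (hunb : ∀ ν, ν < κf ν ∧ K.CategoricalIn (κf ν)) (hst : Stab K ℓ α (H287.thr κf))
  (hCm : K.mem C) (hs : Sat K θ C) (hCc : #C = Order.succ θ)

include h₀ hK hunb hst hCm hs hCc

/-- Closed sets have strong traces of size `τ`. -/
theorem exists_clo_sm (hτ : BasePt K ℓ κf α τ) (hτθ : τ < θ) {N : Set C}
    (hN : N ∈ (pg h₀ hK hunb hst hCm hs hCc).S) :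
    ∃ φ : Finset C → Set C, (∀ s, #(φ s) ≤ τ) ∧ ∀ H : Set C, Clo φ H → #H ≤ τ →
      N ∩ H ∈ Sm K τ C := by
  obtain ⟨D, hD, hDc, hDN⟩ := hN
  obtain ⟨φ, h1, h2⟩ := exists_clo_pack h₀ hK hunb hst hCm hs hCc hτ hτθ (N := N)
    ⟨D, hD, hDc, hDN⟩ (R := fun _ => N) fun _ => ⟨D, hD, hDN⟩
  exact ⟨φ, h1, fun H hH hHc => (h2 H ⟨hH, hHc⟩).1⟩

/-- **Traces of the atomic models over a model and finitely many points.** -/
theorem pg_tr_one (hΛ : BasePt K ℓ κf α Λ) (hθΛ : θ < Λ) (hτ : BasePt K ℓ κf α τ) (hτθ : τ < θ)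
    {P p Q : Set C} (hP : P ∈ (pg h₀ hK hunb hst hCm hs hCc).S) (hp : p.Finite)
    (hQ : (pg h₀ hK hunb hst hCm hs hCc).Atomic Q (p ∪ P)) :
    ∃ φ : Finset C → Set C, (∀ s, #(φ s) ≤ τ) ∧ ∀ H : Set C, Clo φ H → #H ≤ τ →
      P ∩ H ∈ Sm K τ C ∧ Q ∩ H ∈ Sm K τ C ∧
      (p ⊆ H → (∀ E ⊆ Q ∩ H, #E < τ → ∃ B ⊆ (p ∪ P) ∩ H, #B < τ ∧
          (pg h₀ hK hunb hst hCm hs hCc).Isol B (p ∪ P) E) ∧
        ∀ (C' : L.Substructure C) (hC' : K.le C') (hC'c : #C' = Order.succ τ)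
          (hC's : Sat K τ C'), Q ∩ H ⊆ C' → (pgLow hK hunb hst hτ hC' hC'c hC's).Atomic
            (tr (C' : Set C) (Q ∩ H)) (tr (C' : Set C) ((p ∪ P) ∩ H))) := by
  have hτ0 := aleph0_le_pt hτ hK
  obtain ⟨φ₁, h1, h1'⟩ := exists_closure_all h₀ hK hunb hst hCm hs hCc hτ.pt.lt hτ.pow hτθ.le hP
  obtain ⟨φ₂, h2, h2'⟩ := exists_closure_all h₀ hK hunb hst hCm hs hCc hτ.pt.lt hτ.pow hτθ.le
    hQ.mem
  obtain ⟨φ₃, h3, h3'⟩ := exists_clo_sm h₀ hK hunb hst hCm hs hCc hτ hτθ hP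
  obtain ⟨φ₄, h4, h4'⟩ := exists_clo_sm h₀ hK hunb hst hCm hs hCc hτ hτθ hQ.mem
  refine ⟨fun s => (φ₁ s ∪ φ₂ s) ∪ (φ₃ s ∪ φ₄ s), fun s => ?_, fun H hH hHc => ?_⟩
  · refine (mk_union_le _ _).trans (add_le_of_le hτ0 ?_ ?_)
    · exact (mk_union_le _ _).trans (add_le_of_le hτ0 (h1 s) (h2 s))
    · exact (mk_union_le _ _).trans (add_le_of_le hτ0 (h3 s) (h4 s))
  obtain ⟨hH12, hH34⟩ := clo_union hH
  obtain ⟨hH1, hH2⟩ := clo_union hH12
  obtain ⟨hH3, hH4⟩ := clo_union hH34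
  obtain ⟨-, -, hP'⟩ := h1' H hH1
  obtain ⟨-, -, hQ'⟩ := h2' H hH2
  refine ⟨h3' H hH3 hHc, h4' H hH4 hHc, fun hpH => ?_⟩
  have hrefl : ∀ q ⊆ Q ∩ H, #q < τ → ∀ B ⊆ p ∪ P, #B < τ →
      ∃ k ∈ (pg h₀ hK hunb hst hCm hs hCc).G, (∀ x ∈ q, k x = x) ∧
        ∀ b ∈ B, k b ∈ (p ∪ P) ∩ H := by
    intro q hq hqc B hB hBc
    have hpc : #p < τ := (lt_aleph0_iff_set_finite.2 hp).trans_le hτ0
    let d : Cardinal.{u} := max #(q ∪ p : Set C) #B
    have hd : d < τ := max_lt ((mk_union_le _ _).trans_lt (add_lt_of_lt hτ0 hqc hpc)) hBc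
    obtain ⟨q₀, hq₀, -, h5⟩ := (hP' d hd).1 (B ∩ P) inter_subset_right
      ((mk_le_mk_of_subset inter_subset_left).trans (le_max_right _ _))
    obtain ⟨g, hg, h6, h7⟩ := h5 (q ∪ p) (union_subset (hq.trans inter_subset_right) hpH)
      (le_max_left _ _)
    refine ⟨g, hg, fun x hx => h6 x (Or.inl hx), fun b hb => ?_⟩
    rcases hB hb with h8 | h8
    · rw [h6 b (Or.inr h8)]
      exact ⟨Or.inl h8, hpH h8⟩
    · have h9 := hq₀ (h7 b ⟨hb, h8⟩)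
      exact ⟨Or.inr h9.1, h9.2⟩
  have hsat : ∀ q ⊆ Q ∩ H, #q < τ → ∀ E : Set C, #E < τ →
      ∃ k ∈ (pg h₀ hK hunb hst hCm hs hCc).G, (∀ x ∈ q, k x = x) ∧ ∀ d ∈ E, k d ∈ Q ∩ H := by
    intro q hq hqc E hEc
    let d : Cardinal.{u} := max #q #E
    have hd : d < τ := max_lt hqc hEc
    obtain ⟨q₀, hq₀, -, h5⟩ := (hQ' d hd).2.1 E (le_max_right _ _)
    obtain ⟨g, hg, h6, h7⟩ := h5 q hq (le_max_left _ _)
    exact ⟨g, hg, h6, fun x hx => hq₀ (h7 x hx)⟩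
  have htiny : ∀ E ⊆ Q ∩ H, #E < τ → ∃ B ⊆ p ∪ P, #B < τ ∧
      (pg h₀ hK hunb hst hCm hs hCc).Isol B (p ∪ P) E := fun E hE hEc =>
    pg_tiny1 h₀ hK hunb hst hCm hs hCc hΛ hθΛ hτ hτθ hP hp hQ E (hE.trans inter_subset_left) hEc
  have hno := pg_noOrd h₀ hK hunb hst hCm hs hCc hτ hτθ
  refine ⟨exists_isol_tr hτ0 hτθ.le hno hQ.sub hrefl hsat htiny, ?_⟩
  intro C' hC' hC'c hC's hD
  exact (pg_low h₀ hK hunb hst hCm hs hCc hτ hτθ hC' hC'c hC's).atomic_tr hno hQ.sub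
    (tr_mem hK hunb hst hτ hC' hC'c hC's (h4' H hH4 hHc) hD) hD hrefl hsat htiny

/-- **Traces of prime chains.** -/
theorem pg_tr_pch (hΛ : BasePt K ℓ κf α Λ) (hθΛ : θ < Λ) (hτ : BasePt K ℓ κf α τ) (hτθ : τ < θ)
    {P : Set C} {J : Type u} [LinearOrder J] [WellFoundedLT J] {c : J → C} {Q : J → Set C}
    (h : PCh (pg h₀ hK hunb hst hCm hs hCc) P c Q) (hcP : ∀ j, c j ∉ P)
    (hpre : ∀ j, pre P Q j ∈ (pg h₀ hK hunb hst hCm hs hCc).S) :
    ∃ φ : Finset C → Set C, (∀ s, #(φ s) ≤ τ) ∧ ∀ H : Set C, Clo φ H → #H ≤ τ →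
      P ∩ H ∈ Sm K τ C ∧
      tot (P ∩ H) (fun j : {j : J // c j ∈ H} => Q j ∩ H) = tot P Q ∩ H ∧
      ∀ (C' : L.Substructure C) (hC' : K.le C') (hC'c : #C' = Order.succ τ) (hC's : Sat K τ C'),
        tot P Q ∩ H ⊆ C' → ∃ c' : {j : J // c j ∈ H} → (C' : Set C), (∀ j, (c' j : C) = c j) ∧
          PCh (pgLow hK hunb hst hτ hC' hC'c hC's) (tr (C' : Set C) (P ∩ H)) c'
            (fun j => tr (C' : Set C) (Q j ∩ H)) := by
  classical
  have hτ0 := aleph0_le_pt hτ hK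
  have hinj : Function.Injective c := by
    have h1 : ∀ i j, i < j → c i ≠ c j := by
      intro i j hij hc
      have h2 : c j ∈ pre P Q j := by
        rw [← hc]
        exact sub_pre P Q hij (h.mem i)
      exact hcP j ((h.ind j).inter_sub ⟨rfl, h2⟩)
    intro i j hc
    rcases lt_trichotomy i j with h2 | h2 | h2
    · exact absurd hc (h1 i j h2)
    · exact h2
    · exact absurd hc.symm (h1 j i h2)
  -- the closures of the steps
  have hstep := fun j => pg_tr_one h₀ hK hunb hst hCm hs hCc hΛ hθΛ hτ hτθ (hpre j)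
    (finite_singleton (c j)) (h.atomic j)
  choose ψ hψ hψ' using hstep
  obtain ⟨φ₁, h1, h1'⟩ := exists_clo_fam hτ0 c hinj ψ hψ
  obtain ⟨φ₂, h2, h2'⟩ := exists_trace_ind h₀ hK hunb hst hCm hs hCc hτ.pt.lt hτ.pow hτθ.le
    h.base
  obtain ⟨φ₃, h3, h3'⟩ := exists_clo_sm h₀ hK hunb hst hCm hs hCc hτ hτθ h.base
  let φ₄ : Finset C → Set C := fun s => ⋃ x : s, {y | ∃ j, (x : C) ∈ Q j ∧
    (∀ i < j, (x : C) ∉ Q i) ∧ y = c j}
  have h4 : ∀ s, #(φ₄ s) ≤ τ := by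
    intro s
    refine (mk_iUnion_le _).trans ((mul_le_mul' ((lt_aleph0_of_finite _).le.trans hτ0)
      (ciSup_le' fun x => ?_)).trans (mul_eq_self hτ0).le)
    refine le_trans ?_ (one_le_aleph0.trans hτ0)
    rw [Cardinal.le_one_iff_subsingleton]
    refine ⟨fun a b => Subtype.ext ?_⟩
    obtain ⟨i, hi1, hi2, hi3⟩ := a.2
    obtain ⟨j, hj1, hj2, hj3⟩ := b.2
    have hij : i = j := by
      rcases lt_trichotomy i j with h | h | h
      · exact absurd hi1 (hj2 i h)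
      · exact h
      · exact absurd hj1 (hi2 j h)
    rw [hi3, hj3, hij]
  refine ⟨fun s => (φ₁ s ∪ φ₂ s) ∪ (φ₃ s ∪ φ₄ s), fun s => ?_, fun H hH hHc => ?_⟩
  · refine (mk_union_le _ _).trans (add_le_of_le hτ0 ?_ ?_)
    · exact (mk_union_le _ _).trans (add_le_of_le hτ0 (h1 s) (h2 s))
    · exact (mk_union_le _ _).trans (add_le_of_le hτ0 (h3 s) (h4 s))
  obtain ⟨hH12, hH34⟩ := clo_union hH
  obtain ⟨hH1, hH2⟩ := clo_union hH12
  obtain ⟨hH3, hH4⟩ := clo_union hH34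
  -- the points of the chain responsible for an element
  have hex : ∀ x ∈ H, ∀ k, x ∈ Q k → ∃ j : {j : J // c j ∈ H}, j.1 ≤ k ∧ x ∈ Q j := by
    intro x hx k hk
    let m := wellFounded_lt.min {j | x ∈ Q j} ⟨k, hk⟩
    have hm : x ∈ Q m := wellFounded_lt.min_mem {j | x ∈ Q j} ⟨k, hk⟩
    have hm' : ∀ i < m, x ∉ Q i := fun i hi hxi =>
      wellFounded_lt.not_lt_min {j | x ∈ Q j} hxi hi
    have h5 : c m ∈ H := by
      refine hH4 {x} (by simpa using hx) (mem_iUnion.2 ⟨⟨x, Finset.mem_singleton_self x⟩, ?_⟩)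
      exact ⟨m, hm, hm', rfl⟩
    exact ⟨⟨m, h5⟩, not_lt.1 (fun h => hm' k h hk), hm⟩
  have hprt : ∀ j : {j : J // c j ∈ H}, pre (P ∩ H) (fun j : {j : J // c j ∈ H} => Q j ∩ H) j =
      pre P Q j ∩ H := by
    intro j
    ext x
    constructor
    · rintro (hx | hx)
      · exact ⟨Or.inl hx.1, hx.2⟩
      · obtain ⟨k, hk⟩ := mem_iUnion.1 hx
        exact ⟨sub_pre P Q (j := k.1.1) (i := j.1) k.2 hk.1, hk.2⟩
    · rintro ⟨hx | hx, hxH⟩
      · exact Or.inl ⟨hx, hxH⟩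
      · obtain ⟨k, hk⟩ := mem_iUnion.1 hx
        obtain ⟨m, hm, hm'⟩ := hex x hxH k.1 hk
        exact Or.inr (mem_iUnion.2 ⟨⟨m, lt_of_le_of_lt hm k.2⟩, hm', hxH⟩)
  refine ⟨h3' H hH3 hHc, ?_, ?_⟩
  · ext x
    constructor
    · rintro (hx | hx)
      · exact ⟨Or.inl hx.1, hx.2⟩
      · obtain ⟨k, hk⟩ := mem_iUnion.1 hx
        exact ⟨sub_tot P Q k.1 hk.1, hk.2⟩
    · rintro ⟨hx | hx, hxH⟩
      · exact Or.inl ⟨hx, hxH⟩
      · obtain ⟨k, hk⟩ := mem_iUnion.1 hx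
        obtain ⟨m, -, hm'⟩ := hex x hxH k hk
        exact Or.inr (mem_iUnion.2 ⟨m, hm', hxH⟩)
  intro C' hC' hC'c hC's hD
  have hL := pg_low h₀ hK hunb hst hCm hs hCc hτ hτθ hC' hC'c hC's
  have hQD : ∀ j, Q j ∩ H ⊆ C' := fun j x hx => hD ⟨sub_tot P Q j hx.1, hx.2⟩
  have hPD : P ∩ H ⊆ C' := fun x hx => hD ⟨Or.inl hx.1, hx.2⟩
  have hpreD : ∀ j, pre P Q j ∩ H ⊆ C' := fun j x hx => hD ⟨pre_sub_tot P Q j hx.1, hx.2⟩
  have htrp : ∀ j : {j : J // c j ∈ H}, pre (tr (C' : Set C) (P ∩ H))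
      (fun j : {j : J // c j ∈ H} => tr (C' : Set C) (Q j ∩ H)) j =
      tr (C' : Set C) (pre P Q j ∩ H) := by
    intro j
    rw [← hprt j]
    ext x
    constructor
    · rintro (hx | hx)
      · exact Or.inl hx
      · obtain ⟨k, hk⟩ := mem_iUnion.1 hx
        exact Or.inr (mem_iUnion.2 ⟨k, hk⟩)
    · rintro (hx | hx)
      · exact Or.inl hx
      · obtain ⟨k, hk⟩ := mem_iUnion.1 hx
        exact Or.inr (mem_iUnion.2 ⟨k, hk⟩)
  refine ⟨fun j => ⟨c j, hQD j ⟨h.mem j, j.2⟩⟩, fun j => rfl, ?_, fun j => ?_, fun j => ?_⟩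
  · exact tr_mem hK hunb hst hτ hC' hC'c hC's (h3' H hH3 hHc) hPD
  · rw [htrp j]
    have h5 : (pg h₀ hK hunb hst hCm hs hCc).IndT τ (P ∩ H) {c j} (pre P Q j ∩ H) := by
      intro A' hA' hA'c B' hB' hB'c
      refine (h2' H hH2).2 {c j} (pre P Q j) (h.ind j) A' (hA'.trans ?_) hA'c B'
        (hB'.trans inter_subset_left) hB'c
      rintro x (hx | hx)
      · exact ⟨Or.inl hx.1, hx.2⟩
      · rw [mem_singleton_iff] at hx
        rw [hx]
        exact ⟨Or.inr rfl, j.2⟩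
    have h6 := hL.ind_dn hPD h5
    have h7 : tr (C' : Set C) {c j} = {⟨c j, hQD j ⟨h.mem j, j.2⟩⟩} := by
      ext x
      exact ⟨fun hx => Subtype.ext hx, fun hx => congrArg Subtype.val hx⟩
    rwa [h7] at h6
  · rw [htrp j]
    obtain ⟨-, -, h5⟩ := hψ' j H (h1' H hH1 j j.2) hHc
    have h6 := (h5 (singleton_subset_iff.2 j.2)).2 C' hC' hC'c hC's (hQD j)
    have h7 : tr (C' : Set C) (({c j.1} ∪ pre P Q j.1) ∩ H) =
        {⟨c j, hQD j ⟨h.mem j, j.2⟩⟩} ∪ tr (C' : Set C) (pre P Q j ∩ H) := by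
      ext x
      constructor
      · rintro ⟨hx | hx, hxH⟩
        · exact Or.inl (Subtype.ext hx)
        · exact Or.inr ⟨hx, hxH⟩
      · rintro (hx | hx)
        · have h8 : (x : C) = c j := congrArg Subtype.val hx
          refine ⟨Or.inl h8, ?_⟩
          rw [h8]
          exact j.2
        · exact ⟨Or.inr hx.1, hx.2⟩
    rwa [h7] at h6

end

end Vale.Agent.P307.R2.H913
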