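import Vale.Agent.P307.R2.H913.LimHyp

/-!
Limits of coherent maps on independent pairs of models, with the help of a decomposition of one of
the two models into prime chains and of atomic models over the other one.
-/

set_option linter.unusedSectionVars false

universe u v

open Set Cardinal Function

namespace Vale.Agent.P307.R2.H913

open Vale.Agent.P307.R2.H541 Vale.Agent.P307.R2.H541.PG Vale.Agent.P307.R2.H650

variable {C : Type u} {M : PG C} {J : Type u} [LinearOrder J] [Nonempty J]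
  {N D : ℕ → J → Set C} {f : C → C}

variable (M N D) in
/-- Models `N n i` and `D n i`, increasing in both arguments; `D n i` is atomic over `D 0 i` and
`N n i`, and `N n i` is free from `D 0 i` over `N 0 i`. The unions over `i` of the `N n i` are
prime chains over each other. -/
structure Tow : Prop where
  memN : ∀ n i, N n i ∈ M.S
  memD : ∀ n i, D n i ∈ M.S
  monoN : ∀ n, Monotone (N n)
  monoD : ∀ n, Monotone (D n)
  upN : ∀ i n, N n i ⊆ N (n + 1) i
  upD : ∀ i n, D n i ⊆ D (n + 1) i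
  atomic : ∀ n i, M.Atomic (D n i) (D 0 i ∪ N n i)
  ind : ∀ n i, M.Ind (N 0 i) (N n i) (D 0 i)
  base : ∀ i, N 0 i ⊆ D 0 i
  card : ∀ n, #(⋃ i, D n i : Set C) ≤ M.χ
  pch : ∀ n, ∃ (κ : Type u) (_ : LinearOrder κ) (_ : WellFoundedLT κ) (c : κ → C) (Q : κ → Set C),
    #κ ≤ M.χ ∧ PCh M (⋃ i, N n i) c Q ∧ (⋃ i, N (n + 1) i) = tot (⋃ i, N n i) Q

namespace Tow

theorem N_le (h : Tow M N D) (i : J) : Monotone fun n => N n i :=
  monotone_nat_of_le_succ (h.upN i)

theorem D_le (h : Tow M N D) (i : J) : Monotone fun n => D n i :=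
  monotone_nat_of_le_succ (h.upD i)

theorem sub (h : Tow M N D) (n : ℕ) (i : J) : N n i ⊆ D n i :=
  subset_union_right.trans (h.atomic n i).sub

theorem memDu (hU : Uni M) (h : Tow M N D) (n : ℕ) : (⋃ i, D n i) ∈ M.S :=
  hU.union J (D n) (h.monoD n) (h.memD n) (h.card n)

theorem memNu (hU : Uni M) (h : Tow M N D) (n : ℕ) : (⋃ i, N n i) ∈ M.S :=
  hU.union J (N n) (h.monoN n) (h.memN n)
    ((mk_le_mk_of_subset (iUnion_mono (h.sub n))).trans (h.card n))

/-- Finite subsets of a union of a chain are in a member. -/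
theorem exists_finite_sub {A : J → Set C} (hA : Monotone A) {x : Set C} (hx : x.Finite)
    (h : x ⊆ ⋃ i, A i) : ∃ i, x ⊆ A i := by
  induction x, hx using Set.Finite.induction_on with
  | empty => exact ⟨Classical.arbitrary J, empty_subset _⟩
  | @insert a q _ _ ih =>
    obtain ⟨i, hi⟩ := ih ((subset_insert a q).trans h)
    obtain ⟨j, hj⟩ := mem_iUnion.1 (h (mem_insert a q))
    exact ⟨max i j, insert_subset (hA (le_max_right i j) hj) (hi.trans (hA (le_max_left i j)))⟩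

/-- The image of a finite set is free from the image of the atomic model: `φ` is the map on
`D n`, and `f` is given by elements of the group at every stage. -/
theorem ind_fin (hM : M.Calc) (hC : Chn M) (h : Tow M N D)
    (hf : ∀ i, ∃ g ∈ M.G, (∀ a ∈ D 0 i, g a = f a) ∧ ∀ n, ∀ a ∈ N n i, g a = f a) {n : ℕ}
    {φ : Equiv.Perm C} (hφ : φ ∈ M.G) (hφD : ∀ i, ∀ a ∈ D 0 i, φ a = f a)
    (hφN : ∀ i, ∀ a ∈ N n i, φ a = f a) {x : Set C} (hx : x.Finite)
    (hxN : x ⊆ ⋃ i, N (n + 1) i) :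
    M.Ind (f '' ⋃ i, N n i) (f '' x) (φ '' ⋃ i, D n i) := by
  have hU : Uni M := Uni.of_chn hC
  obtain ⟨i₀, hi₀⟩ := exists_finite_sub (h.monoN (n + 1)) hx hxN
  have hφi : φ '' (⋃ i, N n i) = f '' ⋃ i, N n i := image_congr fun a ha => by
    obtain ⟨i, hi⟩ := mem_iUnion.1 ha
    exact hφN i a hi
  have hloc := hC.loc J (fun i => φ '' D n i) (fun i j hij => image_mono (h.monoD n hij))
    (fun i => M.S_inv hφ (h.memD n i)) (by
      rw [← image_iUnion]
      exact mk_image_le.trans (h.card n)) (f '' x) (hx.image f)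
  have hst : ∀ i, i₀ ≤ i → M.Ind (φ '' N n i) (f '' x) (φ '' D n i) := by
    intro i hi
    obtain ⟨g, hg, hgD, hgN⟩ := hf i
    have hxi : x ⊆ N (n + 1) i := hi₀.trans (h.monoN (n + 1) hi)
    -- at the stage `i`
    have h0 : M.Ind (N 0 i) (N n i ∪ x) (D 0 i) := by
      refine (h.ind (n + 1) i).mono (union_subset (h.upN i n) hxi) Subset.rfl
    have h1 : M.Ind (N n i) x (D 0 i) := h0.base_mono (h.N_le i (Nat.zero_le n))
    have h2 : M.Ind (g '' N n i) (g '' x) (g '' D 0 i) := h1.smul hg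
    have e1 : g '' N n i = φ '' N n i := image_congr fun a ha => by
      rw [hgN n a ha, hφN i a ha]
    have e2 : g '' x = f '' x := image_congr fun a ha => hgN (n + 1) a (hxi ha)
    have e3 : g '' D 0 i = φ '' D 0 i := image_congr fun a ha => by
      rw [hgD a ha, hφD i a ha]
    rw [e1, e2, e3] at h2
    have h3 := atomic_map (h.atomic n i) hφ
    rw [image_union] at h3
    exact hM.sym (M.S_inv hφ (h.memN n i))
      (h3.dom (hM.sym (M.S_inv hφ (h.memN n i)) h2))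
  have h4 := ind_of_stages' hM (P := fun i => φ '' N n i) (N := fun i => φ '' D n i)
    (fun i => M.S_inv hφ (h.memN n i)) (fun i j hij => image_mono (h.monoD n hij))
    (fun i => M.S_inv hφ (h.memD n i)) (fun i => image_mono (h.sub n i)) (by
      rw [← image_iUnion]
      exact M.S_inv hφ (h.memNu hU n)) hloc hst
  rw [← image_iUnion, ← image_iUnion, hφi] at h4
  exact h4

/-- One step. -/
theorem step (hM : M.Calc) (hB : M.Big) (hC : Chn M) (hPt : Pt1 M) (h : Tow M N D)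
    (hf : ∀ i, ∃ g ∈ M.G, (∀ a ∈ D 0 i, g a = f a) ∧ ∀ n, ∀ a ∈ N n i, g a = f a) {n : ℕ}
    {φ : Equiv.Perm C} (hφ : φ ∈ M.G) (hφD : ∀ i, ∀ a ∈ D 0 i, φ a = f a)
    (hφN : ∀ i, ∀ a ∈ N n i, φ a = f a) :
    ∃ ψ ∈ M.G, (∀ i, ∀ a ∈ D n i, ψ a = φ a) ∧ ∀ i, ∀ a ∈ N (n + 1) i, ψ a = f a := by
  have hU : Uni M := Uni.of_chn hC
  obtain ⟨κ, i1, i2, c, Q, hκ, hP, htot⟩ := h.pch n
  -- `f` on the next model
  have hgs : ∃ g ∈ M.G, ∀ a ∈ ⋃ i, N (n + 1) i, g a = f a := by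
    refine hU.face (h.monoN (n + 1)) (h.memN (n + 1)) ?_ fun i => ?_
    · exact (mk_le_mk_of_subset (iUnion_mono (h.sub (n + 1)))).trans (h.card (n + 1))
    · obtain ⟨g, hg, -, hgN⟩ := hf i
      exact ⟨g, hg, hgN (n + 1)⟩
  obtain ⟨g, hg, hgf⟩ := hgs
  have hNN : (⋃ i, N n i) ⊆ ⋃ i, N (n + 1) i := iUnion_mono fun i => h.upN i n
  have hcx : ∀ x : Finset κ, c '' x ⊆ ⋃ i, N (n + 1) i := by
    rintro x _ ⟨k, -, rfl⟩
    rw [htot]
    exact sub_tot _ Q k (hP.mem k)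
  have hNf : ∀ a ∈ ⋃ i, N n i, φ a = f a := by
    intro a ha
    obtain ⟨i, hi⟩ := mem_iUnion.1 ha
    exact hφN i a hi
  -- the identity
  have hid : ∀ i, ∃ g ∈ M.G, (∀ a ∈ D 0 i, g a = id a) ∧ ∀ n, ∀ a ∈ N n i, g a = id a :=
    fun i => ⟨1, M.G.one_mem, fun _ _ => rfl, fun _ _ _ => rfl⟩
  obtain ⟨u, hu, hu1, hu2⟩ := hP.exists_glue hM hB hC hPt (R := ⋃ i, D n i)
    (g := g⁻¹ * φ) (by
      rw [← htot]
      exact (mk_le_mk_of_subset (iUnion_mono (h.sub (n + 1)))).trans (h.card (n + 1))) hκ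
    (h.memDu hU n) (iUnion_mono (h.sub n)) (by
      intro x
      have h1 := h.ind_fin hM hC hid (n := n) M.G.one_mem (fun i a _ => rfl) (fun i a _ => rfl)
        (x.finite_toSet.image c) (hcx x)
      have e : ((1 : Equiv.Perm C) : C → C) = id := rfl
      rw [e, image_id, image_id, image_id] at h1
      exact h1) (M.G.mul_mem (M.G.inv_mem hg) hφ) (by
      intro a ha
      rw [Equiv.Perm.mul_apply, hNf a ha, ← hgf a (hNN ha), inv_ap]) (by
      intro x
      have h1 := (h.ind_fin hM hC hf (n := n) hφ hφD hφN (x.finite_toSet.image c)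
        (hcx x)).smul (M.G.inv_mem hg)
      have e1 : (g⁻¹ : Equiv.Perm C) '' (f '' ⋃ i, N n i) = ⋃ i, N n i := by
        rw [← image_congr fun a ha => hgf a (hNN ha), ← image_comp]
        have : ((g⁻¹ : Equiv.Perm C) : C → C) ∘ g = id := by
          funext a
          exact inv_ap g a
        rw [this, image_id]
      have e2 : (g⁻¹ : Equiv.Perm C) '' (f '' (c '' x)) = c '' x := by
        rw [← image_congr fun a ha => hgf a (hcx x ha), ← image_comp]
        have : ((g⁻¹ : Equiv.Perm C) : C → C) ∘ g = id := by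
          funext a
          exact inv_ap g a
        rw [this, image_id]
      have e3 : (g⁻¹ : Equiv.Perm C) '' (φ '' ⋃ i, D n i) = (g⁻¹ * φ) '' ⋃ i, D n i := by
        rw [← image_comp]
        rfl
      rw [e1, e2, e3] at h1
      exact h1)
  refine ⟨g * u, M.G.mul_mem hg hu, fun i a ha => ?_, fun i a ha => ?_⟩
  · rw [Equiv.Perm.mul_apply, hu2 a (mem_iUnion.2 ⟨i, ha⟩), Equiv.Perm.mul_apply, ap_inv]
  · have h1 : a ∈ ⋃ i, N (n + 1) i := mem_iUnion.2 ⟨i, ha⟩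
    rw [Equiv.Perm.mul_apply, hu1 a (by rw [← htot]; exact h1), hgf a h1]

/-- **The limit of coherent maps on independent pairs.** -/
theorem exists_map (hM : M.Calc) (hB : M.Big) (hC : Chn M) (hPt : Pt1 M) (h : Tow M N D)
    (hc : #(⋃ n, ⋃ i, D n i : Set C) ≤ M.χ)
    (hf : ∀ i, ∃ g ∈ M.G, (∀ a ∈ D 0 i, g a = f a) ∧ ∀ n, ∀ a ∈ N n i, g a = f a) :
    ∃ g ∈ M.G, (∀ i, ∀ a ∈ D 0 i, g a = f a) ∧ ∀ n i, ∀ a ∈ N n i, g a = f a := by
  have hU : Uni M := Uni.of_chn hC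
  obtain ⟨φ, h1, h2⟩ := exists_seq (fun n (φ : Equiv.Perm C) => φ ∈ M.G ∧
      (∀ i, ∀ a ∈ D 0 i, φ a = f a) ∧ ∀ i, ∀ a ∈ N n i, φ a = f a)
    (fun n φ ψ => ∀ i, ∀ a ∈ D n i, ψ a = φ a) (by
      have h3 : ∃ g ∈ M.G, ∀ a ∈ ⋃ i, D 0 i, g a = f a := by
        refine hU.face (h.monoD 0) (h.memD 0) (h.card 0) fun i => ?_
        obtain ⟨g, hg, hgD, -⟩ := hf i
        exact ⟨g, hg, hgD⟩
      obtain ⟨g, hg, hgf⟩ := h3
      exact ⟨g, hg, fun i a ha => hgf a (mem_iUnion.2 ⟨i, ha⟩), fun i a ha =>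
        hgf a (mem_iUnion.2 ⟨i, h.base i ha⟩)⟩) (by
      rintro n φ ⟨hφ, hφD, hφN⟩
      obtain ⟨ψ, hψ, hψ1, hψ2⟩ := h.step hM hB hC hPt hf hφ hφD hφN
      exact ⟨ψ, ⟨hψ, fun i a ha => by
        rw [hψ1 i a (h.D_le i (Nat.zero_le n) ha), hφD i a ha], hψ2⟩, hψ1⟩)
  have h3 : ∀ n m, n ≤ m → ∀ i, ∀ a ∈ D n i, φ m a = φ n a := by
    intro n m hnm
    induction m, hnm using Nat.le_induction with
    | base => exact fun _ _ _ => rfl
    | succ m hnm ih =>
      intro i a ha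
      rw [h2 m i a (h.D_le i hnm ha), ih i a ha]
  obtain ⟨g, hg, h4⟩ := hU.glue (ULift.{u} ℕ) (fun n => ⋃ i, D n.down i) (fun n => φ n.down)
    (fun n m hnm => iUnion_mono fun i => h.D_le i hnm) (fun n => h.memDu hU n.down) (by
      refine le_trans (mk_le_mk_of_subset ?_) hc
      exact iUnion_subset fun n => subset_iUnion (fun n => ⋃ i, D n i) n.down)
    (fun n => (h1 n.down).1) (by
      intro n m hnm a ha
      obtain ⟨i, hi⟩ := mem_iUnion.1 ha
      exact h3 _ _ hnm i a hi)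
  refine ⟨g, hg, fun i a ha => ?_, fun n i a ha => ?_⟩
  · rw [h4 ⟨0⟩ a (mem_iUnion.2 ⟨i, ha⟩)]
    exact (h1 0).2.1 i a ha
  · rw [h4 ⟨n⟩ a (mem_iUnion.2 ⟨i, h.sub n i ha⟩)]
    exact (h1 n).2.2 i a ha

end Tow

end Vale.Agent.P307.R2.H913
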