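import Vale.Agent.P307.R2.H913.LL1
import Vale.Agent.P307.R2.H913.OdC
import Vale.Agent.P307.R2.H913.TrPch
import Vale.Agent.P307.R2.H427.MapPG
import Vale.Agent.P307.R2.H806.LimPG

/-!
Limits of coherent maps on independent pairs of models one of which is a prime chain.
-/

set_option linter.unusedSectionVars false

universe u v

open Set Cardinal Function

namespace Vale.Agent.P307.R2.H913

section one

open Vale.Agent.P307.R2.H541 Vale.Agent.P307.R2.H541.PG Vale.Agent.P307.R2.H650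

variable {C : Type u} {M : PG C} {J : Type u} [LinearOrder J] [Nonempty J]
  {N₀ N₁ D : J → Set C} {f : C → C}

/-- **The limit lemma for a prime chain.** -/
theorem two_map (hM : M.Calc) (hB : M.Big) (hC : Chn M) (hPt : Pt1 M)
    (hN₀ : ∀ i, N₀ i ∈ M.S) (hN₁ : ∀ i, N₁ i ∈ M.S) (hD : ∀ i, D i ∈ M.S) (mN₀ : Monotone N₀)
    (mN₁ : Monotone N₁) (mD : Monotone D) (h01 : ∀ i, N₀ i ⊆ N₁ i) (h0D : ∀ i, N₀ i ⊆ D i)
    (ind : ∀ i, M.Ind (N₀ i) (N₁ i) (D i)) (hDc : #(⋃ i, D i : Set C) ≤ M.χ)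
    (hNc : #(⋃ i, N₁ i : Set C) ≤ M.χ)
    {κ : Type u} [LinearOrder κ] [WellFoundedLT κ] {c : κ → C} {Q : κ → Set C} (hκ : #κ ≤ M.χ)
    (hP : PCh M (⋃ i, N₀ i) c Q) (htot : (⋃ i, N₁ i) = tot (⋃ i, N₀ i) Q)
    (hf : ∀ i, ∃ g ∈ M.G, (∀ a ∈ D i, g a = f a) ∧ ∀ a ∈ N₁ i, g a = f a) :
    ∃ g ∈ M.G, (∀ a ∈ ⋃ i, D i, g a = f a) ∧ ∀ a ∈ ⋃ i, N₁ i, g a = f a := by
  have hU : Uni M := Uni.of_chn hC
  have hNN : (⋃ i, N₀ i) ⊆ ⋃ i, N₁ i := iUnion_mono h01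
  have hN₀u : (⋃ i, N₀ i) ∈ M.S := hU.union J N₀ mN₀ hN₀ ((mk_le_mk_of_subset hNN).trans hNc)
  have hDu : (⋃ i, D i) ∈ M.S := hU.union J D mD hD hDc
  obtain ⟨g, hg, hgf⟩ := hU.face (f := f) mN₁ hN₁ hNc fun i => by
    obtain ⟨g, hg, -, h⟩ := hf i
    exact ⟨g, hg, h⟩
  obtain ⟨φ, hφ, hφf⟩ := hU.face (f := f) mD hD hDc fun i => by
    obtain ⟨g, hg, h, -⟩ := hf i
    exact ⟨g, hg, h⟩
  -- freeness of the finite sets
  have key : ∀ (F : C → C), (∀ i, ∃ g ∈ M.G, (∀ a ∈ D i, g a = F a) ∧ ∀ a ∈ N₁ i, g a = F a) →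
      ∀ ψ ∈ M.G, (∀ a ∈ ⋃ i, D i, ψ a = F a) → ∀ x : Set C, x.Finite → x ⊆ (⋃ i, N₁ i) →
      M.Ind (F '' ⋃ i, N₀ i) (F '' x) (ψ '' ⋃ i, D i) := by
    intro F hF ψ hψ hψF x hx hxN
    obtain ⟨i₀, hi₀⟩ := Tow.exists_finite_sub mN₁ hx hxN
    have hψD : ∀ i, ψ '' D i = F '' D i := fun i =>
      image_congr fun a ha => hψF a (mem_iUnion.2 ⟨i, ha⟩)
    have hψN : ∀ i, ψ '' N₀ i = F '' N₀ i := fun i =>
      image_congr fun a ha => hψF a (mem_iUnion.2 ⟨i, h0D i ha⟩)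
    have hloc := hC.loc J (fun i => ψ '' D i) (fun i j hij => image_mono (mD hij))
      (fun i => M.S_inv hψ (hD i)) (by
        rw [← image_iUnion]
        exact mk_image_le.trans hDc) (F '' x) (hx.image F)
    have hst : ∀ i, i₀ ≤ i → M.Ind (ψ '' N₀ i) (F '' x) (ψ '' D i) := by
      intro i hi
      obtain ⟨g, hg, hgD, hgN⟩ := hF i
      have hxi : x ⊆ N₁ i := hi₀.trans (mN₁ hi)
      have h2 := ((ind i).mono hxi Subset.rfl).smul hg
      rw [hψD, hψN]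
      rwa [image_congr fun a ha => hgD a (h0D i ha), image_congr fun a ha => hgN a (hxi ha),
        image_congr hgD] at h2
    have h4 := ind_of_stages' hM (P := fun i => ψ '' N₀ i) (N := fun i => ψ '' D i)
      (fun i => M.S_inv hψ (hN₀ i)) (fun i j hij => image_mono (mD hij))
      (fun i => M.S_inv hψ (hD i)) (fun i => image_mono (h0D i)) (by
        rw [← image_iUnion]
        exact M.S_inv hψ hN₀u) hloc hst
    rw [← image_iUnion, ← image_iUnion] at h4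
    have h5 : ψ '' (⋃ i, N₀ i) = F '' ⋃ i, N₀ i :=
      image_congr fun a ha => hψF a (iUnion_mono h0D ha)
    rwa [h5] at h4
  have hcx : ∀ x : Finset κ, c '' x ⊆ ⋃ i, N₁ i := by
    rintro x _ ⟨k, -, rfl⟩
    rw [htot]
    exact sub_tot _ Q k (hP.mem k)
  obtain ⟨u, hu, hu1, hu2⟩ := hP.exists_glue hM hB hC hPt (R := ⋃ i, D i)
    (g := g⁻¹ * φ) (by
      rw [← htot]
      exact hNc) hκ hDu (iUnion_mono h0D) (by
      intro x
      have h1 := key id (fun i => ⟨1, M.G.one_mem, fun _ _ => rfl, fun _ _ => rfl⟩) 1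
        M.G.one_mem (fun _ _ => rfl) (c '' x) (x.finite_toSet.image c) (hcx x)
      have e : ((1 : Equiv.Perm C) : C → C) = id := rfl
      rw [e, image_id, image_id, image_id] at h1
      exact h1) (M.G.mul_mem (M.G.inv_mem hg) hφ) (by
      intro a ha
      rw [Equiv.Perm.mul_apply, hφf a (iUnion_mono h0D ha), ← hgf a (hNN ha), inv_ap]) (by
      intro x
      have h1 := (key f hf φ hφ hφf (c '' x) (x.finite_toSet.image c) (hcx x)).smul
        (M.G.inv_mem hg)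
      have e0 : ((g⁻¹ : Equiv.Perm C) : C → C) ∘ g = id := by
        funext a
        exact inv_ap g a
      have e1 : (g⁻¹ : Equiv.Perm C) '' (f '' ⋃ i, N₀ i) = ⋃ i, N₀ i := by
        rw [← image_congr fun a ha => hgf a (hNN ha), ← image_comp, e0, image_id]
      have e2 : (g⁻¹ : Equiv.Perm C) '' (f '' (c '' x)) = c '' x := by
        rw [← image_congr fun a ha => hgf a (hcx x ha), ← image_comp, e0, image_id]
      have e3 : (g⁻¹ : Equiv.Perm C) '' (φ '' ⋃ i, D i) = (g⁻¹ * φ) '' ⋃ i, D i := by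
        rw [← image_comp]
        rfl
      rw [e1, e2, e3] at h1
      exact h1)
  refine ⟨g * u, M.G.mul_mem hg hu, fun a ha => ?_, fun a ha => ?_⟩
  · rw [Equiv.Perm.mul_apply, hu2 a ha, Equiv.Perm.mul_apply, ap_inv, hφf a ha]
  · rw [Equiv.Perm.mul_apply, hu1 a (by rw [← htot]; exact ha), hgf a ha]

end one

section two

open FirstOrder
open Vale.Agent.P307 Vale.Agent.P307.H304 Vale.Agent.P307.R2.H287 Vale.Agent.P307.R2.H1
  Vale.Agent.P307.R2.H971 Vale.Agent.P307.R2.H804 Vale.Agent.P307.R2.H541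
  Vale.Agent.P307.R2.H541.PG Vale.Agent.P307.R2.H68 Vale.Agent.P307.R2.H650
  Vale.Agent.P307.R2.H806 Language.Structure Language.Substructure

variable {L : Language.{u, u}} {K : AEC L} {ℓ Λ τ θ : Cardinal.{u}}
  {κf α : Cardinal.{u} → Cardinal.{u}} {C : Type u} [L.Structure C]

variable (h₀ : BasePt K ℓ κf α θ) (hK : K.IsLS ℓ)
  (hunb : ∀ ν, ν < κf ν ∧ K.CategoricalIn (κf ν)) (hst : Stab K ℓ α (H287.thr κf))
  (hCm : K.mem C) (hs : Sat K θ C) (hCc : #C = Order.succ θ)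

include h₀ hK hunb hst hCm hs hCc

/-- Locally elementary maps on an independent pair are given by elements of the group. -/
theorem pg_pair_aut {P A B : Set C} (hP : P ∈ (pg h₀ hK hunb hst hCm hs hCc).S)
    (hA : A ∈ (pg h₀ hK hunb hst hCm hs hCc).S) (hB : B ∈ (pg h₀ hK hunb hst hCm hs hCc).S)
    (hPA : P ⊆ A) (hPB : P ⊆ B) (hI : (pg h₀ hK hunb hst hCm hs hCc).Ind P A B) {f : C → C}
    (hf : (pg h₀ hK hunb hst hCm hs hCc).LE f (A ∪ B)) :
    ∃ g ∈ (pg h₀ hK hunb hst hCm hs hCc).G, ∀ x ∈ A ∪ B, g x = f x := by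
  have hθ := aleph0_le_pt h₀ hK
  have hc : #(A ∪ B : Set C) ≤ θ := (mk_union_le _ _).trans (add_le_of_le hθ
    ((pg h₀ hK hunb hst hCm hs hCc).S_card hA).le ((pg h₀ hK hunb hst hCm hs hCc).S_card hB).le)
  obtain ⟨N, hN, hNf⟩ := (pg_big h₀ hK hunb hst hCm hs hCc).ls (f '' (A ∪ B))
    (mk_image_le.trans hc)
  exact PG.LE.exists_aut' (pg_real h₀ hK hunb hst hCm hs hCc) hN
    (fun x hx => hNf (mem_image_of_mem f hx)) hf
    (pg_tm_two h₀ hK hunb hst hCm hs hCc hP hA hB hPA hPB hI)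

/-- **The limit lemma for the closed traces of a prime chain and an independent model.** -/
theorem pg_llj (hΛ : BasePt K ℓ κf α Λ) (hθΛ : θ < Λ) (hτ : BasePt K ℓ κf α τ) (hτθ : τ < θ)
    (hChn : ChnAt hK hunb hst hτ C)
    (hPt : ∀ (C' : L.Substructure C) (hC' : K.le C') (hC'c : #C' = Order.succ τ)
      (hC's : Sat K τ C'), Pt1 (pgLow hK hunb hst hτ hC' hC'c hC's))
    {P R : Set C} {J : Type u} [LinearOrder J] [WellFoundedLT J] {c : J → C} {Q : J → Set C}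
    (h : PCh (pg h₀ hK hunb hst hCm hs hCc) P c Q) (hcP : ∀ j, c j ∉ P)
    (hpre : ∀ j, pre P Q j ∈ (pg h₀ hK hunb hst hCm hs hCc).S)
    (hT : tot P Q ∈ (pg h₀ hK hunb hst hCm hs hCc).S)
    (hR : R ∈ (pg h₀ hK hunb hst hCm hs hCc).S) (hPR : P ⊆ R)
    (hI : (pg h₀ hK hunb hst hCm hs hCc).Ind P (tot P Q) R) :
    ∃ φ : Finset C → Set C, (∀ s, #(φ s) ≤ τ) ∧
      ∀ (I : Type u) [LinearOrder I] [Nonempty I], #I ≤ τ → ∀ z : I → Set C, Monotone z →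
        (∀ i, Clo φ (z i)) → (∀ i, #(z i) ≤ τ) → ∀ f : C → C,
        (∀ i, (pg h₀ hK hunb hst hCm hs hCc).LET τ f ((tot P Q ∪ R) ∩ z i)) →
          (pg h₀ hK hunb hst hCm hs hCc).LET τ f ((tot P Q ∪ R) ∩ ⋃ i, z i) := by
  classical
  have hτ0 := aleph0_le_pt hτ hK
  obtain ⟨φ₁, h1, h1'⟩ := pg_tr_pch h₀ hK hunb hst hCm hs hCc hΛ hθΛ hτ hτθ h hcP hpre
  obtain ⟨φ₂, h2, h2'⟩ := exists_trace_ind h₀ hK hunb hst hCm hs hCc hτ.pt.lt hτ.pow hτθ.le
    h.base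
  obtain ⟨φ₃, h3, h3'⟩ := exists_clo_sm h₀ hK hunb hst hCm hs hCc hτ hτθ hT
  obtain ⟨φ₄, h4, h4'⟩ := exists_clo_sm h₀ hK hunb hst hCm hs hCc hτ hτθ hR
  refine ⟨fun s => (φ₁ s ∪ φ₂ s) ∪ (φ₃ s ∪ φ₄ s), fun s => ?_, ?_⟩
  · refine (mk_union_le _ _).trans (add_le_of_le hτ0 ?_ ?_)
    · exact (mk_union_le _ _).trans (add_le_of_le hτ0 (h1 s) (h2 s))
    · exact (mk_union_le _ _).trans (add_le_of_le hτ0 (h3 s) (h4 s))
  intro I _ _ hIc z hz hzφ hzc f hf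
  let H : Set C := ⋃ i, z i
  have hHφ : Clo (fun s => (φ₁ s ∪ φ₂ s) ∪ (φ₃ s ∪ φ₄ s)) H :=
    Clo.iUnion (directed_of_isDirected_le hz) hzφ
  have hHc : #H ≤ τ := (mk_iUnion_le z).trans ((mul_le_mul' hIc (ciSup_le' hzc)).trans
    (mul_eq_self hτ0).le)
  have hsplit : ∀ {w : Set C}, Clo (fun s => (φ₁ s ∪ φ₂ s) ∪ (φ₃ s ∪ φ₄ s)) w →
      Clo φ₁ w ∧ Clo φ₂ w ∧ Clo φ₃ w ∧ Clo φ₄ w := fun hw =>
    ⟨(clo_union (clo_union hw).1).1, (clo_union (clo_union hw).1).2,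
      (clo_union (clo_union hw).2).1, (clo_union (clo_union hw).2).2⟩
  obtain ⟨hH1, hH2, hH3, hH4⟩ := hsplit hHφ
  obtain ⟨-, htH, hpchH⟩ := h1' H hH1 hHc
  obtain ⟨C', hC', hC'c, hC's, hY, hfY⟩ := exists_low' hτ hτθ (f := f)
    (Y := (tot P Q ∪ R) ∩ H) ((mk_le_mk_of_subset inter_subset_right).trans hHc) h₀ hK hunb hCm
    hCc
  have hL := pg_low h₀ hK hunb hst hCm hs hCc hτ hτθ hC' hC'c hC's
  have hC'm : K.mem C' := (K.mem_of_le _ hC').1
  have hzH : ∀ i, z i ⊆ H := fun i => subset_iUnion z i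
  have hTD : tot P Q ∩ H ⊆ C' := fun x hx => hY ⟨Or.inl hx.1, hx.2⟩
  have hRD : R ∩ H ⊆ C' := fun x hx => hY ⟨Or.inr hx.1, hx.2⟩
  have hPT : P ⊆ tot P Q := subset_tot P Q
  obtain ⟨c', hc', hP'⟩ := hpchH C' hC' hC'c hC's hTD
  -- the map at the lower level
  let f' : ↥(C' : Set C) → ↥(C' : Set C) := fun x => if hx : f x ∈ C' then ⟨f x, hx⟩ else x
  have hf' : ∀ x : (C' : Set C), (x : C) ∈ (tot P Q ∪ R) ∩ H → (f' x : C) = f x := by
    intro x hx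
    have h5 : f' x = ⟨f x, hfY x hx⟩ := dif_pos (hfY x hx)
    rw [h5]
  have hSi : ∀ i, tr (C' : Set C) (P ∩ z i) ∈ (pgLow hK hunb hst hτ hC' hC'c hC's).S ∧
      tr (C' : Set C) (tot P Q ∩ z i) ∈ (pgLow hK hunb hst hτ hC' hC'c hC's).S ∧
      tr (C' : Set C) (R ∩ z i) ∈ (pgLow hK hunb hst hτ hC' hC'c hC's).S := by
    intro i
    obtain ⟨hz1, hz2, hz3, hz4⟩ := hsplit (hzφ i)
    refine ⟨tr_mem hK hunb hst hτ hC' hC'c hC's (h1' (z i) hz1 (hzc i)).1 ?_,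
      tr_mem hK hunb hst hτ hC' hC'c hC's (h3' (z i) hz3 (hzc i)) ?_,
      tr_mem hK hunb hst hτ hC' hC'c hC's (h4' (z i) hz4 (hzc i)) ?_⟩
    · exact fun x hx => hTD ⟨hPT hx.1, hzH i hx.2⟩
    · exact fun x hx => hTD ⟨hx.1, hzH i hx.2⟩
    · exact fun x hx => hRD ⟨hx.1, hzH i hx.2⟩
  have hIi : ∀ i, (pgLow hK hunb hst hτ hC' hC'c hC's).Ind (tr (C' : Set C) (P ∩ z i))
      (tr (C' : Set C) (tot P Q ∩ z i)) (tr (C' : Set C) (R ∩ z i)) := by
    intro i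
    obtain ⟨hz1, hz2, hz3, hz4⟩ := hsplit (hzφ i)
    refine hL.ind_dn (fun x hx => hTD ⟨hPT hx.1, hzH i hx.2⟩) ?_
    intro A' hA' hA'c B' hB' hB'c
    refine (h2' (z i) hz2).2 (tot P Q) R hI A' (hA'.trans ?_) hA'c B'
      (hB'.trans inter_subset_left) hB'c
    rintro x (hx | hx)
    · exact ⟨Or.inl hx.1, hx.2⟩
    · exact ⟨Or.inr hx.1, hx.2⟩
  have htru : ∀ X : Set C, (⋃ i, tr (C' : Set C) (X ∩ z i)) = tr (C' : Set C) (X ∩ H) := by
    intro X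
    ext x
    constructor
    · intro hx
      obtain ⟨i, hi⟩ := mem_iUnion.1 hx
      exact ⟨hi.1, hzH i hi.2⟩
    · rintro ⟨hx, hxH⟩
      obtain ⟨i, hi⟩ := mem_iUnion.1 hxH
      exact mem_iUnion.2 ⟨i, hx, hi⟩
  have hcard : ∀ X : Set C, #(tr (C' : Set C) (X ∩ H)) ≤
      (pgLow hK hunb hst hτ hC' hC'c hC's).χ := fun X =>
    (mk_tr_le (D := (C' : Set C)) (X ∩ H)).trans
      ((mk_le_mk_of_subset inter_subset_right).trans hHc)
  have hκ : #{j : J // c j ∈ H} ≤ (pgLow hK hunb hst hτ hC' hC'c hC's).χ := by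
    refine le_trans ?_ hHc
    exact mk_le_of_injective (f := fun j : {j : J // c j ∈ H} => (⟨c j, j.2⟩ : H))
      fun i j hij => Subtype.ext (pch_injective h hcP (congrArg Subtype.val hij))
  obtain ⟨g, hg, hgD, hgN⟩ := two_map (M := pgLow hK hunb hst hτ hC' hC'c hC's) (f := f')
    (N₀ := fun i => tr (C' : Set C) (P ∩ z i)) (N₁ := fun i => tr (C' : Set C) (tot P Q ∩ z i))
    (D := fun i => tr (C' : Set C) (R ∩ z i))
    (pg_calc hτ hK hunb hst hC'm hC's hC'c) (pg_big hτ hK hunb hst hC'm hC's hC'c)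
    (hChn C' hC' hC'c hC's) (hPt C' hC' hC'c hC's) (fun i => (hSi i).1) (fun i => (hSi i).2.1)
    (fun i => (hSi i).2.2) (fun i j hij => tr_mono (inter_subset_inter_right P (hz hij)))
    (fun i j hij => tr_mono (inter_subset_inter_right (tot P Q) (hz hij)))
    (fun i j hij => tr_mono (inter_subset_inter_right R (hz hij)))
    (fun i => tr_mono (inter_subset_inter_left (z i) hPT))
    (fun i => tr_mono (inter_subset_inter_left (z i) hPR)) hIi
    (by rw [htru]; exact hcard R) (by rw [htru]; exact hcard (tot P Q)) hκ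
    (c := c') (Q := fun j => tr (C' : Set C) (Q j ∩ H)) (by rw [htru]; exact hP') (by
      rw [htru, htru, ← htH]
      ext x
      constructor
      · rintro (hx | hx)
        · exact Or.inl hx
        · obtain ⟨k, hk⟩ := mem_iUnion.1 hx
          exact Or.inr (mem_iUnion.2 ⟨k, hk⟩)
      · rintro (hx | hx)
        · exact Or.inl hx
        · obtain ⟨k, hk⟩ := mem_iUnion.1 hx
          exact Or.inr (mem_iUnion.2 ⟨k, hk⟩)) (by
      intro i
      have h5 := pg_pair_aut (C := C') hτ hK hunb hst hC'm hC's hC'c (f := f') (hSi i).1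
        (hSi i).2.1 (hSi i).2.2 (tr_mono (inter_subset_inter_left (z i) hPT))
        (tr_mono (inter_subset_inter_left (z i) hPR)) (hIi i) (by
          have h6 := hL.le_dn (X := (tot P Q ∪ R) ∩ z i) (fun x hx => hf' x
            ⟨hx.1, hzH i hx.2⟩) (hf i)
          have h7 : tr (C' : Set C) ((tot P Q ∪ R) ∩ z i) =
              tr (C' : Set C) (tot P Q ∩ z i) ∪ tr (C' : Set C) (R ∩ z i) := by
            rw [union_inter_distrib_right]
            rfl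
          rw [h7] at h6
          exact h6)
      obtain ⟨g, hg, hgf⟩ := h5
      exact ⟨g, hg, fun a ha => hgf a (Or.inr ha), fun a ha => hgf a (Or.inl ha)⟩)
  refine hL.le_up (f' := f') (hY.trans Subset.rfl) hf' ?_
  intro A hA _
  refine ⟨g, hg, fun a ha => ?_⟩
  obtain ⟨h5 | h5, h6⟩ := hA ha
  · exact hgN a (by rw [htru]; exact ⟨h5, h6⟩)
  · exact hgD a (by rw [htru]; exact ⟨h5, h6⟩)

end two

end Vale.Agent.P307.R2.H913
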