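import Vale.Agent.P307.R2.H541.QS
import Vale.Agent.P307.R2.H650.Defs

/-!
Chains of strong submodels of the saturated member: unions and coherent automorphisms, for
arbitrary index sets; free copies of strong submodels.
-/

set_option linter.unusedSectionVars false

universe u

open FirstOrder Cardinal Set

namespace Vale.Agent.P307.R2.H913

open Vale.Agent.P307 Vale.Agent.P307.H304 Vale.Agent.P307.R2.H287 Vale.Agent.P307.R2.H1
  Vale.Agent.P307.R2.H971 Vale.Agent.P307.R2.H541 Language.Structure Language.Substructure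
  Vale.Agent.P307.AEC

variable {L : Language.{u, u}} {K : AEC L} {ℓ θ : Cardinal.{u}}
  {κf α : Cardinal.{u} → Cardinal.{u}} {C : Type u} [L.Structure C]

theorem coe_iSup' {ι : Type u} [Preorder ι] [IsDirectedOrder ι] [Nonempty ι]
    (S : ι → L.Substructure C) (hS : Monotone S) :
    ((⨆ i, S i : L.Substructure C) : Set C) = ⋃ i, (S i : Set C) := by
  ext x
  have h1 : x ∈ (⨆ i, S i : L.Substructure C) ↔ ∃ i, x ∈ S i :=
    Language.Substructure.mem_iSup_of_directed (directed_of_isDirected_le hS)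
  rw [SetLike.mem_coe, h1, mem_iUnion]
  rfl

/-- Directed unions of strong submodels. -/
theorem exists_iUnion {ι : Type u} [Preorder ι] [IsDirectedOrder ι] [Nonempty ι] (N : ι → Set C)
    (hN : Monotone N) (hNS : ∀ i, ∃ D : L.Substructure C, K.le D ∧ (D : Set C) = N i) :
    ∃ D : L.Substructure C, K.le D ∧ (D : Set C) = ⋃ i, N i := by
  choose D h1 h2 using hNS
  have hS : Monotone D := fun i j h => by
    have := hN h
    rw [← h2 i, ← h2 j] at this
    exact this
  refine ⟨⨆ i, D i, AEC.le_iSup_directed D hS h1, ?_⟩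
  rw [coe_iSup' D hS]
  exact iUnion_congr h2

section

variable (h₀ : BasePt K ℓ κf α θ) (hK : K.IsLS ℓ)
  (hunb : ∀ ν, ν < κf ν ∧ K.CategoricalIn (κf ν)) (hst : Stab K ℓ α (H287.thr κf))
  (hCm : K.mem C) (hs : Sat K θ C) (hCc : #C = Order.succ θ)

/-- Directed unions of elements of the class `S`. -/
theorem pg_iUnion {ι : Type u} [Preorder ι] [IsDirectedOrder ι] [Nonempty ι] (N : ι → Set C)
    (hN : Monotone N) (hNS : ∀ i, N i ∈ (pg h₀ hK hunb hst hCm hs hCc).S)
    (hc : #(⋃ i, N i : Set C) ≤ θ) : (⋃ i, N i) ∈ (pg h₀ hK hunb hst hCm hs hCc).S := by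
  obtain ⟨D, h1, h2⟩ := exists_iUnion (K := K) N hN fun i => by
    obtain ⟨D, h1, -, h3⟩ := hNS i
    exact ⟨D, h1, h3⟩
  refine ⟨D, h1, ?_, h2⟩
  refine le_antisymm ?_ ?_
  · rw [← h2] at hc
    exact hc
  · obtain ⟨i⟩ := (inferInstance : Nonempty ι)
    obtain ⟨E, -, h4, h5⟩ := hNS i
    rw [← h4]
    refine mk_le_mk_of_subset ?_
    rw [h2, h5]
    exact subset_iUnion N i

include h₀ hK hs hCc in
/-- Unions of coherent directed families of automorphisms on strong submodels. -/
theorem exists_aut_iUnion {ι : Type u} [Preorder ι] [IsDirectedOrder ι] [Nonempty ι]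
    (S : ι → L.Substructure C) (hS : Monotone S) (hSK : ∀ i, K.le (S i))
    (hc : #(⋃ i, (S i : Set C) : Set C) = θ) (g : ι → (C ≃[L] C))
    (hg : ∀ i j, i ≤ j → ∀ a ∈ S i, g j a = g i a) :
    ∃ e : C ≃[L] C, ∀ i, ∀ a ∈ S i, e a = g i a := by
  let T : ι → L.Substructure C := fun i => (S i).map (g i).toHom
  have hT : Monotone T := by
    rintro n m h _ ⟨a, ha, rfl⟩
    refine ⟨a, hS h ha, ?_⟩
    exact hg n m h a ha
  have hTK : ∀ n, K.le (T n) := fun n => K.le_iso (g n) (S n) (hSK _)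
  have hex : ∀ n : ι, ∃ e : S n ≃[L] T n, ∀ x, (e x : C) = g n x := by
    intro n
    exact ⟨(g n).toEmbedding.substructureEquivMap (S n), fun x => rfl⟩
  choose e he using hex
  obtain ⟨E, hE⟩ := H913.exists_equiv_iSup S T hS hT e (by
    intro n m h x
    rw [he, he]
    exact hg n m h x x.2)
  have hSle : K.le (⨆ n, S n) := AEC.le_iSup_directed S hS hSK
  have hTle : K.le (⨆ n, T n) := AEC.le_iSup_directed T hT hTK
  have hSc : #(⨆ n, S n : L.Substructure C) = θ := by
    have : #((⨆ n, S n : L.Substructure C) : Set C) = θ := by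
      rw [coe_iSup' S hS, hc]
    exact this
  obtain ⟨k, hk⟩ := hs.exists_aut hK h₀.pt.lt.le hCc (⨆ n, S n) (⨆ n, T n) hSle hTle hSc E
  refine ⟨k, fun n a ha => ?_⟩
  have h1 := hk ⟨a, le_iSup S n ha⟩
  refine h1.trans ?_
  have h2 := hE n ⟨a, ha⟩
  refine h2.trans ?_
  exact he n ⟨a, ha⟩

/-- Coherent directed families of elements of the group on elements of the class `S`. -/
theorem pg_glue {ι : Type u} [Preorder ι] [IsDirectedOrder ι] [Nonempty ι] (N : ι → Set C)
    (g : ι → Equiv.Perm C) (hN : Monotone N)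
    (hNS : ∀ i, N i ∈ (pg h₀ hK hunb hst hCm hs hCc).S) (hc : #(⋃ i, N i : Set C) ≤ θ)
    (hg : ∀ i, g i ∈ (pg h₀ hK hunb hst hCm hs hCc).G)
    (hgg : ∀ i j, i ≤ j → ∀ a ∈ N i, g j a = g i a) :
    ∃ h ∈ (pg h₀ hK hunb hst hCm hs hCc).G, ∀ i, ∀ a ∈ N i, h a = g i a := by
  choose D hD1 hD2 hD3 using hNS
  choose e he using hg
  have hc' : #(⋃ i, (D i : Set C) : Set C) = θ := by
    refine le_antisymm ?_ ?_
    · rw [iUnion_congr hD3]
      exact hc
    · obtain ⟨i⟩ := (inferInstance : Nonempty ι)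
      rw [← hD2 i]
      exact mk_le_mk_of_subset (subset_iUnion (fun i => (D i : Set C)) i)
  obtain ⟨k, hk⟩ := exists_aut_iUnion h₀ hK hs hCc D (fun n m h => by
    have := hN h
    rw [← hD3 n, ← hD3 m] at this
    exact this) hD1 hc' e (fun i j h a ha => by
    rw [he, he]
    exact hgg i j h a (by rw [← hD3 i]; exact ha))
  refine ⟨k.toEquiv, mem_autG k, fun n a ha => ?_⟩
  rw [← he n a]
  exact hk n a (by
    have : a ∈ (D n : Set C) := by rwa [hD3 n]
    exact this)

/-- The class `S` and the group satisfy the chain conditions of `Chn`, given local character. -/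
theorem pg_chn (hloc : ∀ (ι : Type u) [LinearOrder ι] [Nonempty ι] (N : ι → Set C), Monotone N →
    (∀ i, N i ∈ (pg h₀ hK hunb hst hCm hs hCc).S) → #(⋃ i, N i : Set C) ≤ θ →
      ∀ x : Set C, x.Finite →
      ∃ i, (pg h₀ hK hunb hst hCm hs hCc).Ind (N i) x (⋃ i, N i)) :
    H650.Chn (pg h₀ hK hunb hst hCm hs hCc) where
  union _ _ _ N hN hNS hc := pg_iUnion h₀ hK hunb hst hCm hs hCc N hN hNS hc
  glue _ _ _ N g hN hNS hc hg hgg := pg_glue h₀ hK hunb hst hCm hs hCc N g hN hNS hc hg hgg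
  loc := hloc

end

end Vale.Agent.P307.R2.H913
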