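import Vale.Agent.P307.Bdl.B1
import Mathlib.ModelTheory.DirectLimit

set_option linter.unusedSectionVars false

universe u

open FirstOrder Cardinal Set

namespace Vale.Agent.P307.R2.H913

open Vale.Agent.P307 Language Vale.Agent.P307.AEC

variable {L : Language.{u, u}} {K : AEC L}

section dirlim

variable {ι : Type u} [Preorder ι] [IsDirectedOrder ι] [Nonempty ι] {G : ι → Type u}
  [∀ i, L.Structure (G i)] (f : ∀ i j, i ≤ j → G i ↪[L] G j)
  [DirectedSystem G fun i j h => f i j h]

/-- The direct limit of a directed system of strong embeddings is in the class, and the canonical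
maps are strong. -/
theorem emb_of (hf : ∀ i j h, K.Emb (f i j h)) :
    K.mem (Language.DirectLimit G f) ∧ ∀ i, K.Emb (Language.DirectLimit.of L ι G f i) := by
  have hle : ∀ i j, i ≤ j →
      (Language.DirectLimit.of L ι G f i).toHom.range ≤ (Language.DirectLimit.of L ι G f j).toHom.range := by
    rintro i j h _ ⟨x, rfl⟩
    exact ⟨f i j h x, Language.DirectLimit.of_f (hij := h)⟩
  have hsle : ∀ i j, i ≤ j →
      K.sle (Language.DirectLimit.of L ι G f i).toHom.range (Language.DirectLimit.of L ι G f j).toHom.range := by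
    intro i j h
    have h1 : (Language.DirectLimit.of L ι G f i).toHom.range =
        ((f i j h).toHom.range).map (Language.DirectLimit.of L ι G f j).toHom := by
      ext x
      constructor
      · rintro ⟨y, rfl⟩
        exact ⟨f i j h y, ⟨y, rfl⟩, Language.DirectLimit.of_f (hij := h)⟩
      · rintro ⟨_, ⟨y, rfl⟩, rfl⟩
        exact ⟨y, (Language.DirectLimit.of_f (hij := h)).symm⟩
    have h2 : (Language.DirectLimit.of L ι G f j).toHom.range =
        (⊤ : L.Substructure (G j)).map (Language.DirectLimit.of L ι G f j).toHom := by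
      rw [Hom.range_eq_map]
    rw [h1, h2, sle_map, sle_top (hf i j h).mem_right]
    exact hf i j h
  exact mem_of_directed_union (K := K) (fun i => (Language.DirectLimit.of L ι G f i).toHom.range)
    (fun i j h => hle i j h) hsle (fun x => by
      obtain ⟨i, y, rfl⟩ := Language.DirectLimit.exists_of x
      exact ⟨i, y, rfl⟩)

theorem mk_directLimit_le : #(Language.DirectLimit G f) ≤ Cardinal.sum fun i => #(G i) := by
  rw [← mk_sigma]
  refine mk_le_of_surjective (f := fun p : Σ i, G i => Language.DirectLimit.of L ι G f p.1 p.2) ?_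
  intro x
  obtain ⟨i, y, rfl⟩ := Language.DirectLimit.exists_of x
  exact ⟨⟨i, y⟩, rfl⟩

/-- The direct limit lemma, existential form. -/
theorem exists_directLimit (hf : ∀ i j h, K.Emb (f i j h)) :
    ∃ (N : Type u) (_ : L.Structure N) (g : ∀ i, G i ↪[L] N), K.mem N ∧ (∀ i, K.Emb (g i)) ∧
      (∀ i j h x, g j (f i j h x) = g i x) ∧ (∀ x : N, ∃ i, ∃ y : G i, g i y = x) ∧
      #N ≤ Cardinal.sum fun i => #(G i) := by
  refine ⟨Language.DirectLimit G f, inferInstance, Language.DirectLimit.of L ι G f, (emb_of f hf).1, (emb_of f hf).2,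
    fun i j h x => Language.DirectLimit.of_f (hij := h), fun x => Language.DirectLimit.exists_of x,
    mk_directLimit_le f⟩

end dirlim

section dirlim'

variable {ι : Type u} [Preorder ι] [IsDirectedOrder ι] [Nonempty ι] {G : ι → Type u}
  [∀ i, L.Structure (G i)] (f : ∀ i j, i ≤ j → G i ↪[L] G j)

/-- The direct limit lemma with the two equations of a directed system as hypotheses. -/
theorem exists_directLimit' (h1 : ∀ i x, f i i le_rfl x = x)
    (h2 : ∀ i j k (hij : i ≤ j) (hjk : j ≤ k) x, f j k hjk (f i j hij x) = f i k (hij.trans hjk) x)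
    (hf : ∀ i j h, K.Emb (f i j h)) :
    ∃ (N : Type u) (_ : L.Structure N) (g : ∀ i, G i ↪[L] N), K.mem N ∧ (∀ i, K.Emb (g i)) ∧
      (∀ i j h x, g j (f i j h x) = g i x) ∧ (∀ x : N, ∃ i, ∃ y : G i, g i y = x) ∧
      #N ≤ Cardinal.sum fun i => #(G i) := by
  have : DirectedSystem G fun i j h => f i j h :=
    ⟨fun i x => h1 i x, fun _ _ _ hij hjk x => h2 _ _ _ hij hjk x⟩
  exact exists_directLimit f hf

end dirlim'

section glue

variable {ι : Type u} [Preorder ι] [IsDirectedOrder ι] [Nonempty ι] {G : ι → Type u}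
  [∀ i, L.Structure (G i)] {N P : Type u} [L.Structure N] [L.Structure P]

/-- The universal property: if `N` is covered by the directed family `g i : G i ↪ N` and
`h i : G i ↪ P` are compatible embeddings, there is a unique embedding `N ↪ P`; it is strong when
all `h i` are. -/
theorem exists_lift (f : ∀ i j, i ≤ j → G i ↪[L] G j) (g : ∀ i, G i ↪[L] N)
    (hg : ∀ i j h x, g j (f i j h x) = g i x) (hc : ∀ x : N, ∃ i, ∃ y : G i, g i y = x)
    (p : ∀ i, G i ↪[L] P) (hp : ∀ i j h x, p j (f i j h x) = p i x) :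
    ∃ e : N ↪[L] P, ∀ i x, e (g i x) = p i x := by
  choose a b hab using hc
  -- independence of representatives
  have key : ∀ i (x : G i) j (y : G j), g i x = g j y → p i x = p j y := by
    intro i x j y hxy
    obtain ⟨k, hik, hjk⟩ := directed_of (· ≤ ·) i j
    rw [← hp i k hik x, ← hp j k hjk y]
    congr 1
    apply (g k).injective
    rw [hg, hg, hxy]
  have key' : ∀ i (x : G i) j (y : G j), p i x = p j y → g i x = g j y := by
    intro i x j y hxy
    obtain ⟨k, hik, hjk⟩ := directed_of (· ≤ ·) i j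
    rw [← hg i k hik x, ← hg j k hjk y]
    congr 1
    apply (p k).injective
    rw [hp, hp, hxy]
  have hval : ∀ i (x : G i), p (a (g i x)) (b (g i x)) = p i x := fun i x =>
    key _ _ _ _ (hab (g i x))
  -- common index for finite tuples
  have hfin : ∀ {n : ℕ} (x : Fin n → N), ∃ i, ∃ y : Fin n → G i, x = fun t => g i (y t) := by
    intro n x
    obtain ⟨i, hi⟩ := Finite.bddAbove_range fun t => a (x t)
    have hi' : ∀ t, a (x t) ≤ i := fun t => hi ⟨t, rfl⟩
    refine ⟨i, fun t => f _ _ (hi' t) (b (x t)), ?_⟩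
    funext t
    rw [hg, hab]
  refine ⟨⟨⟨fun x => p (a x) (b x), ?_⟩, ?_, ?_⟩, hval⟩
  · intro x y hxy
    have := key' _ _ _ _ hxy
    rwa [hab, hab] at this
  · intro n F x
    obtain ⟨i, y, rfl⟩ := hfin x
    change p (a (Structure.funMap F fun t => g i (y t))) (b (Structure.funMap F fun t => g i (y t)))
      = Structure.funMap F fun t => p (a (g i (y t))) (b (g i (y t)))
    have h1 : (Structure.funMap F fun t => g i (y t)) = g i (Structure.funMap F y) :=
      ((g i).map_fun F y).symm
    rw [h1, hval, (p i).map_fun]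
    congr 1
    funext t
    exact (hval i (y t)).symm
  · intro n R x
    obtain ⟨i, y, rfl⟩ := hfin x
    change (Structure.RelMap R fun t => p (a (g i (y t))) (b (g i (y t)))) ↔
      Structure.RelMap R fun t => g i (y t)
    have h1 : (fun t => p (a (g i (y t))) (b (g i (y t)))) = p i ∘ y := by
      funext t
      exact hval i (y t)
    rw [h1, (p i).map_rel R y]
    exact ((g i).map_rel R y).symm

theorem emb_lift (f : ∀ i j, i ≤ j → G i ↪[L] G j) (g : ∀ i, G i ↪[L] N)
    (hg : ∀ i j h x, g j (f i j h x) = g i x) (hc : ∀ x : N, ∃ i, ∃ y : G i, g i y = x)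
    (p : ∀ i, G i ↪[L] P) (hp : ∀ i, K.Emb (p i)) (e : N ↪[L] P)
    (he : ∀ i x, e (g i x) = p i x) : K.Emb e := by
  have h1 : e.toHom.range = ⨆ i, (p i).toHom.range := by
    apply le_antisymm
    · rintro _ ⟨x, rfl⟩
      obtain ⟨i, y, rfl⟩ := hc x
      exact (le_iSup (fun i => (p i).toHom.range) i) ⟨y, (he i y).symm⟩
    · refine iSup_le fun i => ?_
      rintro _ ⟨x, rfl⟩
      exact ⟨g i x, he i x⟩
  unfold AEC.Emb
  rw [h1]
  refine le_iSup_directed _ ?_ hp
  intro i j hij
  rintro _ ⟨x, rfl⟩
  refine ⟨f i j hij x, ?_⟩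
  have h2 := he j (f i j hij x)
  rw [hg] at h2
  exact h2.symm.trans (he i x)

/-- A coherent directed family of isomorphisms of substructures covering both sides glues. -/
theorem exists_equiv_of_cover (S : ι → L.Substructure N) (T : ι → L.Substructure P)
    (hS : Monotone S) (hcS : ∀ x : N, ∃ i, x ∈ S i) (hcT : ∀ x : P, ∃ i, x ∈ T i)
    (e : ∀ i, S i ≃[L] T i)
    (he : ∀ i j (h : i ≤ j) (x : S i), (e j ⟨x, hS h x.2⟩ : P) = e i x) :
    ∃ E : N ≃[L] P, ∀ i (x : S i), E (x : N) = e i x := by
  obtain ⟨E, hE⟩ := exists_lift (L := L) (G := fun i => S i)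
    (fun i j h => Substructure.inclusion (hS h)) (fun i => (S i).subtype)
    (fun i j h x => rfl) (fun x => by
      obtain ⟨i, hi⟩ := hcS x
      exact ⟨i, ⟨x, hi⟩, rfl⟩) (fun i => (T i).subtype.comp (e i).toEmbedding)
    (fun i j h x => he i j h x)
  have hsurj : Function.Surjective E := by
    intro y
    obtain ⟨i, hi⟩ := hcT y
    refine ⟨((e i).symm ⟨y, hi⟩ : S i), ?_⟩
    refine (hE i ((e i).symm ⟨y, hi⟩)).trans ?_
    exact congrArg Subtype.val ((e i).apply_symm_apply ⟨y, hi⟩)
  exact ⟨⟨Equiv.ofBijective E ⟨E.injective, hsurj⟩, E.map_fun', E.map_rel'⟩, fun i x => hE i x⟩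

/-- The same for isomorphisms between substructures of two given structures: the suprema are
isomorphic. -/
theorem exists_equiv_iSup (S : ι → L.Substructure N) (T : ι → L.Substructure P)
    (hS : Monotone S) (hT : Monotone T) (e : ∀ i, S i ≃[L] T i)
    (he : ∀ i j (h : i ≤ j) (x : S i), (e j ⟨x, hS h x.2⟩ : P) = e i x) :
    ∃ E : (⨆ i, S i : L.Substructure N) ≃[L] (⨆ i, T i : L.Substructure P),
      ∀ i (x : S i), (E ⟨x, le_iSup S i x.2⟩ : P) = e i x := by
  have key : ∀ {Q : Type u} [L.Structure Q] (U : ι → L.Substructure Q), Monotone U →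
      ∀ x : (⨆ i, U i : L.Substructure Q), ∃ i, (x : Q) ∈ U i := by
    intro Q _ U hU x
    have hx := x.2
    rwa [Substructure.mem_iSup_of_directed (directed_of_isDirected_le hU)] at hx
  obtain ⟨E, hE⟩ := exists_lift (L := L) (G := fun i => S i)
    (N := (⨆ i, S i : L.Substructure N)) (P := (⨆ i, T i : L.Substructure P))
    (fun i j h => Substructure.inclusion (hS h)) (fun i => Substructure.inclusion (le_iSup S i))
    (fun i j h x => rfl) (fun x => by
      obtain ⟨i, hi⟩ := key S hS x
      exact ⟨i, ⟨x, hi⟩, Subtype.ext rfl⟩)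
    (fun i => (Substructure.inclusion (le_iSup T i)).comp (e i).toEmbedding)
    (fun i j h x => Subtype.ext (he i j h x))
  have hsurj : Function.Surjective E := by
    intro y
    obtain ⟨i, hi⟩ := key T hT y
    refine ⟨Substructure.inclusion (le_iSup S i) ((e i).symm ⟨y, hi⟩), ?_⟩
    refine (hE i ((e i).symm ⟨y, hi⟩)).trans ?_
    have h1 := congrArg Subtype.val ((e i).apply_symm_apply ⟨y, hi⟩)
    exact Subtype.ext h1
  refine ⟨⟨Equiv.ofBijective E ⟨E.injective, hsurj⟩, E.map_fun', E.map_rel'⟩, fun i x => ?_⟩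
  exact congrArg Subtype.val (hE i x)

end glue

end Vale.Agent.P307.R2.H913
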