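import Vale.Agent.P307.R2.H913.Emb

/-!
Systems of strong substructures indexed by a finite set of points, each atomic over the smaller
ones and the points free over the opposite faces: reflection, intersections, uniqueness.
-/

set_option linter.unusedSectionVars false

universe u v w

open FirstOrder Cardinal Set

namespace Vale.Agent.P307.R2.H913

open Vale.Agent.P307 Vale.Agent.P307.H304 Vale.Agent.P307.R2.H287 Language.Structure
  Language.Substructure CloX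
open scoped Classical

variable {L : Language.{u, u}} {K : AEC L} {ℓ θ : Cardinal.{u}} {α κf : Cardinal.{u} → Cardinal.{u}}
  {M N : Type u} [L.Structure M] [L.Structure N]

/-- A type of points over the whole of `M`: `Rl Z b` says that `b` realizes its restriction to `Z`.
It is based on the small set `D` and every small part is realized in `P`. -/
structure RT (L : Language.{u, u}) (ℓ θ : Cardinal.{u}) {M : Type u} [L.Structure M]
    (P : L.Substructure M) (D : Set M) (Rl : Set M → M → Prop) : Prop where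
  hD : #D < θ
  hDP : D ⊆ P
  /-- the notion is determined by small sets -/
  mono : ∀ {Z Z' : Set M} {b : M}, Rl Z b → Z' ⊆ Z → Rl Z' b
  /-- uniqueness and invariance over `D` -/
  nons : ∀ {R : Set (M × M)} {b b' : M}, SG L ℓ θ R → idr D ⊆ R → Rl (Prod.fst '' R) b →
    Rl (Prod.snd '' R) b' → SG L ℓ θ (R ∪ {(b, b')})
  /-- small parts are realized in `P` -/
  coh : ∀ {z : Set M} {b : M}, #z < θ → Rl z b → ∃ b' ∈ P, SG L ℓ θ (idr z ∪ {(b, b')})

/-- The boundary of a face. -/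
def bd (A : Finset M → L.Substructure M) (t : Finset M) : Set M :=
  (t : Set M) ∪ ⋃ r ∈ {r : Finset M | r ⊂ t}, (A r : Set M)

/-- The union of the faces in `F`. -/
def sp (A : Finset M → L.Substructure M) (F : Finset (Finset M)) : Set M :=
  ⋃ t ∈ F, (A t : Set M)

/-- Systems. -/
structure PSys (K : AEC L) (ℓ θ : Cardinal.{u}) (P : L.Substructure M) (Rl : Set M → M → Prop)
    (A : Finset M → L.Substructure M) (s : Finset M) : Prop where
  bot : A ∅ = P
  le : ∀ t, t ⊆ s → K.le (A t)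
  card : ∀ t, t ⊆ s → #(A t) = θ
  mono : ∀ t t', t ⊆ t' → t' ⊆ s → A t ≤ A t'
  pt : ∀ t, t ⊆ s → ∀ x ∈ t, x ∈ A t
  free : ∀ x ∈ s, Rl (A (s.erase x)) x
  atm : ∀ t, t ⊆ s → t.Nonempty → Atm L ℓ θ (bd A t) (A t)

/-- The part of a system which is below the top. -/
structure PSysB (K : AEC L) (ℓ θ : Cardinal.{u}) (P : L.Substructure M) (Rl : Set M → M → Prop)
    (A : Finset M → L.Substructure M) (s : Finset M) : Prop where
  bot : A ∅ = P
  le : ∀ t, t ⊂ s → K.le (A t)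
  card : ∀ t, t ⊂ s → #(A t) = θ
  mono : ∀ t t', t ⊆ t' → t' ⊂ s → A t ≤ A t'
  pt : ∀ t, t ⊂ s → ∀ x ∈ t, x ∈ A t
  free : ∀ x ∈ s, Rl (A (s.erase x)) x
  atm : ∀ t, t ⊂ s → t.Nonempty → Atm L ℓ θ (bd A t) (A t)

/-- Down-closed families. -/
def DC (F : Finset (Finset M)) : Prop := ∅ ∈ F ∧ ∀ t ∈ F, ∀ t', t' ⊆ t → t' ∈ F

theorem mem_sp {A : Finset M → L.Substructure M} {F : Finset (Finset M)} {a : M} :
    a ∈ sp A F ↔ ∃ t ∈ F, a ∈ A t := by
  simp [sp]

theorem mem_bd {A : Finset M → L.Substructure M} {t : Finset M} {a : M} :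
    a ∈ bd A t ↔ a ∈ t ∨ ∃ r, r ⊂ t ∧ a ∈ A r := by
  simp [bd]

theorem sp_mono {A : Finset M → L.Substructure M} {F F' : Finset (Finset M)} (h : F ⊆ F') :
    sp A F ⊆ sp A F' := by
  intro a ha
  obtain ⟨t, ht, ha⟩ := mem_sp.1 ha
  exact mem_sp.2 ⟨t, h ht, ha⟩

/-- Induction on down-closed families: remove a face of maximal size. -/
theorem DC.exists_max {F : Finset (Finset M)} (hF : DC F) (hne : F ≠ {∅}) :
    ∃ w ∈ F, w.Nonempty ∧ DC (F.erase w) ∧ (∀ t ∈ F, t.card ≤ w.card) ∧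
      ∀ t ∈ F.erase w, ¬ w ⊆ t := by
  obtain ⟨w, hw, hmax⟩ := Finset.exists_max_image F Finset.card ⟨∅, hF.1⟩
  have hwne : w.Nonempty := by
    rw [Finset.nonempty_iff_ne_empty]
    rintro rfl
    apply hne
    apply Finset.eq_singleton_iff_unique_mem.2
    refine ⟨hF.1, fun t ht => ?_⟩
    have h1 := hmax t ht
    rw [Finset.card_empty] at h1
    exact Finset.card_eq_zero.1 (Nat.le_zero.1 h1)
  have h1 : ∀ t ∈ F.erase w, ¬ w ⊆ t := by
    intro t ht hwt
    rw [Finset.mem_erase] at ht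
    exact ht.1 (Finset.eq_of_subset_of_card_le hwt (hmax t ht.2)).symm
  refine ⟨w, hw, hwne, ⟨?_, ?_⟩, hmax, h1⟩
  · rw [Finset.mem_erase]
    exact ⟨hwne.ne_empty.symm, hF.1⟩
  · intro t ht t' ht'
    have h2 := h1 t ht
    rw [Finset.mem_erase] at ht ⊢
    refine ⟨?_, hF.2 t ht.2 t' ht'⟩
    rintro rfl
    exact h2 ht'

theorem DC.induction {p : Finset (Finset M) → Prop} (h0 : p {∅})
    (hs : ∀ F w, DC F → DC (F.erase w) → w ∈ F → w.Nonempty → (∀ t ∈ F.erase w, ¬ w ⊆ t) →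
      p (F.erase w) → p F) {F : Finset (Finset M)} (hF : DC F) : p F := by
  induction hn : F.card using Nat.strong_induction_on generalizing F with
  | _ n ih =>
    by_cases hne : F = {∅}
    · rw [hne]
      exact h0
    · obtain ⟨w, hw, hwne, hdc, -, h1⟩ := hF.exists_max hne
      refine hs F w hF hdc hw hwne h1 (ih _ ?_ hdc rfl)
      rw [← hn]
      exact Finset.card_erase_lt_of_mem hw

theorem dc_powerset (s : Finset M) : DC s.powerset :=
  ⟨Finset.empty_mem_powerset s, fun _ ht _ ht' =>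
    Finset.mem_powerset.2 (ht'.trans (Finset.mem_powerset.1 ht))⟩

variable (h : Env K ℓ α κf θ)
include h

/-- Extension of a small good relation with values in a strong substructure. -/
theorem exists_ext_into (hM : K.mem M) (hMθ : θ ≤ #M) {S : L.Substructure N}
    (hS : K.le S) (hSθ : θ ≤ #S) {R : Set (M × N)} (hR : SG L ℓ θ R) (hRS : ∀ p ∈ R, p.2 ∈ S)
    {C : Set M} (hC : #C < θ) :
    ∃ R', R ⊆ R' ∧ SG L ℓ θ R' ∧ Cov R' C ∧ (∀ p ∈ R', p.2 ∈ S) ∧
      ∀ p ∈ R', p.1 ∈ Prod.fst '' R ∪ C := by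
  have hSm : K.mem S := (K.mem_of_le _ hS).1
  have hNθ : θ ≤ #N := hSθ.trans (mk_le_of_injective Subtype.val_injective)
  have h1 : LG L ℓ θ (gr S.subtype univ) := lg_gr h _ (AEC.emb_subtype.2 hS) hSθ univ
  have h2 : SG L ℓ θ (relComp R (Prod.swap ⁻¹' gr S.subtype univ)) := by
    refine lg_comp h (lg_of_sg h hR) h1.swap _ Subset.rfl ?_
    refine ((isPI_gr S.subtype univ).swap.mk_comp_le).trans_lt hR.1
  obtain ⟨T, h3, h4, h5⟩ := exists_cov h hM hSm hMθ hSθ h2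
    (mk_union_lt h (mk_image_le.trans_lt hR.1 : #(Prod.fst '' R) < θ) hC)
  refine ⟨rs (relComp T (gr S.subtype univ)) (Prod.fst '' R ∪ C), ?_, ?_, ?_, ?_, fun p hp => hp.2⟩
  · rintro ⟨a, b⟩ hp
    refine ⟨⟨⟨b, hRS _ hp⟩, h3 ⟨b, hp, mem_gr.2 ⟨mem_univ _, rfl⟩⟩, mem_gr.2 ⟨mem_univ _, rfl⟩⟩,
      Or.inl ⟨_, hp, rfl⟩⟩
  · refine lg_comp h (lg_of_sg h h4) h1 _ (rs_subset _ _) ?_
    exact ((mk_le_mk_of_subset (rs_subset _ _)).trans
      (isPI_gr S.subtype univ).mk_comp_le).trans_lt h4.1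
  · intro a ha
    obtain ⟨y, hy⟩ := h5 a (Or.inr ha)
    exact ⟨y, ⟨y, hy, mem_gr.2 ⟨mem_univ _, rfl⟩⟩, Or.inr ha⟩
  · rintro p ⟨⟨y, -, hy⟩, -⟩
    rw [(mem_gr.1 hy).2]
    exact y.2

section refl

variable {P : L.Substructure M} {D : Set M} {Rl : Set M → M → Prop}

/-- `T` moves the part of its domain in the face `A t` to `A (t ∩ u)` and is the identity on the
faces below `u`. -/
def Mv (A : Finset M → L.Substructure M) (F : Finset (Finset M)) (u : Finset M)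
    (T : Set (M × M)) : Prop :=
  (∀ p ∈ T, p.1 ∈ sp A F) ∧ (∀ t ∈ F, t ⊆ u → ∀ p ∈ T, p.1 ∈ A t → p.2 = p.1) ∧
    ∀ t ∈ F, ∀ p ∈ T, p.1 ∈ A t → p.2 ∈ A (t ∩ u)

/-- The family `F` reflects into the faces below `u`. -/
def Rfl (ℓ θ : Cardinal.{u}) (D : Set M) (A : Finset M → L.Substructure M)
    (F : Finset (Finset M)) (u : Finset M) : Prop :=
  ∀ z : Set M, #z < θ → z ⊆ sp A F → ∃ T : Set (M × M), SG L ℓ θ T ∧ idr D ⊆ T ∧ Cov T z ∧
    Mv A F u T

omit h in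
theorem Mv.range {A : Finset M → L.Substructure M} {F : Finset (Finset M)} (hF : DC F)
    {u : Finset M} {T : Set (M × M)} (hT : Mv A F u T) : ∀ p ∈ T, p.2 ∈ sp A F := by
  intro p hp
  obtain ⟨t, ht, hpt⟩ := mem_sp.1 (hT.1 p hp)
  exact mem_sp.2 ⟨t ∩ u, hF.2 t ht _ Finset.inter_subset_left, hT.2.2 t ht p hp hpt⟩

/-- Systems over a down-closed family of faces. -/
structure FSys (K : AEC L) (ℓ θ : Cardinal.{u}) (P : L.Substructure M) (Rl : Set M → M → Prop)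
    (A : Finset M → L.Substructure M) (F : Finset (Finset M)) : Prop where
  bot : A ∅ = P
  le : ∀ t ∈ F, K.le (A t)
  card : ∀ t ∈ F, #(A t) = θ
  mono : ∀ t t', t ⊆ t' → t' ∈ F → A t ≤ A t'
  pt : ∀ t ∈ F, ∀ x ∈ t, x ∈ A t
  free : ∀ F' ⊆ F, ∀ x, {x} ∈ F → (∀ t ∈ F', x ∉ t) → Rl (sp A F') x
  atm : ∀ t ∈ F, t.Nonempty → Atm L ℓ θ (bd A t) (A t)

omit h in
theorem FSys.subset {A : Finset M → L.Substructure M} {F F' : Finset (Finset M)}
    (hA : FSys K ℓ θ P Rl A F) (hF : F' ⊆ F) : FSys K ℓ θ P Rl A F' where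
  bot := hA.bot
  le t ht := hA.le t (hF ht)
  card t ht := hA.card t (hF ht)
  mono t t' h1 h2 := hA.mono t t' h1 (hF h2)
  pt t ht := hA.pt t (hF ht)
  free F'' hF'' x hx hx' := hA.free F'' (hF''.trans hF) x (hF hx) hx'
  atm t ht := hA.atm t (hF ht)

variable (hr : RT L ℓ θ P D Rl)
include hr

theorem RT.mem_of_mem {Z : Set M} {b : M} (hb : Rl Z b) (hbZ : b ∈ Z) : b ∈ P := by
  obtain ⟨b', hb', h1⟩ := hr.coh (z := {b}) (by
    rw [mk_singleton]
    exact one_lt_aleph0.trans_le h.hθ0) (hr.mono hb (singleton_subset_iff.2 hbZ))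
  have h2 : b = b' := IsPI.snd_eq (h.sg_isPI h1) (a := b) (Or.inl (mk_mem_idr rfl)) (Or.inr rfl)
  rwa [h2]

/-- Moving small sets of the faces and of the points of `w`. -/
theorem exists_mv_pts {A : Finset M → L.Substructure M} {F : Finset (Finset M)}
    (hA : FSys K ℓ θ P Rl A F) (hF : DC F) {w : Finset M} (hw : w ∈ F)
    (hF' : DC (F.erase w)) (hwF : ∀ t ∈ F.erase w, ¬ w ⊆ t) {u : Finset M}
    (ih : Rfl (L := L) ℓ θ D A (F.erase w) u) {z : Set M} (hzθ : #z < θ)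
    (hz : z ⊆ sp A (F.erase w) ∪ w) :
    ∃ T : Set (M × M), SG L ℓ θ T ∧ idr D ⊆ T ∧ Cov T z ∧
      (∀ p ∈ T, p.1 ∈ sp A (F.erase w) ∪ w) ∧
      (∀ t ∈ F.erase w, t ⊆ u → ∀ p ∈ T, p.1 ∈ A t → p.2 = p.1) ∧
      (∀ t ∈ F.erase w, ∀ p ∈ T, p.1 ∈ A t → p.2 ∈ A (t ∩ u)) ∧
      (∀ p ∈ T, p.1 ∈ w → p.1 ∈ u → p.2 = p.1) ∧ (∀ p ∈ T, p.1 ∈ w → p.2 ∈ A (w ∩ u)) := by
  have hwu : w ∩ u ∈ F := hF.2 w hw _ Finset.inter_subset_left
  by_cases ha : ∀ x ∈ w, ∃ r ∈ F.erase w, r ⊆ {x} ∧ x ∈ A r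
  · have hz' : z ⊆ sp A (F.erase w) := by
      intro a haz
      rcases hz haz with h1 | h1
      · exact h1
      · obtain ⟨r, hr1, -, hr2⟩ := ha a h1
        exact mem_sp.2 ⟨r, hr1, hr2⟩
    obtain ⟨T, h1, h2, h3, h4, h5, h6⟩ := ih z hzθ hz'
    refine ⟨T, h1, h2, h3, fun p hp => Or.inl (h4 p hp), h5, h6, ?_, ?_⟩
    · intro p hp hpw hpu
      obtain ⟨r, hr1, hr2, hr3⟩ := ha p.1 hpw
      exact h5 r hr1 (hr2.trans (Finset.singleton_subset_iff.2 hpu)) p hp hr3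
    · intro p hp hpw
      obtain ⟨r, hr1, hr2, hr3⟩ := ha p.1 hpw
      exact hA.mono _ _ (Finset.inter_subset_inter_right
        (hr2.trans (Finset.singleton_subset_iff.2 hpw))) hwu (h6 r hr1 p hp hr3)
  · push Not at ha
    obtain ⟨x, hxw, hx⟩ := ha
    -- `w = {x}`
    have hxF : {x} ∈ F := hF.2 w hw _ (Finset.singleton_subset_iff.2 hxw)
    have hw1 : w = {x} := by
      by_contra hne
      refine hx {x} ?_ (Finset.Subset.refl _) (hA.pt _ hxF x (Finset.mem_singleton_self x))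
      rw [Finset.mem_erase]
      exact ⟨fun h1 => hne h1.symm, hxF⟩
    have hRl : Rl (sp A (F.erase w)) x := hA.free _ (Finset.erase_subset _ _) x hxF (by
      intro t ht hxt
      apply hwF t ht
      rw [hw1]
      exact Finset.singleton_subset_iff.2 hxt)
    have hxsp : x ∉ sp A (F.erase w) := by
      intro h1
      have h2 := RT.mem_of_mem h hr hRl h1
      refine hx ∅ hF'.1 (Finset.empty_subset _) ?_
      rw [hA.bot]
      exact h2
    obtain ⟨T₁, h1, h2, h3, h4, h5, h6⟩ := ih (z ∩ sp A (F.erase w))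
      ((mk_le_mk_of_subset inter_subset_left).trans_lt hzθ) inter_subset_right
    have hran : ∀ p ∈ T₁, p.2 ∈ sp A (F.erase w) := Mv.range hF' ⟨h4, h5, h6⟩
    have hR1 : Rl (Prod.fst '' T₁) x := hr.mono hRl (by
      rintro _ ⟨p, hp, rfl⟩
      exact h4 p hp)
    have hR2 : Rl (Prod.snd '' T₁) x := hr.mono hRl (by
      rintro _ ⟨p, hp, rfl⟩
      exact hran p hp)
    have h7 : SG L ℓ θ (T₁ ∪ {(x, x)}) := hr.nons h1 h2 hR1 hR2
    -- the image of `x`
    obtain ⟨x', hx'1, hx'2, hx'3⟩ : ∃ x', SG L ℓ θ (T₁ ∪ {(x, x')}) ∧ (x ∈ u → x' = x) ∧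
        x' ∈ A (w ∩ u) := by
      by_cases hxu : x ∈ u
      · refine ⟨x, h7, fun _ => rfl, ?_⟩
        have h8 : w ∩ u = {x} := by
          rw [hw1]
          exact Finset.inter_eq_left.2 (Finset.singleton_subset_iff.2 hxu)
        rw [h8]
        exact hA.pt _ hxF x (Finset.mem_singleton_self x)
      · obtain ⟨x', hx'P, h8⟩ := hr.coh (mk_image_le.trans_lt h1.1) hR2
        refine ⟨x', ?_, fun h9 => absurd h9 hxu, ?_⟩
        · refine h.sg_subset (h.sg_comp h7 h8) ?_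
          rintro p (hp | rfl)
          · exact ⟨p.2, Or.inl hp, Or.inl (mk_mem_idr ⟨p, hp, rfl⟩)⟩
          · exact ⟨x, Or.inr rfl, Or.inr rfl⟩
        · refine hA.mono ∅ _ (Finset.empty_subset _) hwu ?_
          rw [hA.bot]
          exact hx'P
    refine ⟨T₁ ∪ {(x, x')}, hx'1, h2.trans subset_union_left, ?_, ?_, ?_, ?_, ?_, ?_⟩
    · intro a haz
      rcases hz haz with h8 | h8
      · obtain ⟨y, hy⟩ := h3 a ⟨haz, h8⟩
        exact ⟨y, Or.inl hy⟩
      · rw [hw1] at h8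
        have h9 : a = x := Finset.mem_singleton.1 (Finset.mem_coe.1 h8)
        exact ⟨x', Or.inr (by rw [h9]; rfl)⟩
    · rintro p (hp | rfl)
      · exact Or.inl (h4 p hp)
      · exact Or.inr hxw
    · rintro t ht htu p (hp | rfl) hpt
      · exact h5 t ht htu p hp hpt
      · exact absurd (mem_sp.2 ⟨t, ht, hpt⟩) hxsp
    · rintro t ht p (hp | rfl) hpt
      · exact h6 t ht p hp hpt
      · exact absurd (mem_sp.2 ⟨t, ht, hpt⟩) hxsp
    · rintro p (hp | rfl) hpw hpu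
      · exfalso
        rw [hw1] at hpw
        have h9 : p.1 = x := Finset.mem_singleton.1 hpw
        exact hxsp (h9 ▸ h4 p hp)
      · exact hx'2 hpu
    · rintro p (hp | rfl) hpw
      · exfalso
        rw [hw1] at hpw
        have h9 : p.1 = x := Finset.mem_singleton.1 hpw
        exact hxsp (h9 ▸ h4 p hp)
      · exact hx'3

omit h hr in
theorem bd_subset {A : Finset M → L.Substructure M} {F : Finset (Finset M)} (hF : DC F)
    {w : Finset M} (hw : w ∈ F) : bd A w ⊆ sp A (F.erase w) ∪ w := by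
  intro a ha
  rcases mem_bd.1 ha with h1 | ⟨r, hr, har⟩
  · exact Or.inr h1
  · refine Or.inl (mem_sp.2 ⟨r, ?_, har⟩)
    rw [Finset.mem_erase]
    exact ⟨hr.ne, hF.2 w hw r hr.1⟩

theorem tv_bd {A : Finset M → L.Substructure M} {F : Finset (Finset M)}
    (hA : FSys K ℓ θ P Rl A F) (hF : DC F) {w : Finset M} (hw : w ∈ F)
    (hF' : DC (F.erase w)) (hwF : ∀ t ∈ F.erase w, ¬ w ⊆ t)
    (ih : Rfl (L := L) ℓ θ D A (F.erase w) w) :
    TV L ℓ θ (bd A w) (sp A (F.erase w) ∪ w) := by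
  refine ⟨bd_subset hF hw, fun z hz hzθ B hB hBθ => ?_⟩
  obtain ⟨T, h1, h2, h3, h4, h5, h6, h7, h8⟩ := exists_mv_pts h hr hA hF hw hF' hwF ih
    (mk_union_lt h hzθ hBθ) (union_subset hz (hB.trans (bd_subset hF hw)))
  have hid : ∀ p ∈ T, p.1 ∈ bd A w → p.2 = p.1 := by
    intro p hp hpb
    rcases mem_bd.1 hpb with h9 | ⟨r, hr, hpr⟩
    · exact h7 p hp h9 h9
    · exact h5 r (by
        rw [Finset.mem_erase]
        exact ⟨hr.ne, hF.2 w hw r hr.1⟩) hr.1 p hp hpr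
  refine ⟨T, h1, ?_, h3.mono Subset.rfl subset_union_left, ?_⟩
  · rintro ⟨a, b⟩ ⟨ha, hab⟩
    obtain rfl : b = a := hab
    obtain ⟨y, hy⟩ := h3 b (Or.inr ha)
    have h9 : y = b := hid _ hy (hB ha)
    rwa [h9] at hy
  · intro p hp _
    rcases h4 p hp with h9 | h9
    · obtain ⟨t, ht, hpt⟩ := mem_sp.1 h9
      refine mem_bd.2 (Or.inr ⟨t ∩ w, ?_, h6 t ht p hp hpt⟩)
      refine ⟨Finset.inter_subset_right, fun h10 => ?_⟩
      exact hwF t ht (h10.trans Finset.inter_subset_left)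
    · rw [h7 p hp h9 h9]
      exact mem_bd.2 (Or.inl h9)

/-- **Reflection.** -/
theorem rfl_of_sys {A : Finset M → L.Substructure M} (hM : K.mem M) (hMθ : θ ≤ #M)
    {F : Finset (Finset M)} (hF : DC F) (hA : FSys K ℓ θ P Rl A F) (u : Finset M) :
    Rfl (L := L) ℓ θ D A F u := by
  revert hA u
  refine DC.induction (p := fun F => FSys K ℓ θ P Rl A F → ∀ u, Rfl (L := L) ℓ θ D A F u) ?_ ?_ hF
  · intro hA u z hzθ hz
    have hP : sp A {∅} = (P : Set M) := by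
      ext a
      rw [mem_sp]
      simp [hA.bot]
    rw [hP] at hz
    refine ⟨idr (z ∪ D), sg_idr h hM hMθ (mk_union_lt h hzθ hr.hD), idr_mono subset_union_right,
      fun a ha => ⟨a, mk_mem_idr (Or.inl ha)⟩, ?_, fun _ _ _ p hp _ => hp.2, ?_⟩
    · intro p hp
      rw [hP]
      rcases hp.1 with h1 | h1
      · exact hz h1
      · exact hr.hDP h1
    · intro t ht p hp hpt
      rw [Finset.mem_singleton] at ht
      subst ht
      rw [hp.2, Finset.empty_inter]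
      exact hpt
  · intro F w hF hF' hw hwne hwF ih hA u z hzθ hz
    have hA' := hA.subset (Finset.erase_subset w F)
    have hwu : w ∩ u ∈ F := hF.2 w hw _ Finset.inter_subset_left
    have hDsp : D ⊆ sp A (F.erase w) := fun d hd => mem_sp.2 ⟨∅, hF'.1, by
      rw [hA.bot]
      exact hr.hDP hd⟩
    let z₂ : Set M := (z ∪ D) ∩ A w
    have hzD : #(z ∪ D : Set M) < θ := mk_union_lt h hzθ hr.hD
    have hz₂ : #z₂ < θ := (mk_le_mk_of_subset inter_subset_left).trans_lt hzD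
    obtain ⟨B, hB, hBθ, hI⟩ := (hA.atm w hw hwne).2 z₂ inter_subset_right hz₂
    have hTV := tv_bd h hr hA hF hw hF' hwF (ih hA' w)
    have hI' := hI.lift h hM hMθ hTV hBθ hz₂ hB
    have hBY : B ⊆ sp A (F.erase w) ∪ w := hB.trans hTV.1
    obtain ⟨T₂, h1, h2, h3, h4, h5, h6, h7, h8⟩ := exists_mv_pts h hr hA hF hw hF' hwF (ih hA' u)
      (z := (z ∪ D) ∩ sp A (F.erase w) ∪ B)
      (mk_union_lt h ((mk_le_mk_of_subset inter_subset_left).trans_lt hzD) hBθ)
      (union_subset (inter_subset_right.trans subset_union_left) hBY)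
    have hPI₂ := h.sg_isPI h1
    have hBmem : ∀ b ∈ B, b ∈ w ∨ ∃ r ∈ F.erase w, r ⊂ w ∧ b ∈ A r := by
      intro b hb
      rcases mem_bd.1 (hB hb) with h9 | ⟨r, hr1, hr2⟩
      · exact Or.inl h9
      · refine Or.inr ⟨r, ?_, hr1, hr2⟩
        rw [Finset.mem_erase]
        exact ⟨hr1.ne, hF.2 w hw r hr1.1⟩
    have hBran : ∀ p ∈ rs T₂ B, p.2 ∈ A (w ∩ u) := by
      rintro p ⟨hp, hpB⟩
      rcases hBmem _ hpB with h9 | ⟨r, hr1, hr2, hr3⟩
      · exact h8 p hp h9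
      · exact hA.mono _ _ (Finset.inter_subset_inter_right hr2.1) hwu (h6 r hr1 p hp hr3)
    have hR₀ : SG L ℓ θ (rs T₂ B) := h.sg_subset h1 (rs_subset _ _)
    obtain ⟨R, hR1, hR2, hR3, hR4, hR5, hR6⟩ : ∃ R : Set (M × M), SG L ℓ θ R ∧
        (∀ p ∈ R, p.1 ∈ B ∪ z₂) ∧ rs T₂ B ⊆ R ∧ Cov R z₂ ∧
        (w ⊆ u → ∀ p ∈ R, p.1 ∈ z₂ → p.2 = p.1) ∧ ∀ p ∈ R, p.1 ∈ z₂ → p.2 ∈ A (w ∩ u) := by
      by_cases hwu' : w ⊆ u
      · refine ⟨idr (B ∪ z₂), sg_idr h hM hMθ (mk_union_lt h hBθ hz₂), fun p hp => hp.1, ?_,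
          fun a ha => ⟨a, mk_mem_idr (Or.inr ha)⟩, fun _ p hp _ => hp.2, ?_⟩
        · rintro p ⟨hp, hpB⟩
          refine ⟨Or.inl hpB, ?_⟩
          rcases hBmem _ hpB with h9 | ⟨r, hr1, hr2, hr3⟩
          · exact h7 p hp h9 (hwu' h9)
          · exact h5 r hr1 (hr2.1.trans hwu') p hp hr3
        · intro p hp hpz
          rw [hp.2, Finset.inter_eq_left.2 hwu']
          exact hpz.2
      · obtain ⟨R, g1, g2, g3, g4, g5⟩ := exists_ext_into h hM hMθ (hA.le _ hwu)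
          (hA.card _ hwu).ge hR₀ hBran hz₂
        refine ⟨R, g2, ?_, g1, g3, fun h9 => absurd h9 hwu', fun p hp _ => g4 p hp⟩
        intro p hp
        rcases g5 p hp with ⟨q, hq, hqp⟩ | h9
        · left
          rw [← hqp]
          exact hq.2
        · exact Or.inr h9
    have hLG : LG L ℓ θ (R ∪ T₂) := by
      refine hI'.transfer h hM hM hMθ hMθ hBθ (lg_of_sg h h1) h4 (h3.mono Subset.rfl
        subset_union_right) hR1 hR2 hR3
    have hPI := lg_isPI h hLG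
    have hz' : ∀ a ∈ z ∪ D, a ∈ sp A (F.erase w) ∨ a ∈ A w := by
      intro a ha
      rcases ha with ha | ha
      · obtain ⟨t, ht, hat⟩ := mem_sp.1 (hz ha)
        by_cases htw : t = w
        · right
          rwa [htw] at hat
        · left
          exact mem_sp.2 ⟨t, by rw [Finset.mem_erase]; exact ⟨htw, ht⟩, hat⟩
      · exact Or.inl (hDsp ha)
    -- the value of the final map on the old faces
    have hval : ∀ t ∈ F.erase w, ∀ p ∈ rs (R ∪ T₂) (z ∪ D), p.1 ∈ A t → (p.1, p.2) ∈ T₂ := by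
      intro t ht p hp hpt
      obtain ⟨y, hy⟩ := h3 p.1 (Or.inl ⟨hp.2, mem_sp.2 ⟨t, ht, hpt⟩⟩)
      have h9 : p.2 = y := IsPI.snd_eq hPI hp.1 (Or.inr hy)
      rw [h9]
      exact hy
    refine ⟨rs (R ∪ T₂) (z ∪ D), hLG _ (rs_subset _ _) ((IsPI.mk_rs_le hPI _).trans_lt hzD), ?_,
      ?_, ?_, ?_, ?_⟩
    · intro p hp
      exact ⟨Or.inr (h2 hp), Or.inr hp.1⟩
    · intro a ha
      rcases hz' a (Or.inl ha) with h9 | h9
      · obtain ⟨y, hy⟩ := h3 a (Or.inl ⟨Or.inl ha, h9⟩)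
        exact ⟨y, Or.inr hy, Or.inl ha⟩
      · obtain ⟨y, hy⟩ := hR4 a ⟨Or.inl ha, h9⟩
        exact ⟨y, Or.inl hy, Or.inl ha⟩
    · intro p hp
      rcases hz' p.1 hp.2 with h9 | h9
      · exact sp_mono (Finset.erase_subset _ _) h9
      · exact mem_sp.2 ⟨w, hw, h9⟩
    · intro t ht htu p hp hpt
      by_cases htw : t = w
      · rw [htw] at hpt htu
        obtain ⟨y, hy⟩ := hR4 p.1 ⟨hp.2, hpt⟩
        have h9 : p.2 = y := IsPI.snd_eq hPI hp.1 (Or.inl hy)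
        rw [h9]
        exact hR5 htu _ hy ⟨hp.2, hpt⟩
      · have ht' : t ∈ F.erase w := by
          rw [Finset.mem_erase]
          exact ⟨htw, ht⟩
        exact h5 t ht' htu _ (hval t ht' p hp hpt) hpt
    · intro t ht p hp hpt
      by_cases htw : t = w
      · rw [htw] at hpt ⊢
        obtain ⟨y, hy⟩ := hR4 p.1 ⟨hp.2, hpt⟩
        have h9 : p.2 = y := IsPI.snd_eq hPI hp.1 (Or.inl hy)
        rw [h9]
        exact hR6 _ hy ⟨hp.2, hpt⟩
      · have ht' : t ∈ F.erase w := by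
          rw [Finset.mem_erase]
          exact ⟨htw, ht⟩
        exact h6 t ht' _ (hval t ht' p hp hpt) hpt

/-- **Intersections.** -/
theorem FSys.inf_eq {A : Finset M → L.Substructure M} (hM : K.mem M) (hMθ : θ ≤ #M)
    {F : Finset (Finset M)} (hF : DC F) (hA : FSys K ℓ θ P Rl A F) {t t' : Finset M} (ht : t ∈ F)
    (ht' : t' ∈ F) : A t ⊓ A t' = A (t ∩ t') := by
  apply le_antisymm
  · rintro a ⟨ha, ha'⟩
    obtain ⟨T, h1, -, h3, h4, h5, h6⟩ := rfl_of_sys h hr hM hMθ hF hA t' {a} (by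
      rw [mk_singleton]
      exact one_lt_aleph0.trans_le h.hθ0) (singleton_subset_iff.2 (mem_sp.2 ⟨t, ht, ha⟩))
    obtain ⟨y, hy⟩ := h3 a rfl
    have h7 : y = a := h5 t' ht' (Finset.Subset.refl _) _ hy ha'
    have h8 := h6 t ht _ hy ha
    rw [h7] at h8
    exact h8
  · exact le_inf (hA.mono _ _ Finset.inter_subset_left ht)
      (hA.mono _ _ Finset.inter_subset_right ht')

end refl

end Vale.Agent.P307.R2.H913
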