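import Vale.Agent.P307.R2.H913.Isol

/-!
Atomic members over a set: embedding in all members and uniqueness (closure point of countable
cofinality).
-/

set_option linter.unusedSectionVars false

universe u v w

open FirstOrder Cardinal Set

namespace Vale.Agent.P307.R2.H913

open Vale.Agent.P307 Vale.Agent.P307.H304 Vale.Agent.P307.R2.H287 Language.Structure
  Language.Substructure CloX

variable {L : Language.{u, u}} {K : AEC L} {ℓ θ : Cardinal.{u}} {α κf : Cardinal.{u} → Cardinal.{u}}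
  {M N P : Type u} [L.Structure M] [L.Structure N] [L.Structure P]

/-- `θ` is the supremum of countably many smaller cardinals. -/
def CofOm (θ : Cardinal.{u}) : Prop :=
  ∃ a : ℕ → Cardinal.{u}, (∀ n, a n < θ) ∧ ∀ ρ < θ, ∃ n, ρ < a n

theorem CofOm.exists_cover (hω : CofOm θ) (hθ : ℵ₀ ≤ θ) {X : Type u} (hX : #X ≤ θ) :
    ∃ C : ℕ → Set X, Monotone C ∧ (∀ n, #(C n) < θ) ∧ ∀ x, ∃ n, x ∈ C n := by
  obtain ⟨a, ha, ha'⟩ := hω
  have hX' : #X ≤ #θ.ord.ToType := by rwa [mk_ord_toType]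
  obtain ⟨f⟩ := (Cardinal.le_def _ _).1 hX'
  have hI : ∀ i : θ.ord.ToType, #(Iio i) < θ := fun i => by simpa using mk_Iio_lt i
  have hz : ∀ n, ∃ z : θ.ord.ToType, Ordinal.typein (α := θ.ord.ToType) LT.lt z = (a n).ord := fun n =>
    Ordinal.typein_surj (α := θ.ord.ToType) LT.lt (by
      rw [Ordinal.type_toType]
      exact ord_lt_ord.2 (ha n))
  choose z hz using hz
  let D : ℕ → Set X := fun n => {x | f x < z n}
  have hD : ∀ n, #(D n) < θ := by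
    intro n
    refine lt_of_le_of_lt ?_ (hI (z n))
    refine mk_le_of_injective (f := fun x : D n => (⟨f x.1, x.2⟩ : Iio (z n))) ?_
    intro x y hxy
    exact Subtype.ext (f.injective (congrArg Subtype.val hxy))
  have hDx : ∀ x, ∃ n, x ∈ D n := by
    intro x
    obtain ⟨n, hn⟩ := ha' _ (hI (f x))
    refine ⟨n, ?_⟩
    have h1 : Ordinal.typein (α := θ.ord.ToType) LT.lt (f x) < Ordinal.typein (α := θ.ord.ToType) LT.lt (z n) := by
      rw [hz, lt_ord]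
      exact hn
    exact (Ordinal.typein_lt_typein (α := θ.ord.ToType) LT.lt).1 h1
  refine ⟨fun n => ⋃ i ∈ Finset.range (n + 1), D i, ?_, ?_, ?_⟩
  · intro m n hmn x hx
    simp only [mem_iUnion, Finset.mem_range] at hx ⊢
    obtain ⟨i, hi, hx⟩ := hx
    exact ⟨i, by omega, hx⟩
  · intro n
    induction n with
    | zero =>
      refine lt_of_le_of_lt (mk_le_mk_of_subset ?_) (hD 0)
      intro x hx
      simp only [mem_iUnion, Finset.mem_range] at hx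
      obtain ⟨i, hi, hx⟩ := hx
      obtain rfl : i = 0 := by omega
      exact hx
    | succ n ih =>
      refine lt_of_le_of_lt (mk_le_mk_of_subset (t := (⋃ i ∈ Finset.range (n + 1), D i) ∪
        D (n + 1)) ?_) ((mk_union_le _ _).trans_lt (add_lt_of_lt hθ ih (hD (n + 1))))
      intro x hx
      simp only [mem_iUnion, Finset.mem_range] at hx
      obtain ⟨i, hi, hx⟩ := hx
      rcases Nat.lt_succ_iff_lt_or_eq.1 hi with h1 | h1
      · left
        simp only [mem_iUnion, Finset.mem_range]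
        exact ⟨i, h1, hx⟩
      · right
        rw [← h1]
        exact hx
  · intro x
    obtain ⟨n, hn⟩ := hDx x
    refine ⟨n, ?_⟩
    simp only [mem_iUnion, Finset.mem_range]
    exact ⟨n, by omega, hn⟩

variable (h : Env K ℓ α κf θ)
include h

/-- A member of size `θ` is a union of a countable chain of small strong substructures. -/
theorem exists_nat_chain (hω : CofOm θ) (hM : K.mem M) (hMθ : #M ≤ θ) :
    ∃ C : ℕ → L.Substructure M, Monotone C ∧ (∀ n, K.le (C n)) ∧ (∀ n, #(C n) < θ) ∧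
      ∀ x, ∃ n, x ∈ C n := by
  obtain ⟨D, hD1, hD2, hD3⟩ := hω.exists_cover h.hθ0 hMθ
  have hstep : ∀ (n : ℕ) (S : {S : L.Substructure M // K.le S ∧ #S < θ}),
      ∃ T : {S : L.Substructure M // K.le S ∧ #S < θ}, (S.1 : Set M) ∪ D n ⊆ (T.1 : Set M) := by
    intro n S
    obtain ⟨T, h1, h2, h3⟩ := h.hK.2.2 M hM ((S.1 : Set M) ∪ D n)
    exact ⟨⟨T, h1, h3.trans_lt (h.add_lt (mk_union_lt h S.2.2 (hD2 n)) h.hℓ)⟩, h2⟩
  choose st hst using hstep
  obtain ⟨S₀, h1, -, h3⟩ := h.hK.2.2 M hM ∅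
  let S₀' : {S : L.Substructure M // K.le S ∧ #S < θ} := ⟨S₀, h1, h3.trans_lt (by
    rw [mk_eq_zero, zero_add]
    exact h.hℓ)⟩
  let F : ℕ → {S : L.Substructure M // K.le S ∧ #S < θ} := fun n => Nat.rec S₀' (fun n S => st n S) n
  have hF : ∀ n, F (n + 1) = st n (F n) := fun n => rfl
  refine ⟨fun n => (F n).1, monotone_nat_of_le_succ fun n x hx => ?_, fun n => (F n).2.1,
    fun n => (F n).2.2, fun x => ?_⟩
  · rw [hF]
    exact hst n (F n) (Or.inl hx)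
  · obtain ⟨n, hn⟩ := hD3 x
    refine ⟨n + 1, ?_⟩
    change x ∈ (F (n + 1)).1
    rw [hF]
    exact hst n (F n) (Or.inr hn)

/-- The extension step. -/
theorem Atm.step (hM : K.mem M) (hN : K.mem N) (hMθ : θ ≤ #M) (hNθ : θ ≤ #N) {X P : Set M}
    (hA : Atm L ℓ θ X P) {G : Set (M × N)} (hGX : ∀ p ∈ G, p.1 ∈ X)
    (hGc : Cov G X) {R : Set (M × N)} (hR : #R < θ) (hRP : ∀ p ∈ R, p.1 ∈ P)
    (hRG : LG L ℓ θ (R ∪ G)) {C : Set M} (hC : C ⊆ P) (hCθ : #C < θ) :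
    ∃ R', R ⊆ R' ∧ SG L ℓ θ R' ∧ (∀ p ∈ R', p.1 ∈ P) ∧ Cov R' C ∧ LG L ℓ θ (R' ∪ G) := by
  have hPI := lg_isPI h hRG
  let C' : Set M := Prod.fst '' R ∪ C
  have hC'θ : #C' < θ := mk_union_lt h (mk_image_le.trans_lt hR) hCθ
  have hC'P : C' ⊆ P := by
    refine union_subset ?_ hC
    rintro _ ⟨p, hp, rfl⟩
    exact hRP p hp
  obtain ⟨B, hB, hBθ, hI⟩ := hA.2 C' hC'P hC'θ
  have hGB : #(rs G B) < θ := (IsPI.mk_rs_le (hPI.mono subset_union_right) B).trans_lt hBθ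
  have h1 : SG L ℓ θ (R ∪ rs G B) := hRG _ (union_subset_union_right _ (rs_subset _ _))
    (mk_union_lt h hR hGB)
  obtain ⟨R₁, h2, h3, h4⟩ := exists_cov h hM hN hMθ hNθ h1 hC'θ
  refine ⟨rs R₁ (B ∪ C'), ?_, h.sg_subset h3 (rs_subset _ _), ?_, ?_, ?_⟩
  · intro p hp
    exact ⟨h2 (Or.inl hp), Or.inr (Or.inl ⟨p, hp, rfl⟩)⟩
  · rintro p ⟨-, hp | hp⟩
    · exact hA.1 (hB hp)
    · exact hC'P hp
  · intro a ha
    obtain ⟨y, hy⟩ := h4 a (Or.inr ha)
    exact ⟨y, hy, Or.inr (Or.inr ha)⟩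
  · exact hI.transfer h hM hN hMθ hNθ hBθ (hRG.subset subset_union_right) hGX
      (hGc.mono Subset.rfl hB) (h.sg_subset h3 (rs_subset _ _)) (fun p hp => hp.2)
      fun p hp => ⟨h2 (Or.inr hp), Or.inl hp.2⟩

omit h in
theorem isPI_nat_iUnion {R : ℕ → Set (M × N)} (hm : Monotone R) (hR : ∀ n, IsPI L (R n)) :
    IsPI L (⋃ n, R n) := by
  have hfin : ∀ {k : ℕ} (x : Fin k → M × N), (∀ i, x i ∈ ⋃ n, R n) →
      ∀ j, ∃ n, j ≤ n ∧ ∀ i, x i ∈ R n := by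
    intro k x hx j
    choose g hg using fun i => mem_iUnion.1 (hx i)
    obtain ⟨m, hm'⟩ := Finset.exists_le (Finset.univ.image g)
    exact ⟨max j m, le_max_left _ _, fun i => hm ((hm' _ (Finset.mem_image_of_mem g
      (Finset.mem_univ i))).trans (le_max_right _ _)) (hg i)⟩
  constructor
  · intro p hp q' hq
    obtain ⟨n, h1⟩ := mem_iUnion.1 hp
    obtain ⟨m, h2⟩ := mem_iUnion.1 hq
    exact (hR (max n m)).eq_iff p (hm (le_max_left n m) h1) q' (hm (le_max_right n m) h2)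
  · intro k f x hx q' hq
    obtain ⟨m, h2⟩ := mem_iUnion.1 hq
    obtain ⟨n, hmn, h1⟩ := hfin x hx m
    exact (hR n).fun_iff f x h1 q' (hm hmn h2)
  · intro k r x hx
    obtain ⟨n, -, h1⟩ := hfin x hx 0
    exact (hR n).rel_iff r x h1

/-- Unions of countable chains of small good relations on small strong substructures give strong
embeddings. -/
theorem exists_emb_of_chain (hM : K.mem M) (hN : K.mem N) {C : ℕ → L.Substructure M}
    (hC1 : Monotone C) (hC2 : ∀ n, K.le (C n)) (hC4 : ∀ x, ∃ n, x ∈ C n)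
    {R : ℕ → Set (M × N)} (hR1 : Monotone R) (hR2 : ∀ n, SG L ℓ θ (R n))
    (hR3 : ∀ n, Cov (R n) (C n : Set M)) :
    ∃ f : M ↪[L] N, K.Emb f ∧ ∀ n, ∀ p ∈ R n, f p.1 = p.2 := by
  have hPI : IsPI L (⋃ n, R n) := isPI_nat_iUnion hR1 fun n => h.sg_isPI (hR2 n)
  have himg : ∀ n, ∃ T₀ : L.Substructure N, K.le T₀ ∧ (T₀ : Set N) = im (R n) (C n) := by
    intro n
    have h2 : SG L ℓ θ (rs (R n) (C n : Set M)) := h.sg_subset (hR2 n) (rs_subset _ _)
    have h3 : (C n : Set M) = Prod.fst '' rs (R n) (C n : Set M) := by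
      ext x
      constructor
      · intro hx
        obtain ⟨y, hy⟩ := hR3 n x hx
        exact ⟨(x, y), ⟨hy, hx⟩, rfl⟩
      · rintro ⟨p, hp, rfl⟩
        exact hp.2
    obtain ⟨T₀, hT₀⟩ := exists_sub_image h h2 h3
    refine ⟨T₀, le_of_sg h hM hN h2 (hC2 n) h3 hT₀, ?_⟩
    rw [hT₀]
    ext y
    constructor
    · rintro ⟨p, hp, rfl⟩
      exact ⟨p.1, hp.2, hp.1⟩
    · rintro ⟨x, hx, hxy⟩
      exact ⟨(x, y), ⟨hxy, hx⟩, rfl⟩
  choose F hF1 hF2 using himg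
  have hmono : Monotone F := by
    intro a b hab x hx
    rw [← SetLike.mem_coe, hF2] at hx
    obtain ⟨y, hy, hyx⟩ := hx
    rw [← SetLike.mem_coe, hF2]
    exact ⟨y, hC1 hab hy, hR1 hab hyx⟩
  -- the union is strong
  have hT : K.le (⨆ a, F a) := by
    have h1 := AEC.le_iSup_directed (K := K) (ι := ULift.{u} ℕ) (fun a => F a.down)
      (fun a b hab => hmono hab) fun a => hF1 a.down
    convert h1 using 1
    apply le_antisymm
    · exact iSup_le fun a => le_iSup (fun a : ULift.{u} ℕ => F a.down) ⟨a⟩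
    · exact iSup_le fun a => le_iSup F a.down
  have hTc : ∀ y, y ∈ (⨆ a, F a : L.Substructure N) ↔ ∃ n, y ∈ im (R n) (C n : Set M) := by
    intro y
    rw [Language.Substructure.mem_iSup_of_directed hmono.directed_le]
    constructor
    · rintro ⟨a, ha⟩
      rw [← SetLike.mem_coe, hF2] at ha
      exact ⟨a, ha⟩
    · rintro ⟨a, ha⟩
      refine ⟨a, ?_⟩
      rw [← SetLike.mem_coe, hF2]
      exact ha
  obtain ⟨e, he⟩ := hPI.exists_equiv_sub (⊤ : L.Substructure M) (⨆ a, F a) (by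
    intro a _
    obtain ⟨n, hn⟩ := hC4 a
    obtain ⟨y, hy⟩ := hR3 n a hn
    exact ⟨y, (hTc y).2 ⟨n, a, hn, hy⟩, mem_iUnion.2 ⟨n, hy⟩⟩) (by
    intro b hb
    obtain ⟨n, x, hx, hxb⟩ := (hTc b).1 hb
    exact ⟨x, trivial, mem_iUnion.2 ⟨n, hxb⟩⟩)
  let e₀ : M ≃[L] (⊤ : L.Substructure M) := Language.Substructure.topEquiv.symm
  refine ⟨((⨆ a, F a : L.Substructure N).subtype.comp e.toEmbedding).comp e₀.toEmbedding, ?_, ?_⟩
  · exact AEC.Emb.comp (AEC.Emb.comp (AEC.emb_subtype.2 hT) (AEC.Emb.of_equiv e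
      (K.mem_iso e₀ hM))) (AEC.Emb.of_equiv e₀ hM)
  · intro n p hp
    have h1 := he (e₀ p.1)
    exact (hPI.eq_iff _ h1 _ (mem_iUnion.2 ⟨n, hp⟩)).1 rfl

/-- A member of size `θ` which is atomic over `X` embeds over any copy of `X` in every member. -/
theorem exists_emb_of_atm (hω : CofOm θ) (hM : K.mem M) (hN : K.mem N) (hMθ : #M = θ)
    (hNθ : θ ≤ #N) {X : Set M} (hA : Atm L ℓ θ X univ) {G : Set (M × N)} (hG : LG L ℓ θ G)
    (hGX : ∀ p ∈ G, p.1 ∈ X) (hGc : Cov G X) :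
    ∃ f : M ↪[L] N, K.Emb f ∧ ∀ p ∈ G, f p.1 = p.2 := by
  obtain ⟨C, hC1, hC2, hC3, hC4⟩ := exists_nat_chain h hω hM hMθ.le
  let St := {R : Set (M × N) // #R < θ ∧ LG L ℓ θ (R ∪ G)}
  have hstep : ∀ (n : ℕ) (R : St), ∃ R' : St, R.1 ⊆ R'.1 ∧ Cov R'.1 (C n : Set M) := by
    intro n R
    obtain ⟨R', h1, h2, -, h3, h4⟩ := hA.step h hM hN hMθ.ge hNθ hGX hGc R.2.1
      (fun _ _ => mem_univ _) R.2.2 (subset_univ (C n : Set M)) (hC3 n)
    exact ⟨⟨R', h2.1, h4⟩, h1, h3⟩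
  choose st hst1 hst2 using hstep
  let R₀ : St := ⟨∅, by
    rw [mk_eq_zero]
    exact aleph0_pos.trans_le h.hθ0, by
    rw [empty_union]
    exact hG⟩
  let F : ℕ → St := fun n => Nat.rec R₀ (fun n R => st n R) n
  have hF : ∀ n, F (n + 1) = st n (F n) := fun n => rfl
  have hFm : Monotone fun n => (F n).1 := monotone_nat_of_le_succ fun n => by
    rw [hF]
    exact hst1 n (F n)
  obtain ⟨f, hf1, hf2⟩ := exists_emb_of_chain h hM hN hC1 hC2 hC4
    (R := fun n => (F (n + 1)).1) (fun m n hmn => hFm (Nat.succ_le_succ hmn))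
    (fun n => (F (n + 1)).2.2 _ subset_union_left (F (n + 1)).2.1) (fun n => by
      rw [hF]
      exact hst2 n (F n))
  refine ⟨f, hf1, ?_⟩
  rintro ⟨x, y⟩ hp
  obtain ⟨n, hn⟩ := hC4 x
  obtain ⟨y', hy'⟩ := hst2 n (F n) x hn
  have h1 := hf2 n (x, y') (by rw [hF]; exact hy')
  have h2 : y' = y := IsPI.snd_eq (lg_isPI h (st n (F n)).2.2) (Or.inl hy') (Or.inr hp)
  exact h1.trans h2

/-- Uniqueness of atomic members of size `θ`. -/
theorem exists_equiv_of_atm (hω : CofOm θ) (hM : K.mem M) (hN : K.mem N) (hMθ : #M = θ)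
    (hNθ : #N = θ) {X : Set M} {X' : Set N} (hA : Atm L ℓ θ X univ) (hA' : Atm L ℓ θ X' univ)
    {G : Set (M × N)} (hG : LG L ℓ θ G) (hGX : ∀ p ∈ G, p.1 ∈ X) (hGc : Cov G X)
    (hGX' : ∀ p ∈ G, p.2 ∈ X') (hGc' : ∀ y ∈ X', ∃ x, (x, y) ∈ G) :
    ∃ e : M ≃[L] N, ∀ p ∈ G, e p.1 = p.2 := by
  obtain ⟨C, hC1, -, hC3, hC4⟩ := exists_nat_chain h hω hM hMθ.le
  obtain ⟨D, hD1, -, hD3, hD4⟩ := exists_nat_chain h hω hN hNθ.le
  let St := {R : Set (M × N) // #R < θ ∧ LG L ℓ θ (R ∪ G)}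
  have hstep : ∀ (n : ℕ) (R : St), ∃ R' : St, R.1 ⊆ R'.1 ∧ Cov R'.1 (C n : Set M) ∧
      ∀ y ∈ D n, ∃ x, (x, y) ∈ R'.1 := by
    intro n R
    obtain ⟨R', h1, h2, -, h3, h4⟩ := hA.step h hM hN hMθ.ge hNθ.ge hGX hGc R.2.1
      (fun _ _ => mem_univ _) R.2.2 (subset_univ (C n : Set M)) (hC3 n)
    obtain ⟨R'', h5, h6, -, h7, h8⟩ := hA'.step h hN hM hNθ.ge hMθ.ge (G := Prod.swap ⁻¹' G)
      (fun p hp => hGX' _ hp) (fun y hy => hGc' y hy) (R := Prod.swap ⁻¹' R')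
      ((mk_swap R').trans_lt h2.1) (fun _ _ => mem_univ _) h4.swap
      (subset_univ (D n : Set N)) (hD3 n)
    refine ⟨⟨Prod.swap ⁻¹' R'', (mk_swap R'').trans_lt h6.1, h8.swap⟩, fun p hp => ?_,
      fun x hx => ?_, fun y hy => ?_⟩
    · exact h5 (a := p.swap) (h1 hp)
    · obtain ⟨y, hy⟩ := h3 x hx
      exact ⟨y, h5 (a := (y, x)) hy⟩
    · exact h7 y hy
  choose st hst1 hst2 hst3 using hstep
  let R₀ : St := ⟨∅, by
    rw [mk_eq_zero]
    exact aleph0_pos.trans_le h.hθ0, by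
    rw [empty_union]
    exact hG⟩
  let F : ℕ → St := fun n => Nat.rec R₀ (fun n R => st n R) n
  have hF : ∀ n, F (n + 1) = st n (F n) := fun n => rfl
  have hFm : Monotone fun n => (F n).1 ∪ G := monotone_nat_of_le_succ fun n => by
    rw [hF]
    exact union_subset_union_left _ (hst1 n (F n))
  have hPI : IsPI L (⋃ n, ((F n).1 ∪ G)) := isPI_nat_iUnion hFm fun n => lg_isPI h (F n).2.2
  obtain ⟨e, he⟩ := hPI.exists_equiv (by
    intro a
    obtain ⟨n, hn⟩ := hC4 a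
    obtain ⟨y, hy⟩ := hst2 n (F n) a hn
    exact ⟨y, mem_iUnion.2 ⟨n + 1, Or.inl (by rw [hF]; exact hy)⟩⟩) (by
    intro b
    obtain ⟨n, hn⟩ := hD4 b
    obtain ⟨x, hx⟩ := hst3 n (F n) b hn
    exact ⟨x, mem_iUnion.2 ⟨n + 1, Or.inl (by rw [hF]; exact hx)⟩⟩)
  exact ⟨e, fun p hp => (hPI.eq_iff _ (he p.1) _ (mem_iUnion.2 ⟨0, Or.inr hp⟩)).1 rfl⟩

end Vale.Agent.P307.R2.H913
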