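import Vale.Agent.P307.R2.H287.Unif2

/-!
Relations which are good at all levels below a closure point `θ` (the definitions and the basic
lemmas follow helper287's `R2/H287/Small.lean`, with a smaller environment).
-/

set_option linter.unusedSectionVars false

universe u v w

open FirstOrder Cardinal Set

namespace Vale.Agent.P307.R2.H913

open Vale.Agent.P307 Vale.Agent.P307.H304 Vale.Agent.P307.R2.H287 Language.Structure
  Language.Substructure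

variable {L : Language.{u, u}} {K : AEC L} {ℓ θ : Cardinal.{u}} {α κf : Cardinal.{u} → Cardinal.{u}}
  {M N P : Type u} [L.Structure M] [L.Structure N] [L.Structure P]

/-- Good at all levels below `θ`. -/
def SG (L : Language.{u, u}) (ℓ θ : Cardinal.{u}) {M N : Type u} [L.Structure M] [L.Structure N]
    (R : Set (M × N)) : Prop :=
  #R < θ ∧ ∀ ν, ℓ ≤ ν → #R ≤ ν → ν < θ → Good L ν R

/-- All small pieces are good. -/
def LG (L : Language.{u, u}) (ℓ θ : Cardinal.{u}) {M N : Type u} [L.Structure M] [L.Structure N]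
    (G : Set (M × N)) : Prop :=
  ∀ R ⊆ G, #R < θ → SG L ℓ θ R

/-- The environment at a closure point. -/
structure Env (K : AEC L) (ℓ : Cardinal.{u}) (α κf : Cardinal.{u} → Cardinal.{u})
    (θ : Cardinal.{u}) : Prop where
  hK : K.IsLS ℓ
  hunb : ∀ ν, ν < κf ν ∧ K.CategoricalIn (κf ν)
  stab : Stab K ℓ α (thr κf)
  hℓ : ℓ < θ
  hα : ∀ ρ < θ, α ρ < θ
  hκ : ∀ ρ < θ, thr κf ρ < θ

theorem SG.subset {R R' : Set (M × N)} (h : SG L ℓ θ R') (hR : R ⊆ R') (_hℓ : ℓ < θ)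
    (hℓ0 : ℵ₀ ≤ ℓ) : SG L ℓ θ R := by
  refine ⟨(mk_le_mk_of_subset hR).trans_lt h.1, fun ν hν hRν hνθ => ?_⟩
  refine Good.mono (hℓ0.trans hν) (le_max_left ν #R') ?_ hRν
  exact (h.2 (max ν #R') (hν.trans (le_max_left _ _)) (le_max_right _ _)
    (max_lt hνθ h.1)).subset hR

theorem SG.swap {R : Set (M × N)} (h : SG L ℓ θ R) : SG L ℓ θ (Prod.swap ⁻¹' R : Set (N × M)) := by
  refine ⟨(mk_swap R).trans_lt h.1, fun ν hν hRν hνθ => ?_⟩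
  exact (h.2 ν hν ((mk_swap R).symm.trans_le hRν) hνθ).swap

theorem SG.isPI {R : Set (M × N)} (h : SG L ℓ θ R) (hℓ : ℓ < θ) : IsPI L R :=
  (h.2 (max ℓ #R) (le_max_left _ _) (le_max_right _ _) (max_lt hℓ h.1)).1

theorem SG.comp {R : Set (M × N)} {R' : Set (N × P)} (h : SG L ℓ θ R) (h' : SG L ℓ θ R')
    (hℓ : ℓ < θ) (hℓ0 : ℵ₀ ≤ ℓ) : SG L ℓ θ (relComp R R') := by
  have h1 : #(relComp R R') ≤ #R := (h'.isPI hℓ).mk_comp_le
  refine ⟨h1.trans_lt h.1, fun ν hν hRν hνθ => ?_⟩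
  have h2 : max ν (max #R #R') < θ := max_lt hνθ (max_lt h.1 h'.1)
  refine Good.mono (hℓ0.trans hν) (le_max_left ν (max #R #R')) ?_ hRν
  exact (h.2 _ (hν.trans (le_max_left _ _)) ((le_max_left _ _).trans (le_max_right _ _)) h2).comp
    (h'.2 _ (hν.trans (le_max_left _ _)) ((le_max_right _ _).trans (le_max_right _ _)) h2)

namespace Env

variable (h : Env K ℓ α κf θ)
include h

theorem h0 : ℵ₀ ≤ ℓ := h.hK.1

theorem hθ0 : ℵ₀ ≤ θ := h.h0.trans h.hℓ.le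

theorem sg_subset {R R' : Set (M × N)} (h' : SG L ℓ θ R') (hR : R ⊆ R') : SG L ℓ θ R :=
  h'.subset hR h.hℓ h.h0

theorem sg_isPI {R : Set (M × N)} (h' : SG L ℓ θ R) : IsPI L R := h'.isPI h.hℓ

theorem sg_comp {R : Set (M × N)} {R' : Set (N × P)} (h1 : SG L ℓ θ R) (h2 : SG L ℓ θ R') :
    SG L ℓ θ (relComp R R') := h1.comp h2 h.hℓ h.h0

theorem sg_of_good (hM : K.mem M) (hN : K.mem N) (hMθ : θ ≤ #M) (hNθ : θ ≤ #N)
    {ρ : Cardinal.{u}} (hℓρ : ℓ ≤ ρ) (hρ : ρ < θ) {R : Set (M × N)} (hR : #R ≤ ρ)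
    (hg : Good L (α ρ) R) : SG L ℓ θ R := by
  refine ⟨hR.trans_lt hρ, fun ν hν hRν hνθ => ?_⟩
  have h1 : max ν (α ρ) < θ := max_lt hνθ (h.hα ρ hρ)
  refine Good.mono (h.h0.trans hν) (le_max_left ν (α ρ)) ?_ hRν
  exact (h.stab ρ hℓρ).2 _ (le_max_right _ _) M N hM hN ((h.hκ _ h1).le.trans hMθ)
    ((h.hκ _ h1).le.trans hNθ) R hR hg

theorem sg_of_level (hM : K.mem M) (hN : K.mem N) (hMθ : θ ≤ #M) (hNθ : θ ≤ #N)
    {ρ ν : Cardinal.{u}} (hℓρ : ℓ ≤ ρ) (hρ : ρ < θ) (hν : α ρ ≤ ν) {R : Set (M × N)}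
    (hR : #R ≤ ρ) (hg : Good L ν R) : SG L ℓ θ R :=
  h.sg_of_good hM hN hMθ hNθ hℓρ hρ hR (Good.mono ((h.h0.trans hℓρ).trans (h.stab ρ hℓρ).1) hν hg
    (hR.trans (h.stab ρ hℓρ).1))

theorem add_lt {a b : Cardinal.{u}} (ha : a < θ) (hb : b < θ) : a + b < θ :=
  add_lt_of_lt h.hθ0 ha hb

theorem exists_left (hM : K.mem M) (hN : K.mem N) (hMθ : θ ≤ #M) (hNθ : θ ≤ #N)
    {R : Set (M × N)} (hR : SG L ℓ θ R) (A : Set M) (hA : #A < θ) :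
    ∃ R', R ⊆ R' ∧ SG L ℓ θ R' ∧ (∀ a ∈ A, ∃ b, (a, b) ∈ R') ∧ #R' ≤ max ℓ (max #R #A) := by
  let ρ := max ℓ (max #R #A)
  have hρ : ρ < θ := max_lt h.hℓ (max_lt hR.1 hA)
  have hℓρ : ℓ ≤ ρ := le_max_left _ _
  have hRρ : #R ≤ ρ := (le_max_left _ _).trans (le_max_right _ _)
  have hAρ : #A ≤ ρ := (le_max_right _ _).trans (le_max_right _ _)
  have hα := (h.stab ρ hℓρ).1
  obtain ⟨R₁, h1, h2, h3⟩ := (hR.2 (α ρ) (hℓρ.trans hα) (hRρ.trans hα)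
    (h.hα ρ hρ)).exists_left A (hAρ.trans hα)
  obtain ⟨R₂, h4, h5, h6, h7⟩ := exists_trim (h.h0.trans hℓρ) h1 hRρ A hAρ h3
  exact ⟨R₂, h4, h.sg_of_good hM hN hMθ hNθ hℓρ hρ h6 (h2.subset h5), h7, h6⟩

theorem exists_right (hM : K.mem M) (hN : K.mem N) (hMθ : θ ≤ #M) (hNθ : θ ≤ #N)
    {R : Set (M × N)} (hR : SG L ℓ θ R) (B : Set N) (hB : #B < θ) :
    ∃ R', R ⊆ R' ∧ SG L ℓ θ R' ∧ (∀ b ∈ B, ∃ a, (a, b) ∈ R') ∧ #R' ≤ max ℓ (max #R #B) := by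
  obtain ⟨R', h1, h2, h3, h4⟩ := h.exists_left hN hM hNθ hMθ hR.swap B hB
  refine ⟨Prod.swap ⁻¹' R', fun p hp => h1 (a := p.swap) hp, h2.swap, h3, ?_⟩
  rw [mk_swap]
  rw [mk_swap] at h4
  exact h4

theorem sg_gr (f : M ↪[L] N) (hf : K.Emb f) (hM : θ ≤ #M) (A : Set M) (hA : #A < θ) :
    SG L ℓ θ (gr f A) := by
  have hN : θ ≤ #N := hM.trans (mk_le_of_injective f.injective)
  let ρ := max ℓ #A
  have hρ : ρ < θ := max_lt h.hℓ hA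
  have hℓρ : ℓ ≤ ρ := le_max_left _ _
  have hα := (h.stab ρ hℓρ).1
  exact h.sg_of_good hf.mem_left hf.mem_right hM hN hℓρ hρ ((mk_gr_le _ _).trans
    (le_max_right _ _)) (good_gr_thr h.hK h.hunb (hℓρ.trans hα) f hf
    ((h.hκ _ (h.hα ρ hρ)).le.trans hM) A ((le_max_right _ _).trans hα))

theorem sg_empty (hM : K.mem M) (hN : K.mem N) (hMθ : θ ≤ #M) (hNθ : θ ≤ #N) :
    SG L ℓ θ (∅ : Set (M × N)) := by
  have hα := (h.stab ℓ le_rfl).1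
  exact h.sg_of_good hM hN hMθ hNθ le_rfl h.hℓ (by simp) (good_empty_thr h.hK h.hunb hα hM hN
    ((h.hκ _ (h.hα ℓ h.hℓ)).le.trans hMθ) ((h.hκ _ (h.hα ℓ h.hℓ)).le.trans hNθ))

omit h in
theorem exists_image {R : Set (M × N)} {σ : Type u} (c : σ → M)
    (hc : ∀ a ∈ range c, ∃ b, (a, b) ∈ R) : ∃ c' : σ → N, ∀ i, (c i, c' i) ∈ R := by
  choose c' hc' using fun i => hc (c i) ⟨i, rfl⟩
  exact ⟨c', hc'⟩

/-- Extension by a tuple. -/
theorem exists_tuple (hM : K.mem M) (hN : K.mem N) (hMθ : θ ≤ #M) (hNθ : θ ≤ #N)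
    {R : Set (M × N)} (hR : SG L ℓ θ R) {σ : Type u} (hσ : #σ < θ) (c : σ → M) :
    ∃ c' : σ → N, SG L ℓ θ (R ∪ range fun i => (c i, c' i)) := by
  obtain ⟨R', h1, h2, h3, -⟩ := h.exists_left hM hN hMθ hNθ hR (range c) (mk_range_le.trans_lt hσ)
  obtain ⟨c', hc'⟩ := exists_image c h3
  refine ⟨c', h.sg_subset h2 (union_subset h1 ?_)⟩
  rintro _ ⟨i, rfl⟩
  exact hc' i

theorem tpl : Nonempty (Tpl K ℓ) := exists_tpl' h.hK h.hunb

end Env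

theorem LG.subset {G G' : Set (M × N)} (h : LG L ℓ θ G') (hG : G ⊆ G') : LG L ℓ θ G :=
  fun R hR => h R (hR.trans hG)

theorem LG.swap {G : Set (M × N)} (h : LG L ℓ θ G) : LG L ℓ θ (Prod.swap ⁻¹' G : Set (N × M)) := by
  intro R hR hRθ
  have h1 := (h (Prod.swap ⁻¹' R) (fun p hp => hR hp) ((mk_swap R).trans_lt hRθ)).swap
  exact h1

end Vale.Agent.P307.R2.H913
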