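import Vale.Agent.P307.R2.H913.Emb
import Vale.Agent.P307.R2.H1.Base

/-!
The environment of the isolation calculus from the base camp.
-/

set_option linter.unusedSectionVars false

universe u v w

open FirstOrder Cardinal Set

namespace Vale.Agent.P307.R2.H913

open Vale.Agent.P307 Vale.Agent.P307.H304 Vale.Agent.P307.R2.H287 Language.Structure
  Language.Substructure CloX

variable {L : Language.{u, u}} {K : AEC L} {ℓ θ : Cardinal.{u}} {α κf : Cardinal.{u} → Cardinal.{u}}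

theorem cofOm_of_cof (h0 : ℵ₀ < θ) (hcof : θ.ord.cof = ℵ₀) : CofOm θ := by
  obtain ⟨X, hX⟩ : ∃ X : Type u, #X = θ := ⟨θ.out, mk_out θ⟩
  obtain ⟨A, hA1, hA2, hA3⟩ := exists_filtration hX h0.le hcof
  refine ⟨fun n => #(A n), hA2, fun ρ hρ => ?_⟩
  by_contra hcon
  push Not at hcon
  have h1 : #X ≤ max ρ ℵ₀ := by
    have h2 : #(⋃ n : ULift.{u} ℕ, A n.down : Set X) ≤ max ρ ℵ₀ := by
      refine (mk_iUnion_le _).trans ?_
      have h3 : #(ULift.{u} ℕ) ≤ max ρ ℵ₀ := by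
        rw [mk_uLift, mk_nat, lift_aleph0]
        exact le_max_right _ _
      have h4 : (⨆ n : ULift.{u} ℕ, #(A n.down)) ≤ max ρ ℵ₀ :=
        ciSup_le' fun n => (hcon n.down).trans (le_max_left _ _)
      exact (mul_le_mul' h3 h4).trans (mul_eq_self (le_max_right _ _)).le
    rw [← mk_univ]
    refine (mk_le_mk_of_subset fun x _ => ?_).trans h2
    obtain ⟨n, hn⟩ := hA3 x
    exact mem_iUnion.2 ⟨⟨n⟩, hn⟩
  exact absurd (h1.trans_lt (max_lt hρ h0)) (by rw [hX]; exact lt_irrefl _)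

theorem env_of_basePt (hK : K.IsLS ℓ) (hunb : ∀ ν, ν < κf ν ∧ K.CategoricalIn (κf ν))
    (hst : Stab K ℓ α (thr κf)) (hb : H1.BasePt K ℓ κf α θ) : Env K ℓ α κf θ :=
  ⟨hK, hunb, hst, hb.pt.lt, hb.al, hb.pt.thr⟩

theorem cofOm_of_basePt (hK : K.IsLS ℓ) (hb : H1.BasePt K ℓ κf α θ) : CofOm θ :=
  cofOm_of_cof (hK.1.trans_lt hb.pt.lt) hb.pt.cof

end Vale.Agent.P307.R2.H913
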