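import Vale.Agent.P307.R2.H533.Pt
import Vale.Agent.P307.R2.H650.Defs

/-!
Atomic models over a model and an independent one-point extension, from the statement for systems.
-/

universe u v

open Set Cardinal Function

namespace Vale.Agent.P307.R2.H913

open Vale.Agent.P307.R2.H541 Vale.Agent.P307.R2.H541.PG Vale.Agent.P307.R2.H533
  Vale.Agent.P307.R2.H650

open scoped Classical

variable {ι : Type v} {C : Type u} {M : PG C}

/-- The system with one direction. -/
theorem isys_pair {A : Finset ι → Set C} {a : ι} (hP : A ∅ ∈ M.S) (hQ : A {a} ∈ M.S)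
    (hPQ : A ∅ ⊆ A {a}) : ISys M A {a} := by
  have hcase : ∀ t ∈ ({a} : Finset ι).powerset, t = ∅ ∨ t = {a} := by
    intro t ht
    exact Finset.subset_singleton_iff.1 (Finset.mem_powerset.1 ht)
  refine ⟨⟨down_powerset _, fun t ht => ?_, fun t ht r hr => ?_⟩, ?_⟩
  · rcases hcase t ht with rfl | rfl
    · exact hP
    · exact hQ
  · rcases hcase t ht with rfl | rfl
    · rw [Finset.subset_empty.1 hr]
    · rcases Finset.subset_singleton_iff.1 hr with rfl | rfl
      · exact hPQ
      · exact Subset.rfl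
  · intro x E hE hEc
    by_cases hx : x = a
    · subst hx
      obtain ⟨g, hg, h1, h2⟩ := M.sat (A := A ∅ ∩ E) (B := E) hP inter_subset_left
        ((mk_le_mk_of_subset inter_subset_right).trans_lt hEc) hEc
      refine ⟨g, hg, fun v hv e he hev => ?_⟩
      rcases hcase v hv with rfl | rfl
      · rw [Finset.erase_empty, h1 e ⟨hev, he⟩]
        exact ⟨hev, fun _ => rfl⟩
      · rw [Finset.erase_singleton]
        exact ⟨h2 e he, fun h => absurd (Finset.mem_singleton_self x) h⟩
    · refine ⟨1, M.G.one_mem, fun v hv e he hev => ?_⟩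
      have hxv : x ∉ v := by
        rcases hcase v hv with rfl | rfl
        · simp
        · exact fun h => hx (Finset.mem_singleton.1 h)
      rw [Finset.erase_eq_of_notMem hxv]
      exact ⟨hev, fun _ => rfl⟩

/-- The extension of a pair of models by a third one. -/
theorem ext1_pair {A : Finset ι → Set C} {a b : ι} (hab : a ≠ b) (hP : A ∅ ∈ M.S)
    (hQ : A {a} ∈ M.S) (hN : A {b} ∈ M.S) (hPQ : A ∅ ⊆ A {a}) (hPN : A ∅ ⊆ A {b})
    (hI : M.Ind (A ∅) (A {b}) (A {a})) : Ext1 M A {a} b := by
  refine ⟨isys_pair hP hQ hPQ, fun h => hab (Finset.mem_singleton.1 h).symm, hN, hPN, hI,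
    fun u hu hu0 => ?_⟩
  have h1 := Finset.card_lt_card hu
  have h2 := Finset.card_pos.2 hu0
  rw [Finset.card_singleton] at h1
  omega

theorem ibd_pair {A : Finset ι → Set C} {a b : ι} (hab : a ≠ b) (hPQ : A ∅ ⊆ A {a}) :
    ibd A (insert b {a}) = A {a} ∪ A {b} := by
  ext x
  constructor
  · rintro ⟨t, ht, hx⟩
    rcases face_cases (fun h => hab (Finset.mem_singleton.1 h).symm) ht with h1 | ⟨w, hw, rfl⟩
    · rcases Finset.subset_singleton_iff.1 h1 with rfl | rfl
      · exact Or.inl (hPQ hx)
      · exact Or.inl hx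
    · have h2 := Finset.card_lt_card hw
      rw [Finset.card_singleton] at h2
      have h3 : w = ∅ := Finset.card_eq_zero.1 (by omega)
      subst h3
      exact Or.inr hx
  · rintro (hx | hx)
    · exact ⟨{a}, Finset.ssubset_insert fun h => hab (Finset.mem_singleton.1 h).symm, hx⟩
    · refine ⟨{b}, Finset.ssubset_iff_subset_ne.2 ⟨Finset.singleton_subset_iff.2
        (Finset.mem_insert_self b _), fun h => ?_⟩, hx⟩
      have h1 : a ∈ ({b} : Finset ι) := h ▸ Finset.mem_insert_of_mem (Finset.mem_singleton_self a)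
      exact hab (Finset.mem_singleton.1 h1)

/-- A family with three prescribed members. -/
theorem exists_fam {a b : ι} (hab : a ≠ b) (P Q N : Set C) :
    ∃ A : Finset ι → Set C, A ∅ = P ∧ A {a} = Q ∧ A {b} = N := by
  refine ⟨fun v => if v = ∅ then P else if v = {a} then Q else N, by simp, by simp, ?_⟩
  have h1 : ({b} : Finset ι) ≠ {a} := fun h => hab (Finset.singleton_injective h).symm
  simp [h1]

/-- **One point.** -/
theorem pt1_of_pt {a b : ι} (hab : a ≠ b) (h : H533.Pt M ι 1) : Pt1 M := by
  intro P hP Q hQ hPQ c N hI hN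
  have hPN : P ⊆ N := subset_union_right.trans hN.sub
  obtain ⟨A, rfl, rfl, rfl⟩ := exists_fam hab P Q N
  have hIN := hN.dom hI
  obtain ⟨N', hN'⟩ := h A {a} b (Finset.card_singleton a)
    (ext1_pair hab hP hQ hN.mem hPQ hPN hIN) ⟨{c}, finite_singleton c, hN⟩
  rw [ibd_pair hab hPQ] at hN'
  exact ⟨N', hN'⟩

end Vale.Agent.P307.R2.H913
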