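import Vale.Agent.P307.R2.H301.Din.Asm
import Vale.Agent.P307.R2.H27.FullPair
import Vale.Agent.P307.R2.H913.LLJ
import Vale.Agent.P307.R2.H913.Pt1

/-!
The limit lemma for the closed traces of a prime chain and a model free from it, at all the pairs
of base points of some rank.
-/

set_option linter.unusedSectionVars false

universe u

open FirstOrder Cardinal Set Function

namespace Vale.Agent.P307.R2.H913

open Vale.Agent.P307 Vale.Agent.P307.H304 Vale.Agent.P307.R2.H287 Vale.Agent.P307.R2.H1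
  Vale.Agent.P307.R2.H971 Vale.Agent.P307.R2.H804 Vale.Agent.P307.R2.H533
  Vale.Agent.P307.R2.H806 Vale.Agent.P307.R2.H718 Language.Structure Language.Substructure
open Vale.Agent.P307.R2.H541 Vale.Agent.P307.R2.H541.PG Vale.Agent.P307.R2.H650
  Vale.Agent.P307.R2.H301
open Vale.Agent.P307.R2.H68 (Clo exists_clo)

open scoped Classical

section

variable {C : Type u} {M : PG C}

/-- The indices of the new points of a prime chain. -/
theorem exists_new {P : Set C} (hC : Chn M) {ι : Type u} [LinearOrder ι] [WellFoundedLT ι]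
    {c : ι → C} {Q : ι → Set C} (h : PCh M P c Q) (hc : #(tot P Q) ≤ M.χ) :
    ∃ J : Set ι, (∀ i ∈ J, c i ∉ P) ∧ #J ≤ M.χ ∧ PCh M P (fun i : J => c i) (fun i : J => Q i) ∧
      tot P (fun i : J => Q i) = tot P Q := by
  let J : Set ι := {i | c i ∉ pre P Q i}
  have hsat : ∀ i, c i ∈ pre P Q i → Q i = pre P Q i := by
    intro i hi
    refine Subset.antisymm ?_ (h.pre_sub i)
    intro e he
    have hpm := h.pre_mem hC hc i
    have hat := h.atomic i
    have h1 : {c i} ∪ pre P Q i = pre P Q i :=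
      union_eq_self_of_subset_left (singleton_subset_iff.2 hi)
    rw [h1] at hat
    obtain ⟨B, hB, hBc, hiso⟩ := hat.iso {e} (singleton_subset_iff.2 he)
      (small_finite (finite_singleton e))
    obtain ⟨g, hg, h2, h3⟩ := M.sat hpm hB hBc (small_finite (finite_singleton e)) (B := {e})
    have h4 := hiso.eq_of_mem hg h2 (h3 e rfl)
    rw [← h4]
    exact h3 e rfl
  have hpre : ∀ i : ι, P ∪ ⋃ j : {j : J // (j : ι) < i}, Q (j : J) = pre P Q i := by
    intro i
    induction i using (wellFounded_lt (α := ι)).induction with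
    | h i ih =>
      refine Subset.antisymm ?_ ?_
      · refine union_subset_union_right P (iUnion_subset fun j => ?_)
        exact subset_iUnion (fun j : Iio i => Q j) ⟨(j : J), j.2⟩
      · refine union_subset subset_union_left (iUnion_subset fun j => ?_)
        by_cases hj : (j : ι) ∈ J
        · exact (subset_iUnion (fun j : {j : J // (j : ι) < i} => Q (j : J))
            ⟨⟨j, hj⟩, j.2⟩).trans subset_union_right
        · have h1 : c (j : ι) ∈ pre P Q j := by
            by_contra h2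
            exact hj h2
          rw [hsat j h1, ← ih j j.2]
          refine union_subset_union_right P (iUnion_subset fun k => ?_)
          exact subset_iUnion (fun j : {j : J // (j : ι) < i} => Q (j : J))
            ⟨k.1, lt_trans k.2 j.2⟩
  have hpre' : ∀ i : J, pre P (fun j : J => Q j) i = pre P Q i := by
    intro i
    rw [← hpre i]
    rfl
  have htot : tot P (fun i : J => Q i) = tot P Q := by
    refine Subset.antisymm (union_subset_union_right P (iUnion_subset fun j =>
      subset_iUnion Q j)) ?_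
    refine union_subset subset_union_left (iUnion_subset fun j => ?_)
    by_cases hj : j ∈ J
    · exact sub_tot P (fun i : J => Q i) ⟨j, hj⟩
    · have h1 : c j ∈ pre P Q j := by
        by_contra h2
        exact hj h2
      rw [hsat j h1, ← hpre j]
      refine union_subset_union_right P (iUnion_subset fun k => ?_)
      exact subset_iUnion (fun i : J => Q i) k.1
  have hP : PCh M P (fun i : J => c i) (fun i : J => Q i) := by
    refine ⟨h.base, fun i => ?_, fun i => ?_⟩
    · rw [hpre' i]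
      exact h.ind i
    · rw [hpre' i]
      exact h.atomic i
  refine ⟨J, fun i hi hiP => hi (Or.inl hiP), ?_, hP, htot⟩
  refine H27.exists_id hP (by rw [htot]; exact hc) fun i => ?_
  rw [hpre' i]
  exact i.2

end

variable {L : Language.{u, u}} (K : AEC L) (ℓ : Cardinal.{u})
  (κf α : Cardinal.{u} → Cardinal.{u})

/-- The limit lemma for a prime chain and a model free from it: maps of the closed traces which
preserve the types of the tiny pieces. -/
def LLJU (θ τ : Cardinal.{u}) : Prop :=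
  ∀ (h₀ : BasePt K ℓ κf α θ) (hK : K.IsLS ℓ) (hunb : ∀ ν, ν < κf ν ∧ K.CategoricalIn (κf ν))
    (hst : Stab K ℓ α (H287.thr κf)) (C : Type u) [L.Structure C] (hCm : K.mem C)
    (hs : Sat K θ C) (hCc : #C = Order.succ θ) (J : Type u) [LinearOrder J] [WellFoundedLT J]
    (P R : Set C) (c : J → C) (Q : J → Set C),
      PCh (pg h₀ hK hunb hst hCm hs hCc) P c Q → #(tot P Q) ≤ θ →
      R ∈ (pg h₀ hK hunb hst hCm hs hCc).S → P ⊆ R →
      (pg h₀ hK hunb hst hCm hs hCc).Ind P (tot P Q) R →
      ∃ φ : Finset C → Set C, (∀ s, #(φ s) ≤ τ) ∧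
        ∀ (I : Type u) [LinearOrder I] [Nonempty I], #I ≤ τ → ∀ z : I → Set C, Monotone z →
          (∀ i, Clo φ (z i)) → (∀ i, #(z i) ≤ τ) → ∀ f : C → C,
          (∀ i, (pg h₀ hK hunb hst hCm hs hCc).LET τ f ((tot P Q ∪ R) ∩ z i)) →
            (pg h₀ hK hunb hst hCm hs hCc).LET τ f ((tot P Q ∪ R) ∩ ⋃ i, z i)

variable {K ℓ κf α}

/-- One point, in the saturated strong submodels. -/
theorem pt1_at {C : Type u} [L.Structure C] {τ : Cardinal.{u}} (hK : K.IsLS ℓ)
    (hunb : ∀ ν, ν < κf ν ∧ K.CategoricalIn (κf ν)) (hst : Stab K ℓ α (H287.thr κf))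
    (hτ : BasePt K ℓ κf α τ) (h : PtU K ℓ κf α τ) (C' : L.Substructure C) (hC' : K.le C')
    (hC'c : #C' = Order.succ τ) (hC's : Sat K τ C') :
    Pt1 (pgLow hK hunb hst hτ hC' hC'c hC's) :=
  pt1_of_pt (ι := ULift.{u} Bool) (a := ⟨true⟩) (b := ⟨false⟩) (by simp)
    (h hτ hK hunb hst C' (K.mem_of_le _ hC').1 hC's hC'c (ULift.{u} Bool))

/-- One point. -/
theorem pg_pt1 {C : Type u} [L.Structure C] {θ : Cardinal.{u}} (h₀ : BasePt K ℓ κf α θ)
    (hK : K.IsLS ℓ) (hunb : ∀ ν, ν < κf ν ∧ K.CategoricalIn (κf ν))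
    (hst : Stab K ℓ α (H287.thr κf)) (hCm : K.mem C) (hs : Sat K θ C)
    (hCc : #C = Order.succ θ) (h : PtU K ℓ κf α θ) : Pt1 (pg h₀ hK hunb hst hCm hs hCc) :=
  pt1_of_pt (ι := ULift.{u} Bool) (a := ⟨true⟩) (b := ⟨false⟩) (by simp)
    (h h₀ hK hunb hst C hCm hs hCc (ULift.{u} Bool))

/-- **The limit lemma** at all the pairs of base points of some rank. -/
theorem ev2_llj (hF : Frame K ℓ κf α) (hC : Ev K ℓ κf α (ChnU K ℓ κf α))
    (hP : Ev K ℓ κf α (PtU K ℓ κf α)) : Ev2 K ℓ κf α (LLJU K ℓ κf α) := by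
  obtain ⟨r₁, hC⟩ := hC
  obtain ⟨r₂, hP⟩ := hP
  refine ⟨max r₁ r₂, fun θ τ hτθ hθr hτr => ?_⟩
  intro h₀ hK hunb hst C _ hCm hs hCc J _ _ P R c Q h htc hR hPR hI
  obtain ⟨Λ, hθΛ, hΛ⟩ := hF.exists_gt θ
  have hτ := hτr.base
  have hCh := hC θ (hθr.mono (le_max_left _ _)) h₀ hK hunb hst C hCm hs hCc
  obtain ⟨J', h1, h2, h3, h4⟩ := exists_new hCh h htc
  rw [← h4] at htc hI ⊢
  exact pg_llj h₀ hK hunb hst hCm hs hCc hΛ hθΛ hτ hτθ
    (chnAt_of hK hunb hst hτ (hC τ (hτr.mono (le_max_left _ _))))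
    (pt1_at hK hunb hst hτ (hP τ (hτr.mono (le_max_right _ _)))) h3 (fun j => h1 j j.2)
    (fun j => h3.pre_mem hCh htc j) (h3.tot_mem hCh htc) hR hPR hI

end Vale.Agent.P307.R2.H913
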