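import Vale.Agent.P307.R2.H913.Lg

/-!
Isolation of small sets over sets of any size by small sets, and its calculus.
-/

set_option linter.unusedSectionVars false

universe u v w

open FirstOrder Cardinal Set

namespace Vale.Agent.P307.R2.H913

open Vale.Agent.P307 Vale.Agent.P307.H304 Vale.Agent.P307.R2.H287 Language.Structure
  Language.Substructure CloX

variable {L : Language.{u, u}} {K : AEC L} {ℓ θ : Cardinal.{u}} {α κf : Cardinal.{u} → Cardinal.{u}}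
  {M N P : Type u} [L.Structure M] [L.Structure N] [L.Structure P]

/-- `C` is isolated over `X` by `B`: every locally good relation on `B ∪ C` which is the identity
on `B` remains locally good with the identity on `X`. -/
def Isol (L : Language.{u, u}) (ℓ θ : Cardinal.{u}) {M : Type u} [L.Structure M]
    (X B C : Set M) : Prop :=
  ∀ R : Set (M × M), SG L ℓ θ R → (∀ p ∈ R, p.1 ∈ B ∪ C) → idr B ⊆ R → LG L ℓ θ (R ∪ idr X)

/-- Every small subset of `P` is isolated over `X` by a small subset of `X`. -/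
def Atm (L : Language.{u, u}) (ℓ θ : Cardinal.{u}) {M : Type u} [L.Structure M]
    (X P : Set M) : Prop :=
  X ⊆ P ∧ ∀ C ⊆ P, #C < θ → ∃ B ⊆ X, #B < θ ∧ Isol L ℓ θ X B C

/-- `X` reflects the small subsets of `Z`. -/
def TV (L : Language.{u, u}) (ℓ θ : Cardinal.{u}) {M : Type u} [L.Structure M]
    (X Z : Set M) : Prop :=
  X ⊆ Z ∧ ∀ z ⊆ Z, #z < θ → ∀ B ⊆ X, #B < θ → ∃ T : Set (M × M), SG L ℓ θ T ∧ idr B ⊆ T ∧
    Cov T z ∧ ∀ p ∈ T, p.1 ∈ z → p.2 ∈ X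

variable (h : Env K ℓ α κf θ)
include h

theorem Isol.mono_right {X B C C' : Set M} (hI : Isol L ℓ θ X B C) (hC : C' ⊆ C) :
    Isol L ℓ θ X B C' := fun R hR hRd hRB => hI R hR
  (fun p hp => (hRd p hp).imp_right fun hp => hC hp) hRB

theorem Isol.mono_left {X X' B C : Set M} (hI : Isol L ℓ θ X B C) (hX : X' ⊆ X) :
    Isol L ℓ θ X' B C := fun R hR hRd hRB => (hI R hR hRd hRB).subset
  (union_subset_union_right _ (idr_mono hX))

theorem Isol.mono_mid {X B B' C : Set M} (hI : Isol L ℓ θ X B C) (hB : B ⊆ B') (hB' : B' ⊆ X) :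
    Isol L ℓ θ X B' C := by
  intro R hR hRd hRB
  have h1 := hI (rs R (B ∪ C)) (h.sg_subset hR (rs_subset _ _)) (fun p hp => hp.2)
    fun p hp => ⟨hRB (idr_mono hB hp), Or.inl hp.1⟩
  refine h1.subset (union_subset (fun p hp => ?_) subset_union_right)
  rcases hRd p hp with h2 | h2
  · refine Or.inr ⟨hB' h2, ?_⟩
    exact IsPI.snd_eq (h.sg_isPI hR) (a := p.1) hp (hRB (mk_mem_idr h2))
  · exact Or.inl ⟨hp, Or.inr h2⟩

theorem Isol.union_base {X B C D : Set M} (hI : Isol L ℓ θ X B C) (hB : B ⊆ X) (hD : D ⊆ X) :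
    Isol L ℓ θ X (B ∪ D) (C ∪ D) := by
  have h1 : Isol L ℓ θ X (B ∪ D) C := hI.mono_mid h subset_union_left (union_subset hB hD)
  intro R hR hRd hRB
  refine h1 R hR (fun p hp => ?_) hRB
  rcases hRd p hp with h2 | h2 | h2
  · exact Or.inl h2
  · exact Or.inr h2
  · exact Or.inl (Or.inr h2)

theorem isol_self (hM : K.mem M) (hMθ : θ ≤ #M) {X B : Set M} (hB : B ⊆ X) :
    Isol L ℓ θ X B B := by
  intro R hR hRd hRB
  refine (lg_idr h hM hMθ X).subset (union_subset (fun p hp => ?_) Subset.rfl)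
  have h2 : p.1 ∈ B := by simpa using hRd p hp
  exact ⟨hB h2, IsPI.snd_eq (h.sg_isPI hR) (a := p.1) hp (hRB (mk_mem_idr h2))⟩

/-- The main transfer principle: isolation works along any locally good map into any member. -/
theorem Isol.transfer (hM : K.mem M) (hN : K.mem N) (hMθ : θ ≤ #M) (hNθ : θ ≤ #N)
    {X B C : Set M} (hI : Isol L ℓ θ X B C) (hB : #B < θ) {G : Set (M × N)}
    (hG : LG L ℓ θ G) (hGX : ∀ p ∈ G, p.1 ∈ X) (hBG : Cov G B) {R : Set (M × N)}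
    (hR : SG L ℓ θ R) (hRd : ∀ p ∈ R, p.1 ∈ B ∪ C) (hRG : rs G B ⊆ R) : LG L ℓ θ (R ∪ G) := by
  have hPI := lg_isPI h hG
  refine lg_union h fun G₁ hG₁ hG₁θ => ?_
  let G₀ : Set (M × N) := G₁ ∪ rs G B
  have hG₀G : G₀ ⊆ G := union_subset hG₁ (rs_subset _ _)
  have hG₀θ : #G₀ < θ := mk_union_lt h hG₁θ ((IsPI.mk_rs_le hPI B).trans_lt hB)
  have hG₀ : SG L ℓ θ G₀ := hG _ hG₀G hG₀θ
  obtain ⟨R₁, h1, h2, h3⟩ := exists_cov h hN hM hNθ hMθ hG₀.swap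
    (A := Prod.snd '' R) (mk_image_le.trans_lt hR.1)
  have hT : SG L ℓ θ (relComp R R₁) := h.sg_comp hR h2
  have hTB : idr B ⊆ relComp R R₁ := by
    rintro ⟨a, b⟩ ⟨ha, hab⟩
    obtain rfl : b = a := hab
    obtain ⟨y, hy⟩ := hBG b ha
    exact ⟨y, hRG ⟨hy, ha⟩, h1 (a := (y, b)) (Or.inr ⟨hy, ha⟩)⟩
  have h4 := hI _ hT (by
    rintro p ⟨y, hy, -⟩
    exact hRd _ hy) hTB
  have h5 : SG L ℓ θ (relComp R R₁ ∪ idr (Prod.fst '' G₀)) := by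
    refine h4 _ (union_subset_union_right _ (idr_mono ?_)) ?_
    · rintro _ ⟨p, hp, rfl⟩
      exact hGX _ (hG₀G hp)
    · exact mk_union_lt h hT.1 ((mk_idr _).trans_lt (mk_image_le.trans_lt hG₀θ))
  refine h.sg_subset (h.sg_comp h5 h2.swap) ?_
  rintro p (hp | hp)
  · obtain ⟨m, hm⟩ := h3 p.2 ⟨p, hp, rfl⟩
    exact ⟨m, Or.inl ⟨p.2, hp, hm⟩, hm⟩
  · exact ⟨p.1, Or.inr (mk_mem_idr ⟨p, Or.inl hp, rfl⟩), h1 (a := (p.2, p.1)) (Or.inl hp)⟩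

/-- Isolation is preserved by locally good relations. -/
theorem Isol.image (hM : K.mem M) (hN : K.mem N) (hMθ : θ ≤ #M) (hNθ : θ ≤ #N)
    {X B C : Set M} (hI : Isol L ℓ θ X B C) (hB : #B < θ) (hC : #C < θ)
    {H : Set (M × N)} (hH : LG L ℓ θ H) (hBX : B ⊆ X) (hHB : Cov H B) :
    Isol L ℓ θ (im H X) (im H B) (im H C) := by
  have hPI := lg_isPI h hH
  intro R' hR' hRd hRB
  have h1 : SG L ℓ θ (rs H (B ∪ C)) := hH _ (rs_subset _ _)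
    ((IsPI.mk_rs_le hPI _).trans_lt (mk_union_lt h hB hC))
  have h2 : LG L ℓ θ (relComp (rs H (B ∪ C)) R' ∪ rs H X) := by
    refine hI.transfer h hM hN hMθ hNθ hB (hH.subset (rs_subset _ _)) (fun p hp => hp.2)
      (fun b hb => ?_) (h.sg_comp h1 hR') ?_ ?_
    · obtain ⟨y, hy⟩ := hHB b hb
      exact ⟨y, hy, hBX hb⟩
    · rintro p ⟨y, hy, -⟩
      exact hy.2
    · rintro ⟨b, y⟩ ⟨⟨hy, -⟩, hb⟩
      exact ⟨y, ⟨hy, Or.inl hb⟩, hRB (mk_mem_idr ⟨b, hb, hy⟩)⟩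
  refine (lg_comp h hH.swap h2).subset ?_
  rintro ⟨y, z⟩ (hp | ⟨⟨x, hx, hxy⟩, hz⟩)
  · rcases hRd _ hp with ⟨x, hx, hxy⟩ | ⟨x, hx, hxy⟩
    · exact ⟨x, hxy, Or.inl ⟨y, ⟨hxy, Or.inl hx⟩, hp⟩⟩
    · exact ⟨x, hxy, Or.inl ⟨y, ⟨hxy, Or.inr hx⟩, hp⟩⟩
  · obtain rfl : z = y := hz
    exact ⟨x, hxy, Or.inr ⟨hxy, hx⟩⟩

/-- The chain rule. -/
theorem Isol.trans (hM : K.mem M) (hMθ : θ ≤ #M) {X B C B' D : Set M} (hI : Isol L ℓ θ X B C)
    (hI' : Isol L ℓ θ (X ∪ C) (B' ∪ C) D) (hC : #C < θ) (hB' : #B' < θ)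
    (hBX : B ⊆ X) (hBX' : B' ⊆ X) : Isol L ℓ θ X (B ∪ B') (C ∪ D) := by
  intro R hR hRd hRB
  obtain ⟨R₁, h1, h2, h3⟩ := exists_cov h hM hM hMθ hMθ hR hC
  have hPI₁ := h.sg_isPI h2
  let R₂ : Set (M × M) := rs R₁ (B ∪ B' ∪ C)
  have h4 : LG L ℓ θ (R₂ ∪ idr X) := by
    have h5 : Isol L ℓ θ X (B ∪ B') C := hI.mono_mid h subset_union_left (union_subset hBX hBX')
    exact h5 R₂ (h.sg_subset h2 (rs_subset _ _)) (fun p hp => hp.2)
      fun p hp => ⟨h1 (hRB hp), Or.inl hp.1⟩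
  have hPI₄ := lg_isPI h h4
  have h5 : LG L ℓ θ (rs R₁ (B' ∪ C ∪ D) ∪ (R₂ ∪ idr X)) := by
    refine hI'.transfer h hM hM hMθ hMθ (mk_union_lt h hB' hC) h4 ?_ ?_
      (h.sg_subset h2 (rs_subset _ _)) (fun p hp => hp.2) ?_
    · rintro p (⟨-, hp⟩ | ⟨hp, -⟩)
      · rcases hp with (hp | hp) | hp
        · exact Or.inl (hBX hp)
        · exact Or.inl (hBX' hp)
        · exact Or.inr hp
      · exact Or.inl hp
    · rintro b (hb | hb)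
      · exact ⟨b, Or.inr (mk_mem_idr (hBX' hb))⟩
      · obtain ⟨y, hy⟩ := h3 b hb
        exact ⟨y, Or.inl ⟨hy, Or.inr hb⟩⟩
    · rintro ⟨b, y⟩ ⟨hy, hb⟩
      have h6 : (b, y) ∈ R₁ := by
        rcases hy with hy | ⟨hy1, hy2⟩
        · exact hy.1
        · rcases hb with hb | hb
          · have hy3 : y = b := hy2
            subst hy3
            exact h1 (hRB (mk_mem_idr (Or.inr hb)))
          · obtain ⟨y', hy'⟩ := h3 b hb
            have h7 : y = y' := IsPI.snd_eq hPI₄ (Or.inr ⟨hy1, hy2⟩) (Or.inl ⟨hy', Or.inr hb⟩)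
            rw [h7]
            exact hy'
      exact ⟨h6, Or.inl hb⟩
  refine h5.subset (union_subset (fun p hp => ?_) fun p hp => Or.inr (Or.inr hp))
  rcases hRd p hp with h6 | h6 | h6
  · exact Or.inr (Or.inl ⟨h1 hp, Or.inl h6⟩)
  · exact Or.inr (Or.inl ⟨h1 hp, Or.inr h6⟩)
  · exact Or.inl ⟨h1 hp, Or.inr h6⟩

/-- Isolation lifts to supersets whose small subsets are reflected. -/
theorem Isol.lift (hM : K.mem M) (hMθ : θ ≤ #M) {X Z B C : Set M} (hI : Isol L ℓ θ X B C)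
    (hTV : TV L ℓ θ X Z) (hB : #B < θ) (hC : #C < θ) (hBX : B ⊆ X) : Isol L ℓ θ Z B C := by
  intro R hR hRd hRB
  refine lg_union h fun S hS hSθ => ?_
  let z : Set M := Prod.fst '' S
  have hz : z ⊆ Z := by
    rintro _ ⟨p, hp, rfl⟩
    exact (hS hp).1
  have hzθ : #z < θ := mk_image_le.trans_lt hSθ
  obtain ⟨T, hT, hTB, hTz, hTX⟩ := hTV.2 z hz hzθ B hBX hB
  obtain ⟨T₁, h1, h2, h3⟩ := exists_cov h hM hM hMθ hMθ hT (A := B ∪ C ∪ Prod.snd '' R)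
    (mk_union_lt h (mk_union_lt h hB hC) (mk_image_le.trans_lt hR.1))
  have hPI₁ := h.sg_isPI h2
  have hPIR := h.sg_isPI hR
  have h4 := hI (rs T₁ (B ∪ C)) (h.sg_subset h2 (rs_subset _ _)) (fun p hp => hp.2)
    fun p hp => ⟨h1 (hTB hp), Or.inl hp.1⟩
  have h5 := hI (relComp R T₁) (h.sg_comp hR h2) (by
    rintro p ⟨y, hy, -⟩
    exact hRd (p.1, y) hy) (by
    rintro ⟨a, b⟩ ⟨ha, hab⟩
    obtain rfl : b = a := hab
    exact ⟨b, hRB (mk_mem_idr ha), h1 (hTB (mk_mem_idr ha))⟩)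
  -- the composition
  have h6 := lg_comp h (lg_comp h (lg_comp h (lg_of_sg h h2) h4.swap) h5) (lg_of_sg h h2.swap)
  refine h6 _ ?_ (mk_union_lt h hR.1 hSθ)
  rintro ⟨a, b⟩ (hp | hp)
  · -- `a ↦ T₁ a ↦ a ↦ T₁ b ↦ b`
    have ha : a ∈ B ∪ C := hRd (a, b) hp
    obtain ⟨a', ha'⟩ := h3 a (Or.inl ha)
    obtain ⟨b', hb'⟩ := h3 b (Or.inr ⟨_, hp, rfl⟩)
    exact ⟨b', ⟨a, ⟨a', ha', Or.inl ⟨ha', ha⟩⟩, Or.inl ⟨b, hp, hb'⟩⟩, hb'⟩
  · obtain rfl : b = a := (hS hp).2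
    obtain ⟨b', hb'⟩ := hTz b ⟨_, hp, rfl⟩
    have hb'X : b' ∈ X := hTX _ hb' ⟨_, hp, rfl⟩
    exact ⟨b', ⟨b', ⟨b', h1 hb', Or.inr (mk_mem_idr hb'X)⟩, Or.inr (mk_mem_idr hb'X)⟩, h1 hb'⟩

omit h in
theorem TV.refl (h : Env K ℓ α κf θ) (hM : K.mem M) (hMθ : θ ≤ #M) (X : Set M) :
    TV L ℓ θ X X := ⟨Subset.rfl, fun z hz hzθ B _ hBθ => ⟨idr (z ∪ B), sg_idr h hM hMθ
  (mk_union_lt h hzθ hBθ), idr_mono subset_union_right, fun a ha => ⟨a, mk_mem_idr (Or.inl ha)⟩,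
  fun p hp hpz => by rw [hp.2]; exact hz hpz⟩⟩

omit h in
theorem TV.mono_right {X Y Z : Set M} (hTV : TV L ℓ θ X Z) (hXY : X ⊆ Y) (hYZ : Y ⊆ Z) :
    TV L ℓ θ X Y := ⟨hXY, fun z hz hzθ B hB hBθ => hTV.2 z (hz.trans hYZ) hzθ B hB hBθ⟩

/-- A strong substructure reflects everything. -/
theorem tv_of_le (hM : K.mem M) {S : L.Substructure M} (hS : K.le S) (hSθ : θ ≤ #S)
    {Z : Set M} (hSZ : (S : Set M) ⊆ Z) : TV L ℓ θ (S : Set M) Z := by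
  have hSM : θ ≤ #M := hSθ.trans (mk_le_of_injective Subtype.val_injective)
  refine ⟨hSZ, fun z _ hzθ B hB hBθ => ?_⟩
  have hSm : K.mem S := (K.mem_of_le _ hS).1
  have h1 : LG L ℓ θ (gr S.subtype univ) := lg_gr h _ (AEC.emb_subtype.2 hS) hSθ univ
  -- the identity on `B` as a relation from `M` to `S`
  have h2 : SG L ℓ θ {p : M × S | p.1 ∈ B ∧ (p.2 : M) = p.1} := by
    refine h1.swap _ ?_ ?_
    · rintro ⟨a, b⟩ ⟨-, hab⟩
      exact mem_gr.2 ⟨mem_univ _, hab.symm⟩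
    · refine lt_of_le_of_lt (mk_le_of_injective (f := fun p : {p : M × S | p.1 ∈ B ∧
        (p.2 : M) = p.1} => (⟨p.1.1, p.2.1⟩ : B)) ?_) hBθ
      rintro ⟨⟨a, b⟩, ha, hab⟩ ⟨⟨a', b'⟩, ha', hab'⟩ hpp
      have h3 : a = a' := congrArg Subtype.val hpp
      subst h3
      have h4 : b = b' := Subtype.ext (hab.trans hab'.symm)
      subst h4
      rfl
  obtain ⟨T, h3, h4, h5⟩ := exists_cov h hM hSm hSM hSθ h2 hzθ
  refine ⟨relComp T (gr S.subtype univ), ?_, ?_, ?_, ?_⟩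
  · refine lg_comp h (lg_of_sg h h4) h1 _ Subset.rfl ?_
    exact ((isPI_gr S.subtype univ).mk_comp_le).trans_lt h4.1
  · rintro ⟨a, b⟩ ⟨ha, hab⟩
    obtain rfl : b = a := hab
    exact ⟨⟨b, hB ha⟩, h3 ⟨ha, rfl⟩, mem_gr.2 ⟨mem_univ _, rfl⟩⟩
  · intro a ha
    obtain ⟨y, hy⟩ := h5 a ha
    exact ⟨y, y, hy, mem_gr.2 ⟨mem_univ _, rfl⟩⟩
  · rintro p ⟨y, -, hy⟩ -
    rw [(mem_gr.1 hy).2]
    exact y.2

/-! ### Atomic sets -/

omit h in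
theorem Atm.subset {X P P' : Set M} (hA : Atm L ℓ θ X P) (hX : X ⊆ P') (hP : P' ⊆ P) :
    Atm L ℓ θ X P' := ⟨hX, fun C hC hCθ => hA.2 C (hC.trans hP) hCθ⟩

theorem atm_self (hM : K.mem M) (hMθ : θ ≤ #M) (X : Set M) : Atm L ℓ θ X X :=
  ⟨Subset.rfl, fun C hC hCθ => ⟨C, hC, hCθ, isol_self h hM hMθ hC⟩⟩

/-- Atomicity lifts. -/
theorem Atm.lift (hM : K.mem M) (hMθ : θ ≤ #M) {X Z P : Set M} (hA : Atm L ℓ θ X P)
    (hTV : TV L ℓ θ X Z) : Atm L ℓ θ Z (Z ∪ P) := by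
  refine ⟨subset_union_left, fun C hC hCθ => ?_⟩
  have h1 : #(C ∩ P : Set M) < θ := (mk_le_mk_of_subset inter_subset_left).trans_lt hCθ
  have h2 : #(C ∩ Z : Set M) < θ := (mk_le_mk_of_subset inter_subset_left).trans_lt hCθ
  obtain ⟨B, hB, hBθ, hI⟩ := hA.2 (C ∩ P) inter_subset_right h1
  have h3 := hI.lift h hM hMθ hTV hBθ h1 hB
  refine ⟨B ∪ C ∩ Z, union_subset (hB.trans hTV.1) inter_subset_right, mk_union_lt h hBθ h2, ?_⟩
  refine (h3.union_base h (hB.trans hTV.1) inter_subset_right).mono_right h fun x hx => ?_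
  rcases hC hx with h4 | h4
  · exact Or.inr ⟨hx, h4⟩
  · exact Or.inl ⟨hx, h4⟩

/-- Atomicity is transitive. -/
theorem Atm.trans (hM : K.mem M) (hMθ : θ ≤ #M) {X P Q : Set M} (hA : Atm L ℓ θ X P)
    (hA' : Atm L ℓ θ P Q) : Atm L ℓ θ X Q := by
  refine ⟨hA.1.trans hA'.1, fun C hC hCθ => ?_⟩
  obtain ⟨D, hD, hDθ, hI⟩ := hA'.2 C hC hCθ
  obtain ⟨B, hB, hBθ, hI'⟩ := hA.2 D hD hDθ
  refine ⟨B, hB, hBθ, ?_⟩
  have h1 : Isol L ℓ θ (X ∪ D) (∅ ∪ D) C := by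
    rw [empty_union]
    exact hI.mono_left h (union_subset hA.1 hD)
  have h2 := hI'.trans h hM hMθ h1 hDθ (by
    rw [mk_eq_zero]
    exact aleph0_pos.trans_le h.hθ0) hB (empty_subset _)
  rw [union_empty] at h2
  exact h2.mono_right h subset_union_right

/-- Atomicity is invariant under locally good relations. -/
theorem Atm.image (hM : K.mem M) (hN : K.mem N) (hMθ : θ ≤ #M) (hNθ : θ ≤ #N)
    {X P : Set M} (hA : Atm L ℓ θ X P) {H : Set (M × N)} (hH : LG L ℓ θ H) (hHX : Cov H X) :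
    Atm L ℓ θ (im H X) (im H P) := by
  have hPI := lg_isPI h hH
  refine ⟨fun y hy => ?_, fun C' hC' hCθ => ?_⟩
  · obtain ⟨x, hx, hxy⟩ := hy
    exact ⟨x, hA.1 hx, hxy⟩
  · choose c hc1 hc2 using fun y : C' => hC' y.2
    obtain ⟨B, hB, hBθ, hI⟩ := hA.2 (range c) (by
      rintro _ ⟨y, rfl⟩
      exact hc1 y) (mk_range_le.trans_lt hCθ)
    refine ⟨im H B, ?_, ?_, ?_⟩
    · rintro y ⟨x, hx, hxy⟩
      exact ⟨x, hB hx, hxy⟩
    · refine lt_of_le_of_lt ?_ hBθ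
      refine (mk_le_mk_of_subset (t := Prod.snd '' rs H B) ?_).trans
        (mk_image_le.trans (IsPI.mk_rs_le hPI B))
      rintro y ⟨x, hx, hxy⟩
      exact ⟨(x, y), ⟨hxy, hx⟩, rfl⟩
    · refine (hI.image h hM hN hMθ hNθ hBθ (mk_range_le.trans_lt hCθ) hH hB
        (hHX.mono Subset.rfl hB)).mono_right h fun y hy => ?_
      exact ⟨c ⟨y, hy⟩, ⟨⟨y, hy⟩, rfl⟩, hc2 ⟨y, hy⟩⟩

end Vale.Agent.P307.R2.H913
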