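import Vale.Agent.P307.R2.H913.Env

/-!
Calculus of locally good relations at a closure point: composition, restriction, extension,
strong embeddings.
-/

set_option linter.unusedSectionVars false

universe u v w

open FirstOrder Cardinal Set

namespace Vale.Agent.P307.R2.H913

open Vale.Agent.P307 Vale.Agent.P307.H304 Vale.Agent.P307.R2.H287 Language.Structure
  Language.Substructure

variable {L : Language.{u, u}} {K : AEC L} {ℓ θ : Cardinal.{u}} {α κf : Cardinal.{u} → Cardinal.{u}}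
  {M N P : Type u} [L.Structure M] [L.Structure N] [L.Structure P]

/-- The identity on a set. -/
def idr (A : Set M) : Set (M × M) := {p | p.1 ∈ A ∧ p.2 = p.1}

/-- The image of a set under a relation. -/
def im (G : Set (M × N)) (A : Set M) : Set N := {y | ∃ x ∈ A, (x, y) ∈ G}

/-- The restriction of a relation. -/
def rs (G : Set (M × N)) (A : Set M) : Set (M × N) := {p | p ∈ G ∧ p.1 ∈ A}

/-- The relation is defined on the set. -/
def Cov (G : Set (M × N)) (A : Set M) : Prop := ∀ a ∈ A, ∃ y, (a, y) ∈ G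

theorem mem_idr {A : Set M} {p : M × M} : p ∈ idr A ↔ p.1 ∈ A ∧ p.2 = p.1 := Iff.rfl

theorem mk_mem_idr {A : Set M} {a : M} (ha : a ∈ A) : (a, a) ∈ idr A := ⟨ha, rfl⟩

theorem idr_mono {A B : Set M} (h : A ⊆ B) : idr A ⊆ idr B := fun _ hp => ⟨h hp.1, hp.2⟩

theorem mk_idr (A : Set M) : #(idr A) ≤ #A := by
  refine (mk_le_mk_of_subset (t := (fun a => (a, a)) '' A) ?_).trans mk_image_le
  rintro ⟨a, b⟩ ⟨h1, h2⟩
  exact ⟨a, h1, Prod.ext rfl h2.symm⟩

theorem rs_subset (G : Set (M × N)) (A : Set M) : rs G A ⊆ G := fun _ hp => hp.1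

theorem rs_mono {G G' : Set (M × N)} {A A' : Set M} (h : G ⊆ G') (hA : A ⊆ A') :
    rs G A ⊆ rs G' A' := fun _ hp => ⟨h hp.1, hA hp.2⟩

theorem Cov.mono {G G' : Set (M × N)} {A A' : Set M} (h : Cov G A) (hG : G ⊆ G') (hA : A' ⊆ A) :
    Cov G' A' := fun a ha => by
  obtain ⟨y, hy⟩ := h a (hA ha)
  exact ⟨y, hG hy⟩

theorem Cov.idr (A : Set M) : Cov (idr A) A := fun a ha => ⟨a, ha, rfl⟩

theorem relComp_mono {G G' : Set (M × N)} {H H' : Set (N × P)} (h : G ⊆ G') (h' : H ⊆ H') :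
    relComp G H ⊆ relComp G' H' := by
  rintro p ⟨y, h1, h2⟩
  exact ⟨y, h h1, h' h2⟩

/-- In a partial isomorphism the second coordinate is determined by the first. -/
theorem IsPI.snd_eq {G : Set (M × N)} (h : IsPI L G) {a : M} {b b' : N} (h1 : (a, b) ∈ G)
    (h2 : (a, b') ∈ G) : b = b' := (h.eq_iff _ h1 _ h2).1 rfl

theorem IsPI.fst_eq {G : Set (M × N)} (h : IsPI L G) {a a' : M} {b : N} (h1 : (a, b) ∈ G)
    (h2 : (a', b) ∈ G) : a = a' := (h.eq_iff _ h1 _ h2).2 rfl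

theorem IsPI.mk_rs_le {G : Set (M × N)} (h : IsPI L G) (A : Set M) : #(rs G A) ≤ #A := by
  refine mk_le_of_injective (f := fun p : rs G A => (⟨p.1.1, p.2.2⟩ : A)) ?_
  rintro ⟨⟨a, b⟩, hp, hA⟩ ⟨⟨a', b'⟩, hp', hA'⟩ hpp
  have h1 : a = a' := congrArg Subtype.val hpp
  subst h1
  have h2 : b = b' := IsPI.snd_eq h hp hp'
  subst h2
  rfl

/-- Finite subsets of a relation are covered by small pieces: `LG` implies partial isomorphism. -/
theorem LG.isPI {G : Set (M × N)} (h : LG L ℓ θ G) (hℓ : ℓ < θ) (hθ : ℵ₀ ≤ θ) : IsPI L G := by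
  have key : ∀ {n : ℕ} (x : Fin n → M × N) (q : M × N), (∀ i, x i ∈ G) → q ∈ G →
      IsPI L (range x ∪ {q}) := by
    intro n x q hx hq
    refine (h (range x ∪ {q}) ?_ ?_).isPI hℓ
    · rintro _ (⟨i, rfl⟩ | rfl)
      exacts [hx i, hq]
    · refine (lt_aleph0_of_finite _).trans_le hθ
  constructor
  · intro p hp q hq
    have h1 := key (fun _ : Fin 1 => p) q (fun _ => hp) hq
    exact h1.eq_iff p (Or.inl ⟨0, rfl⟩) q (Or.inr rfl)
  · intro n f x hx q hq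
    exact (key x q hx hq).fun_iff f x (fun i => Or.inl ⟨i, rfl⟩) q (Or.inr rfl)
  · intro n r x hx
    rcases Nat.eq_zero_or_pos n with hn | hn
    · subst hn
      have h1 := (h ∅ (empty_subset _) (by
        rw [mk_eq_zero]
        exact aleph0_pos.trans_le hθ)).isPI hℓ
      exact h1.rel_iff r x (fun i => i.elim0)
    · exact (key x (x ⟨0, hn⟩) hx (hx _)).rel_iff r x fun i => Or.inl ⟨i, rfl⟩

namespace CloX

variable (h : Env K ℓ α κf θ)
include h

theorem lg_of_sg {R : Set (M × N)} (hR : SG L ℓ θ R) : LG L ℓ θ R :=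
  fun _ hR' _ => h.sg_subset hR hR'

theorem lg_isPI {G : Set (M × N)} (hG : LG L ℓ θ G) : IsPI L G := LG.isPI hG h.hℓ h.hθ0

theorem lg_comp {G : Set (M × N)} {H : Set (N × P)} (hG : LG L ℓ θ G) (hH : LG L ℓ θ H) :
    LG L ℓ θ (relComp G H) := by
  intro R hR hRθ
  choose y hy1 hy2 using fun p : R => hR p.2
  have h4 : SG L ℓ θ (range fun p : R => (p.1.1, y p)) :=
    hG _ (by rintro _ ⟨p, rfl⟩; exact hy1 p) (mk_range_le.trans_lt hRθ)
  have h5 : SG L ℓ θ (range fun p : R => (y p, p.1.2)) :=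
    hH _ (by rintro _ ⟨p, rfl⟩; exact hy2 p) (mk_range_le.trans_lt hRθ)
  refine h.sg_subset (h.sg_comp h4 h5) fun p hp => ?_
  exact ⟨y ⟨p, hp⟩, ⟨⟨p, hp⟩, rfl⟩, ⟨⟨p, hp⟩, rfl⟩⟩

theorem lg_gr (f : M ↪[L] N) (hf : K.Emb f) (hM : θ ≤ #M) (A : Set M) : LG L ℓ θ (gr f A) := by
  intro R hR hRθ
  have h1 := h.sg_gr f hf hM (Prod.fst '' R) (mk_image_le.trans_lt hRθ)
  refine h.sg_subset h1 fun p hp => ?_
  exact mem_gr.2 ⟨⟨p, hp, rfl⟩, (mem_gr.1 (hR hp)).2⟩

theorem lg_idr (hM : K.mem M) (hMθ : θ ≤ #M) (A : Set M) : LG L ℓ θ (idr A) := by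
  have h1 : K.Emb (Language.Equiv.refl L M).toEmbedding := AEC.Emb.of_equiv _ hM
  refine (lg_gr h _ h1 hMθ A).subset fun p hp => ?_
  exact mem_gr.2 ⟨hp.1, hp.2⟩

theorem sg_idr (hM : K.mem M) (hMθ : θ ≤ #M) {A : Set M} (hA : #A < θ) : SG L ℓ θ (idr A) :=
  lg_idr h hM hMθ A _ Subset.rfl ((mk_idr A).trans_lt hA)

theorem mk_union_lt {X : Type u} {A B : Set X} (hA : #A < θ) (hB : #B < θ) :
    #(A ∪ B : Set X) < θ :=
  (mk_union_le _ _).trans_lt (h.add_lt hA hB)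

/-- To check that a small relation together with a locally good relation is locally good. -/
theorem lg_union {R G : Set (M × N)}
    (hG : ∀ G₀ ⊆ G, #G₀ < θ → SG L ℓ θ (R ∪ G₀)) : LG L ℓ θ (R ∪ G) := by
  intro S hS hSθ
  refine h.sg_subset (hG (S ∩ G) inter_subset_right
    ((mk_le_mk_of_subset inter_subset_left).trans_lt hSθ)) fun p hp => ?_
  rcases hS hp with h1 | h1
  · exact Or.inl h1
  · exact Or.inr ⟨hp, h1⟩

/-- Small pieces of a locally good relation extend to any small set on the left. -/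
theorem exists_cov (hM : K.mem M) (hN : K.mem N) (hMθ : θ ≤ #M) (hNθ : θ ≤ #N)
    {R : Set (M × N)} (hR : SG L ℓ θ R) {A : Set M} (hA : #A < θ) :
    ∃ R', R ⊆ R' ∧ SG L ℓ θ R' ∧ Cov R' A := by
  obtain ⟨R', h1, h2, h3, -⟩ := h.exists_left hM hN hMθ hNθ hR A hA
  exact ⟨R', h1, h2, h3⟩

theorem exists_cov' (hM : K.mem M) (hN : K.mem N) (hMθ : θ ≤ #M) (hNθ : θ ≤ #N)
    {R : Set (M × N)} (hR : SG L ℓ θ R) {B : Set N} (hB : #B < θ) :
    ∃ R', R ⊆ R' ∧ SG L ℓ θ R' ∧ ∀ b ∈ B, ∃ a, (a, b) ∈ R' := by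
  obtain ⟨R', h1, h2, h3, -⟩ := h.exists_right hM hN hMθ hNθ hR B hB
  exact ⟨R', h1, h2, h3⟩

/-- A level which suffices for a small relation. -/
theorem exists_level {R : Set (M × N)} (hR : SG L ℓ θ R) {ρ : Cardinal.{u}} (hρ : ρ < θ) :
    ∃ ν, ℓ ≤ ν ∧ ρ ≤ ν ∧ ν < θ ∧ Good L ν R :=
  ⟨max ℓ (max ρ #R), le_max_left _ _, (le_max_left _ _).trans (le_max_right _ _),
    max_lt h.hℓ (max_lt hρ hR.1), hR.2 _ (le_max_left _ _)
    ((le_max_right _ _).trans (le_max_right _ _)) (max_lt h.hℓ (max_lt hρ hR.1))⟩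

/-- Strong substructures are preserved by small good relations. -/
theorem le_of_sg (hM : K.mem M) (hN : K.mem N) {R : Set (M × N)} (hR : SG L ℓ θ R)
    {S : L.Substructure M} (hS : K.le S) (hSR : (S : Set M) = Prod.fst '' R)
    {T : L.Substructure N} (hTR : (T : Set N) = Prod.snd '' R) : K.le T := by
  obtain ⟨ν, h1, -, -, h2⟩ := exists_level h hR (ρ := 0) (aleph0_pos.trans_le h.hθ0)
  exact le_of_good (h.hK.mono h1) hM hN h2 hS hSR hTR

theorem exists_sub_image {R : Set (M × N)} (hR : SG L ℓ θ R)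
    {S : L.Substructure M} (hSR : (S : Set M) = Prod.fst '' R) :
    ∃ T : L.Substructure N, (T : Set N) = Prod.snd '' R := by
  obtain ⟨ν, h1, -, -, h2⟩ := exists_level h hR (ρ := 0) (aleph0_pos.trans_le h.hθ0)
  exact exists_substructure (h.hK.mono h1).1 (h.hK.mono h1).2.1 h2 hSR

/-- An isomorphism between large strong substructures is locally good. -/
theorem lg_of_equiv {S : L.Substructure M} {T : L.Substructure N} (hS : K.le S) (hT : K.le T)
    (hSθ : θ ≤ #S) (e : S ≃[L] T) : LG L ℓ θ {p : M × N | ∃ a : S, (a : M) = p.1 ∧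
      (e a : N) = p.2} := by
  have h1 : LG L ℓ θ (gr S.subtype univ) := lg_gr h _ (AEC.emb_subtype.2 hS) hSθ univ
  have h2 : K.Emb (T.subtype.comp e.toEmbedding) :=
    AEC.Emb.comp (AEC.emb_subtype.2 hT) (AEC.Emb.of_equiv e (K.mem_of_le _ hS).1)
  have h3 := lg_gr h _ h2 hSθ univ
  refine (lg_comp h h1.swap h3).subset ?_
  rintro ⟨x, y⟩ ⟨a, ha1, ha2⟩
  refine ⟨a, mem_gr.2 ⟨mem_univ _, ha1.symm⟩, mem_gr.2 ⟨mem_univ _, ha2.symm⟩⟩

/-- The image under a locally good relation of a strong substructure is strong. -/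
theorem exists_image_of_lg (hM : K.mem M) (hN : K.mem N) {G : Set (M × N)} (hG : LG L ℓ θ G)
    {S : L.Substructure M} (hS : K.le S) (hSG : Cov G S) :
    ∃ T : L.Substructure N, K.le T ∧ (T : Set N) = im G S ∧
      ∃ e : S ≃[L] T, ∀ a : S, ((a : M), (e a : N)) ∈ G := by
  have hPI := lg_isPI h hG
  have hSm : K.mem S := (K.mem_of_le _ hS).1
  -- the directed family of small strong substructures of `S`
  let ι := {S₀ : L.Substructure M // K.le S₀ ∧ S₀ ≤ S ∧ #S₀ ≤ ℓ}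
  have hex : ∀ A : Set M, A ⊆ S → #A ≤ ℓ → ∃ S₀ : ι, A ⊆ (S₀.1 : Set M) := by
    intro A hA hAℓ
    obtain ⟨S₁, h1, h2, h3⟩ := h.hK.2.2 S hSm (Subtype.val ⁻¹' A)
    refine ⟨⟨S₁.map S.subtype.toHom, K.le_trans _ _ h1 hS, ?_, ?_⟩, ?_⟩
    · rintro _ ⟨x, -, rfl⟩
      exact x.2
    · have h4 : #(S₁.map S.subtype.toHom : L.Substructure M) ≤ #S₁ := by
        change #((fun x : S => (x : M)) '' (S₁ : Set S)) ≤ #S₁
        exact mk_image_le
      refine h4.trans (h3.trans ?_)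
      have h5 : #(Subtype.val ⁻¹' A : Set S) ≤ #A := mk_preimage_of_injective _ _
        Subtype.val_injective
      exact add_le_of_le h.h0 (h5.trans hAℓ) le_rfl
    · intro a ha
      exact ⟨⟨a, hA ha⟩, h2 ha, rfl⟩
  have hne : Nonempty ι := by
    obtain ⟨S₀, -⟩ := hex ∅ (empty_subset _) (by simp)
    exact ⟨S₀⟩
  have hdir : IsDirectedOrder ι := ⟨fun a b => by
    obtain ⟨c, hc⟩ := hex ((a.1 : Set M) ∪ b.1) (union_subset a.2.2.1 b.2.2.1)
      ((mk_union_le _ _).trans (add_le_of_le h.h0 a.2.2.2 b.2.2.2))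
    exact ⟨c, fun x hx => hc (Or.inl hx), fun x hx => hc (Or.inr hx)⟩⟩
  have himg : ∀ S₀ : ι, ∃ T₀ : L.Substructure N, K.le T₀ ∧ (T₀ : Set N) = im G S₀.1 := by
    intro S₀
    have h1 : #(rs G (S₀.1 : Set M)) < θ :=
      (IsPI.mk_rs_le hPI _).trans_lt (S₀.2.2.2.trans_lt h.hℓ)
    have h2 : SG L ℓ θ (rs G (S₀.1 : Set M)) := hG _ (rs_subset _ _) h1
    have h3 : (S₀.1 : Set M) = Prod.fst '' rs G (S₀.1 : Set M) := by
      ext x
      constructor
      · intro hx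
        obtain ⟨y, hy⟩ := hSG x (S₀.2.2.1 hx)
        exact ⟨(x, y), ⟨hy, hx⟩, rfl⟩
      · rintro ⟨p, hp, rfl⟩
        exact hp.2
    obtain ⟨T₀, hT₀⟩ := exists_sub_image h h2 h3
    refine ⟨T₀, le_of_sg h hM hN h2 S₀.2.1 h3 hT₀, ?_⟩
    rw [hT₀]
    ext y
    constructor
    · rintro ⟨p, hp, rfl⟩
      exact ⟨p.1, hp.2, hp.1⟩
    · rintro ⟨x, hx, hxy⟩
      exact ⟨(x, y), ⟨hxy, hx⟩, rfl⟩
  choose F hF1 hF2 using himg
  have hmono : Monotone F := by
    intro a b hab x hx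
    rw [← SetLike.mem_coe, hF2] at hx
    obtain ⟨y, hy, hyx⟩ := hx
    rw [← SetLike.mem_coe, hF2]
    exact ⟨y, hab hy, hyx⟩
  have hT : K.le (⨆ a, F a) := AEC.le_iSup_directed F hmono hF1
  have hTc : ((⨆ a, F a : L.Substructure N) : Set N) = im G S := by
    ext y
    rw [SetLike.mem_coe, Language.Substructure.mem_iSup_of_directed hmono.directed_le]
    constructor
    · rintro ⟨a, ha⟩
      rw [← SetLike.mem_coe, hF2] at ha
      obtain ⟨x, hx, hxy⟩ := ha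
      exact ⟨x, a.2.2.1 hx, hxy⟩
    · rintro ⟨x, hx, hxy⟩
      obtain ⟨a, ha⟩ := hex {x} (singleton_subset_iff.2 hx) (by
        rw [mk_singleton]
        exact one_le_aleph0.trans h.h0)
      refine ⟨a, ?_⟩
      rw [← SetLike.mem_coe, hF2]
      exact ⟨x, ha rfl, hxy⟩
  obtain ⟨e, he⟩ := hPI.exists_equiv_sub S (⨆ a, F a) (by
    intro a ha
    obtain ⟨y, hy⟩ := hSG a ha
    refine ⟨y, ?_, hy⟩
    rw [← SetLike.mem_coe, hTc]
    exact ⟨a, ha, hy⟩) (by
    intro b hb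
    rw [← SetLike.mem_coe, hTc] at hb
    obtain ⟨x, hx, hxb⟩ := hb
    exact ⟨x, hx, hxb⟩)
  exact ⟨⨆ a, F a, hT, hTc, e, he⟩

/-- The embedding given by a locally good relation on a strong substructure. -/
theorem exists_emb_of_lg (hM : K.mem M) (hN : K.mem N) {G : Set (M × N)} (hG : LG L ℓ θ G)
    {S : L.Substructure M} (hS : K.le S) (hSG : Cov G S) :
    ∃ f : S ↪[L] N, K.Emb f ∧ ∀ a : S, ((a : M), f a) ∈ G := by
  obtain ⟨T, hT, -, e, he⟩ := exists_image_of_lg h hM hN hG hS hSG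
  exact ⟨T.subtype.comp e.toEmbedding, AEC.Emb.comp (AEC.emb_subtype.2 hT)
    (AEC.Emb.of_equiv e (K.mem_of_le _ hS).1), he⟩

end CloX

end Vale.Agent.P307.R2.H913
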