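import Vale.Agent.P307.R2.H533.Pt
import Vale.Agent.P307.R2.H650.Defs
import Vale.Agent.P307.R2.H806.RealX
import Vale.Agent.P307.R2.H913.FinChain

/-!
Unions of chains of extensions of independent systems by one direction, and coherent maps on them.
-/

set_option linter.unusedSectionVars false

universe u v

open Set Cardinal Function

namespace Vale.Agent.P307.R2.H913

open Vale.Agent.P307.R2.H541 Vale.Agent.P307.R2.H541.PG Vale.Agent.P307.R2.H533

open scoped Classical

variable {ι : Type v} {C : Type u} {M : PG C} {J : Type u} [LinearOrder J] [Nonempty J]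
  {B : J → Finset ι → Set C} {A : Finset ι → Set C} {S : Finset ι} {c : ι} {f : C → C}

variable (M) in
/-- Unions of chains of models and of coherent maps on them. -/
structure Uni : Prop where
  union : ∀ (ι : Type u) [LinearOrder ι] [Nonempty ι] (N : ι → Set C), Monotone N →
    (∀ i, N i ∈ M.S) → #(⋃ i, N i : Set C) ≤ M.χ → (⋃ i, N i) ∈ M.S
  glue : ∀ (ι : Type u) [LinearOrder ι] [Nonempty ι] (N : ι → Set C) (g : ι → Equiv.Perm C),
    Monotone N → (∀ i, N i ∈ M.S) → #(⋃ i, N i : Set C) ≤ M.χ → (∀ i, g i ∈ M.G) →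
      (∀ i j, i ≤ j → ∀ a ∈ N i, g j a = g i a) → ∃ h ∈ M.G, ∀ i, ∀ a ∈ N i, h a = g i a

theorem Uni.of_chn (h : H650.Chn M) : Uni M := ⟨h.union, h.glue⟩

/-- A coherent map on the union of a chain of models. -/
theorem Uni.face (hU : Uni M) {N : J → Set C} (hN : Monotone N) (hNS : ∀ i, N i ∈ M.S)
    (hc : #(⋃ i, N i : Set C) ≤ M.χ) (hf : ∀ i, ∃ g ∈ M.G, ∀ a ∈ N i, g a = f a) :
    ∃ g ∈ M.G, ∀ a ∈ ⋃ i, N i, g a = f a := by
  choose g hg hgf using hf
  obtain ⟨h, hh, h1⟩ := hU.glue J N g hN hNS hc hg fun i j hij a ha => by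
    rw [hgf j a (hN hij ha), hgf i a ha]
  refine ⟨h, hh, fun a ha => ?_⟩
  obtain ⟨i, hi⟩ := mem_iUnion.1 ha
  rw [h1 i a hi, hgf i a hi]

/-- Freeness of a finite set over the union, from freeness at the late stages and finite local
character. -/
theorem ind_of_stages' (hM : M.Calc) {P N : J → Set C} (hPS : ∀ i, P i ∈ M.S)
    (hN : Monotone N) (hNS : ∀ i, N i ∈ M.S) (hPN : ∀ i, P i ⊆ N i)
    (hPc : (⋃ i, P i) ∈ M.S) {x : Set C}
    (hloc : ∃ i, M.Ind (N i) x (⋃ i, N i)) {i₀ : J} (hst : ∀ i, i₀ ≤ i → M.Ind (P i) x (N i)) :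
    M.Ind (⋃ i, P i) x (⋃ i, N i) := by
  obtain ⟨i, hi⟩ := hloc
  have hmax : M.Ind (N (max i i₀)) x (⋃ i, N i) := by
    refine hM.ind_base (hNS i) (hNS _) (hN (le_max_left _ _)) ?_
    rwa [union_eq_self_of_subset_left (subset_iUnion N _)]
  have h1 : M.Ind (P (max i i₀)) x (⋃ i, N i) :=
    (hst _ (le_max_right _ _)).trans hmax (hPN _)
  refine hM.ind_base (hPS (max i i₀)) hPc (subset_iUnion P _) ?_
  have h2 : (⋃ i, P i) ∪ (⋃ i, N i) = ⋃ i, N i :=
    union_eq_self_of_subset_left (iUnion_mono hPN)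
  rw [h2]
  exact h1

variable (M B A S c) in
/-- A chain of extensions of systems by one direction, with its union. -/
structure ExtCh : Prop where
  stage : ∀ i, Ext1 M (B i) S c
  mono : ∀ t, t ⊂ insert c S → Monotone fun i => B i t
  union : ∀ t, t ⊂ insert c S → A t = ⋃ i, B i t
  ext : Ext1 M A S c

namespace ExtCh

theorem sub (h : ExtCh M B A S c) {t : Finset ι} (ht : t ⊂ insert c S) (i : J) :
    B i t ⊆ A t := by
  rw [h.union t ht]
  exact subset_iUnion (fun i => B i t) i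

theorem memA (h : ExtCh M B A S c) {t : Finset ι} (ht : t ⊂ insert c S) : A t ∈ M.S :=
  h.ext.fam.mem t (Finset.mem_ssubsets.2 ht)

theorem memB (h : ExtCh M B A S c) {t : Finset ι} (ht : t ⊂ insert c S) (i : J) : B i t ∈ M.S :=
  (h.stage i).fam.mem t (Finset.mem_ssubsets.2 ht)

theorem ibd_eq (h : ExtCh M B A S c) : ibd A (insert c S) = ⋃ i, ibd (B i) (insert c S) := by
  ext x
  constructor
  · rintro ⟨r, hr, hx⟩
    rw [h.union r hr] at hx
    obtain ⟨i, hi⟩ := mem_iUnion.1 hx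
    exact mem_iUnion.2 ⟨i, r, hr, hi⟩
  · intro hx
    obtain ⟨i, r, hr, hx⟩ := mem_iUnion.1 hx
    exact ⟨r, hr, h.sub hr i hx⟩

/-- A coherent map is given by an element of the group on every face. -/
theorem face (hU : Uni M) (h : ExtCh M B A S c)
    (hf : ∀ i, ∃ g ∈ M.G, ∀ a ∈ ibd (B i) (insert c S), g a = f a) {t : Finset ι}
    (ht : t ⊂ insert c S) : ∃ g ∈ M.G, (∀ a ∈ A t, g a = f a) ∧ g '' A t = f '' A t := by
  have h1 : ∃ g ∈ M.G, ∀ a ∈ A t, g a = f a := by
    rw [h.union t ht]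
    refine hU.face (h.mono t ht) (fun i => h.memB ht i) ?_ fun i => ?_
    · rw [← h.union t ht]
      exact (M.S_card (h.memA ht)).le
    · obtain ⟨g, hg, hgf⟩ := hf i
      exact ⟨g, hg, fun a ha => hgf a ⟨t, ht, ha⟩⟩
  obtain ⟨g, hg, hgf⟩ := h1
  exact ⟨g, hg, hgf, image_congr hgf⟩

/-- The image of the new face is free from the image of the old system: a finitely generated new
face. -/
theorem ind_pt (hM : M.Calc) (hU : Uni M) (h : ExtCh M B A S c) (hS : S.Nonempty)
    (hf : ∀ i, ∃ g ∈ M.G, ∀ a ∈ ibd (B i) (insert c S), g a = f a) {p : Set C} (hp : p.Finite)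
    (hpA : M.Atomic (A {c}) (p ∪ A ∅))
    (hloc : ∃ i, M.Ind (f '' B i S) (f '' p) (⋃ i, f '' B i S)) :
    M.Ind (f '' A ∅) (f '' A {c}) (f '' A S) := by
  have hSc : S ⊂ insert c S := Finset.ssubset_insert h.ext.notMem
  have hcc : ({c} : Finset ι) ⊂ insert c S := by
    refine lt_of_le_of_ne (Finset.singleton_subset_iff.2 (Finset.mem_insert_self c S)) ?_
    intro h1
    obtain ⟨x, hx⟩ := hS
    have h2 : x ∈ ({c} : Finset ι) := by
      rw [h1]
      exact Finset.mem_insert_of_mem hx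
    rw [Finset.mem_singleton.1 h2] at hx
    exact h.ext.notMem hx
  have h0 : (∅ : Finset ι) ⊂ insert c S := Finset.empty_ssubset.2 (Finset.insert_nonempty c S)
  -- the finite set is in a stage
  have hpc : p ⊆ ⋃ i, B i {c} := by
    rw [← h.union _ hcc]
    exact subset_union_left.trans hpA.sub
  obtain ⟨i₀, hi₀⟩ : ∃ i, p ⊆ B i {c} := by
    have h1 : ∀ q : Set C, q.Finite → q ⊆ (⋃ i, B i {c}) → ∃ i, q ⊆ B i {c} := by
      intro q hq
      induction q, hq using Set.Finite.induction_on with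
      | empty => exact fun _ => ⟨Classical.arbitrary J, empty_subset _⟩
      | @insert a q _ _ ih =>
        intro h2
        obtain ⟨i, hi⟩ := ih ((subset_insert a q).trans h2)
        obtain ⟨j, hj⟩ := mem_iUnion.1 (h2 (mem_insert a q))
        refine ⟨max i j, insert_subset (h.mono _ hcc (le_max_right i j) hj)
          (hi.trans (h.mono _ hcc (le_max_left i j)))⟩
    exact h1 p hp hpc
  obtain ⟨g0, hg0, hg0f, hg0i⟩ := h.face hU hf h0
  obtain ⟨gc, hgc, hgcf, hgci⟩ := h.face hU hf hcc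
  obtain ⟨gS, hgS, hgSf, hgSi⟩ := h.face hU hf hSc
  have hB0 : ∀ i, f '' B i ∅ ∈ M.S := by
    intro i
    rw [← image_congr fun a ha => hg0f a (h.sub h0 i ha)]
    exact M.S_inv hg0 (h.memB h0 i)
  have hBS : ∀ i, f '' B i S ∈ M.S := by
    intro i
    rw [← image_congr fun a ha => hgSf a (h.sub hSc i ha)]
    exact M.S_inv hgS (h.memB hSc i)
  have hA0 : (⋃ i, f '' B i ∅) ∈ M.S := by
    rw [← image_iUnion, ← h.union ∅ h0, ← hg0i]
    exact M.S_inv hg0 (h.memA h0)
  have h1 : M.Ind (⋃ i, f '' B i ∅) (f '' p) (⋃ i, f '' B i S) := by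
    refine ind_of_stages' hM hB0 (fun i j hij => image_mono (h.mono S hSc hij)) hBS
      (fun i => image_mono ((h.stage i).sys.mono (Finset.Subset.refl S) (Finset.empty_subset S)))
      hA0 hloc (i₀ := i₀) fun i hi => ?_
    obtain ⟨g, hg, hgf⟩ := hf i
    have h2 := ((h.stage i).ind.mono (hi₀.trans (h.mono _ hcc hi)) Subset.rfl).smul hg
    have hpi : p ⊆ B i {c} := hi₀.trans (h.mono _ hcc hi)
    rw [image_congr fun a ha => hgf a ⟨∅, h0, ha⟩, image_congr fun a ha => hgf a ⟨S, hSc, ha⟩,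
      image_congr fun a ha => hgf a ⟨{c}, hcc, hpi ha⟩] at h2
    exact h2
  rw [← image_iUnion, ← image_iUnion, ← h.union ∅ h0, ← h.union S hSc] at h1
  have h2 : M.Atomic (f '' A {c}) (f '' p ∪ f '' A ∅) := by
    have h3 := atomic_map hpA hgc
    rw [image_union, hgci, image_congr fun a ha => hgcf a (hpA.sub (Or.inl ha)),
      image_congr fun a ha => hgcf a (h.ext.base ha)] at h3
    exact h3
  exact h2.dom h1

/-- The image of the extension. -/
theorem ext_image (hU : Uni M) (h : ExtCh M B A S c) (hS : S.Nonempty)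
    (hf : ∀ i, ∃ g ∈ M.G, ∀ a ∈ ibd (B i) (insert c S), g a = f a)
    (hind : M.Ind (f '' A ∅) (f '' A {c}) (f '' A S)) :
    Ext1 M (fun t => f '' A t) S c := by
  have hSc : S ⊂ insert c S := Finset.ssubset_insert h.ext.notMem
  have hcc : ({c} : Finset ι) ⊂ insert c S := by
    have h1 := insert_ssubset_insert' (u := ∅) h.ext.notMem (Finset.empty_ssubset.2 hS)
    exact h1
  have hsub : ∀ t, t ⊂ insert c S → ∀ r, r ⊂ t → A r ⊆ A t := fun t ht r hr =>
    h.ext.fam.mono t (Finset.mem_ssubsets.2 ht) r hr.1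
  obtain ⟨gS, hgS, hgSf, -⟩ := h.face hU hf hSc
  obtain ⟨gc, hgc, hgcf, hgci⟩ := h.face hU hf hcc
  refine ⟨(h.ext.sys.smul hgS).congr fun t ht => ?_, h.ext.notMem, ?_, ?_, hind,
    fun u hu hu0 => ?_⟩
  · exact image_congr fun a ha => hgSf a (h.ext.sys.mono (Finset.Subset.refl S) ht ha)
  · have h1 := M.S_inv hgc h.ext.memc
    rw [hgci] at h1
    exact h1
  · exact image_mono h.ext.base
  · have hcu : insert c u ⊂ insert c S := insert_ssubset_insert' h.ext.notMem hu
    obtain ⟨g, hg, hgf, hgi⟩ := h.face hU hf hcu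
    have h1 := atomic_map (h.ext.atomic u hu hu0) hg
    have h2 : g '' ibd A (insert c u) = ibd (fun t => f '' A t) (insert c u) := by
      ext x
      constructor
      · rintro ⟨a, ⟨r, hr, ha⟩, rfl⟩
        exact ⟨r, hr, a, ha, (hgf a (hsub _ hcu r hr ha)).symm⟩
      · rintro ⟨r, hr, a, ha, rfl⟩
        exact ⟨a, ⟨r, hr, ha⟩, hgf a (hsub _ hcu r hr ha)⟩
    rw [h2, hgi] at h1
    exact h1

/-- The map is locally elementary on the whole boundary. -/
theorem le (hM : M.Calc) (hU : Uni M) (h : ExtCh M B A S c) (hS : S.Nonempty)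
    (hf : ∀ i, ∃ g ∈ M.G, ∀ a ∈ ibd (B i) (insert c S), g a = f a)
    (hind : M.Ind (f '' A ∅) (f '' A {c}) (f '' A S)) : M.LE f (ibd A (insert c S)) :=
  h.ext.le hM (h.ext_image hU hS hf hind) f fun _ ht => h.face hU hf ht

/-- The map is given by an element of the group. -/
theorem exists_aut (hM : M.Calc) (hU : Uni M) (hR : M.Real) (h : ExtCh M B A S c)
    (hS : S.Nonempty) (hf : ∀ i, ∃ g ∈ M.G, ∀ a ∈ ibd (B i) (insert c S), g a = f a)
    (hind : M.Ind (f '' A ∅) (f '' A {c}) (f '' A S))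
    {N : Set C} (hN : N ∈ M.S) (hXN : ibd A (insert c S) ⊆ N)
    (hT : M.Tm (f '' ibd A (insert c S))) :
    ∃ g ∈ M.G, ∀ a ∈ ibd A (insert c S), g a = f a :=
  (h.le hM hU hS hf hind).exists_aut hR hN hXN hT

end ExtCh

end Vale.Agent.P307.R2.H913
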