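import Vale.Agent.P307.R2.H541.Di1

/-!
The size of the isolating sets for the atomic models over a strong submodel and finitely many
points: small isolating sets below every smaller base point.
-/

set_option linter.unusedSectionVars false

universe u v w

open FirstOrder Cardinal Set

namespace Vale.Agent.P307.R2.H913

open Vale.Agent.P307 Vale.Agent.P307.H304 Vale.Agent.P307.R2.H287 Vale.Agent.P307.R2.H1
  Vale.Agent.P307.R2.H971 Vale.Agent.P307.R2.H806 Vale.Agent.P307.R2.H514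
  Vale.Agent.P307.R2.H804 Language.Structure Language.Substructure

variable {L : Language.{u, u}} {K : AEC L} {ℓ Λ μ ν ρ τ θ ν₀ : Cardinal.{u}}
  {κf α : Cardinal.{u} → Cardinal.{u}}

theorem exists_small_base' (hθ : BasePt K ℓ κf α θ) (hK : K.IsLS ℓ)
    (hunb : ∀ ν, ν < κf ν ∧ K.CategoricalIn (κf ν)) (hl : Lvl ℓ κf α ν μ ρ θ)
    (hρθ : thr κf ρ < θ) {C : Type u} [L.Structure C] (P : L.Substructure C) (hP : K.le P)
    (hPc : #P = θ) {ι : Type u} (hι : #ι ≤ μ) (r : ι → C) :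
    ∃ A₀ : L.Substructure C, K.le A₀ ∧ A₀ ≤ P ∧ #A₀ ≤ thr κf ρ ∧
      Refl L ρ (A₀ : Set C) ∧ Ind L κf μ (A₀ : Set C) P r := by
  have hμ := hl.hμ hK
  have hρ0 : ℵ₀ ≤ ρ := hμ.trans (hl.μρ hunb)
  have hℓρ : ℓ ≤ ρ := hl.hℓμ.trans (hl.μρ hunb)
  obtain ⟨a, ha, ha'⟩ := ind_empty hθ hK hunb hl P hP hPc hι r Subset.rfl
    (refl_big hθ hK hunb hl P hP hPc)
  have hℓt : ℓ ≤ thr κf ρ := hℓρ.trans (le_thr hunb ρ)
  have hρt : ρ ≤ thr κf ρ := le_thr hunb ρ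
  have h1 : #(range fun p : SuccTy (opB κf μ) × ι => a p.1 p.2) ≤ thr κf ρ := by
    refine mk_range_le.trans (mk_prod_le (hρ0.trans hρt) ?_ ((hι.trans (hl.μρ hunb)).trans hρt))
    exact ((mk_succTy _).trans_le hl.opB).trans hρt
  have haP : ∀ x i, a x i ∈ P := ha
  obtain ⟨S, hS, hSA, hSc⟩ := exists_sub_card hK hℓt (K.mem_of_le _ hP).1
    (hρθ.le.trans hPc.ge) (range fun p : SuccTy (opB κf μ) × ι => (⟨a p.1 p.2, haP _ _⟩ : P))
    (mk_range_le.trans (mk_prod_le (hρ0.trans hρt) (((mk_succTy _).trans_le hl.opB).trans hρt)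
      ((hι.trans (hl.μρ hunb)).trans hρt)))
  have hSle : K.le (S.map P.subtype.toHom) := K.le_trans P S hS hP
  have hSc' : #(S.map P.subtype.toHom : L.Substructure C) = thr κf ρ := by
    rw [← hSc]
    exact mk_image_eq (s := (S : Set P)) P.subtype.injective
  refine ⟨S.map P.subtype.toHom, hSle, ?_, ?_, ?_, ?_⟩
  · rintro _ ⟨y, -, rfl⟩
    exact y.2
  · rw [hSc']
  · exact refl_of_le hK hunb hℓρ hSle hSc'.ge
  · refine ⟨a, fun x i => ⟨⟨a x i, haP x i⟩, hSA ⟨(x, i), rfl⟩, rfl⟩, ha'.mono ?_⟩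
    refine union_subset ?_ ?_
    · rintro _ ⟨y, -, rfl⟩
      exact Or.inl y.2
    · exact fun x hx => Or.inl hx

/-- Domination implies isolation, with a bound for the size of the isolating set. -/
theorem exists_isol_bd (hθ : BasePt K ℓ κf α θ) (hK : K.IsLS ℓ)
    (hunb : ∀ ν, ν < κf ν ∧ K.CategoricalIn (κf ν)) (hl : Lvl ℓ κf α ν μ ρ θ)
    (hρθ : thr κf ρ < θ) (hℓν : ℓ ≤ ν₀) (hν : H1.tB α ν₀ ≤ ν) {C : Type u} [L.Structure C]
    (hCm : K.mem C) (hCc : #C = Order.succ θ) (hs : Sat K θ C) (P : L.Substructure C)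
    (hP : K.le P) (hPc : #P = θ) {κ : Type u} (hκ : #κ ≤ ν₀) (v : κ → C) {N : Set C}
    (hvN : ∀ k, v k ∈ N) (hdom : DomOver L κf μ ν (P : Set C) N v) {ι : Type u} (hι : #ι ≤ ν₀)
    (e : ι → C) (he : ∀ i, e i ∈ N) :
    ∃ D : L.Substructure C, K.le D ∧ D ≤ P ∧ #D ≤ thr κf ρ ∧ ∀ g : C ≃[L] C, (∀ x ∈ D, g x = x) →
      (∀ k, g (v k) = v k) → ∃ h : C ≃[L] C, (∀ x ∈ P, h x = x) ∧ (∀ k, h (v k) = v k) ∧
        ∀ i, h (e i) = g (e i) := by
  classical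
  have hμ := hl.hμ hK
  have hμρ := hl.μρ hunb
  have hν₀0 : ℵ₀ ≤ ν₀ := hK.1.trans hℓν
  have hν₀ν : ν₀ ≤ ν := (hθ.le_tb ν₀ hℓν).trans hν
  have hν₀θ : ν₀ < θ := (hν₀ν.trans hl.νμ).trans_lt (hl.μΛ hunb)
  have hν0 : ℵ₀ ≤ ν := hν₀0.trans hν₀ν
  have hqν₀ : #(ι ⊕ κ) ≤ ν₀ := mk_sum_le' hν₀0 hι hκ
  have hqν := hqν₀.trans hν₀ν
  have hqμ := hqν.trans hl.νμ
  have hκν := hκ.trans hν₀ν
  have hκμ := hκν.trans hl.νμ
  have hCκ : opB κf μ ≤ #C := le_card_sat hθ hK hunb hl hCc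
  let q : ι ⊕ κ → C := Sum.elim e v
  obtain ⟨D, hD, hDP, hDc, hDr, hDq⟩ := exists_small_base' hθ hK hunb hl hρθ P hP hPc hqμ q
  refine ⟨D, hD, hDP, hDc, fun g hgD hgv => ?_⟩
  have key : ∀ (ζ : Type u) (m : ζ → C), #ζ ≤ ν → (∀ z, m z ∈ P) →
      EqS L μ (Sum.elim m q) (Sum.elim m fun i => g (q i)) := by
    intro ζ m hζ hm
    have hζμ := hζ.trans hl.νμ
    let m' : ζ → C := fun z => g.symm (m z)
    have hgD' : ∀ x ∈ D, g.symm x = x := fun x hx => by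
      rw [← hgD x hx, g.symm_apply_apply, hgD x hx]
    have hgi : g.symm '' (D : Set C) = D := by
      ext x
      constructor
      · rintro ⟨y, hy, rfl⟩
        rw [hgD' y hy]
        exact hy
      · intro hx
        exact ⟨x, hx, hgD' x hx⟩
    have h1 : Ind L κf μ (D : Set C) (range m) q := hDq.mono (by
      rintro _ ⟨z, rfl⟩
      exact Or.inr (hm z))
    have h2 : Ind L κf μ (D : Set C) (range m') v := by
      have h3 := (h1.comp (Sum.inr : κ → ι ⊕ κ)).equiv hμ hκμ g.symm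
      rw [hgi, ← range_comp] at h3
      have h4 : (fun i => g.symm (q (Sum.inr i))) = v := by
        funext i
        change g.symm (v i) = v i
        rw [← hgv i, g.symm_apply_apply, hgv i]
      rwa [h4] at h3
    -- the free extension
    have hqζ : #((ι ⊕ κ) ⊕ ζ) ≤ ν := mk_sum_le' hν0 hqν hζ
    obtain ⟨q₁, hq₁, hq₁'⟩ := exists_free hθ hK hunb hl hs P hP hPc (hqζ.trans hl.νμ)
      (Sum.elim q m') hDP hDr
    obtain ⟨σ, hσ, hσ'⟩ := exists_aut hθ hK hunb hl hCm hs hCc P hP hPc hqν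
      (fun i => q₁ (Sum.inl i)) q fun ξ y hξ hy =>
        Ind.uniq hμ hμρ hl.opB hqμ hDr (hq₁.comp Sum.inl) hDq (fun ζ' y' hζ' hy' => by
          refine (hq₁' ζ' y' hζ' hy').subset ?_
          rintro _ ⟨k | i, rfl⟩
          · exact ⟨Sum.inl k, rfl⟩
          · exact ⟨Sum.inr (Sum.inl i), rfl⟩) hξ y fun z => Or.inr (hy z)
    let m₂ : ζ → C := fun z => σ (q₁ (Sum.inr z))
    have himg : ∀ X : Set C, X ⊆ P → σ '' X = X := by
      intro X hX
      ext x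
      constructor
      · rintro ⟨y, hy, rfl⟩
        rw [hσ y (hX hy)]
        exact hy
      · intro hx
        exact ⟨x, hx, hσ x (hX hx)⟩
    have hq' : (fun i => σ (q₁ i)) = Sum.elim q m₂ := by
      funext i
      rcases i with i | i
      · exact hσ' i
      · rfl
    have h3 : Ind L κf μ (D : Set C) P (Sum.elim q m₂) := by
      have h4 := hq₁.equiv hμ (hqζ.trans hl.νμ) σ
      rw [himg D hDP, himg P Subset.rfl, hq'] at h4
      exact h4
    have h4 : ∀ (ξ : Type u) (y : ξ → C), #ξ ≤ μ → (∀ z, y z ∈ D) →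
        EqS L μ (Sum.elim y (Sum.elim q m₂)) (Sum.elim y (Sum.elim q m')) := by
      intro ξ y hξ hy
      have h5 := EqS.equiv hμ (mk_sum_le' hμ hξ (hqζ.trans hl.νμ)) σ (Sum.elim y q₁)
      refine EqS.trans (EqS.symm (h5.subset ?_)) (hq₁' ξ y hξ hy)
      rintro _ ⟨k | i, rfl⟩
      · exact ⟨Sum.inl k, Prod.ext rfl (hσ _ (hDP (hy k)))⟩
      · exact ⟨Sum.inr i, Prod.ext rfl (congrFun hq' i)⟩
    have h5 : Ind L κf μ (D : Set C) (range m₂) v :=
      h2.transfer hμ hκμ hζμ fun ξ y hξ hy => (h4 ξ y hξ hy).symm.subset (by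
        rintro _ ⟨k | z | i, rfl⟩
        · exact ⟨Sum.inl k, rfl⟩
        · exact ⟨Sum.inr (Sum.inr z), rfl⟩
        · exact ⟨Sum.inr (Sum.inl (Sum.inr i)), rfl⟩)
    have h6 : Ind L κf μ (D : Set C) (range m₂ ∪ P) v := by
      refine ind_union hθ hK hunb hl hCm hCc P hP hPc hDP hDr hκν hζ v m₂ h5 ?_
      have h7 := h3.comp (ζ := ζ ⊕ κ) (Sum.elim Sum.inr fun i => Sum.inl (Sum.inr i))
      have h8 : (fun z => Sum.elim q m₂ ((Sum.elim Sum.inr fun i => Sum.inl (Sum.inr i) :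
          ζ ⊕ κ → (ι ⊕ κ) ⊕ ζ) z)) = Sum.elim m₂ v := by
        funext z
        rcases z with z | z <;> rfl
      rwa [h8] at h7
    have h7 : Ind L κf μ (P : Set C) (range m₂) v :=
      (h6.base (D' := (P : Set C)) hDP fun x hx => Or.inr (Or.inr hx)).mono fun x hx =>
        Or.inr (Or.inl hx)
    have h8 : Ind L κf μ (P : Set C) (range m₂) q := hdom ζ (ι ⊕ κ) hζ hqν m₂ q (by
      rintro (i | i)
      · exact he i
      · exact hvN i) h7
    have h9 : Ind L κf μ (D : Set C) (range m₂) q :=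
      (hDq.trans hμ hμρ hl.opB hqμ (refl_big hθ hK hunb hl P hP hPc) hDP h8).mono fun x hx =>
        Or.inr (Or.inr hx)
    have h10 : Ind L κf μ (D : Set C) (range m') q :=
      h9.transfer hμ hqμ hζμ fun ξ y hξ hy => (h4 ξ y hξ hy).subset (by
        rintro _ ⟨k | z | i, rfl⟩
        · exact ⟨Sum.inl k, rfl⟩
        · exact ⟨Sum.inr (Sum.inr z), rfl⟩
        · exact ⟨Sum.inr (Sum.inl i), rfl⟩)
    have h11 : Ind L κf μ (D : Set C) (range q) m' :=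
      Ind.symm hK hunb hl.hℓμ hCm hCκ hζμ hqμ
        (ind_empty hθ hK hunb hl P hP hPc hζμ m' hDP hDr) h10
    have h12 : Ind L κf μ (D : Set C) (range q) m :=
      Ind.symm hK hunb hl.hℓμ hCm hCκ hζμ hqμ
        (ind_empty hθ hK hunb hl P hP hPc hζμ m hDP hDr) h1
    have h13 : EqS L μ (Sum.elim q m) (Sum.elim q m') := by
      refine Ind.uniq hμ hμρ hl.opB hζμ hDr h12 h11 (fun ξ y hξ hy => ?_) hqμ q
        fun z => Or.inr ⟨z, rfl⟩
      have h14 := EqS.equiv hμ (mk_sum_le' hμ hξ hζμ) g.symm (Sum.elim y m)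
      refine h14.subset ?_
      rintro _ ⟨k | z, rfl⟩
      · exact ⟨Sum.inl k, Prod.ext rfl (hgD' _ (hy k))⟩
      · exact ⟨Sum.inr z, rfl⟩
    have h14 := EqS.equiv hμ (mk_sum_le' hμ hqμ hζμ) g (Sum.elim q m')
    refine (h13.trans h14).subset ?_
    rintro _ ⟨z | i, rfl⟩
    · exact ⟨Sum.inr z, Prod.ext rfl (g.apply_symm_apply (m z))⟩
    · exact ⟨Sum.inl i, rfl⟩
  have ht0 : ℵ₀ ≤ H1.tB α ν₀ := hν₀0.trans (hθ.le_tb ν₀ hℓν)
  obtain ⟨h, h1, h2⟩ := exists_aut_over hθ hK hunb hCm hs hCc P hP hPc hℓν hν₀θ hqν₀ q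
    (fun i => g (q i)) fun Q a hQ ha => (key Q a (hQ.trans hν) ha).mono ht0
      (hν.trans hl.νμ) (mk_sum_le' ht0 hQ (hqν₀.trans (hθ.le_tb ν₀ hℓν)))
  refine ⟨h, h1, fun k => ?_, fun i => h2 (Sum.inl i)⟩
  exact (h2 (Sum.inr k)).trans (hgv k)

theorem lvl_mono (hl : Lvl ℓ κf α ν μ ρ τ) (h : τ ≤ θ) : Lvl ℓ κf α ν μ ρ θ :=
  ⟨hl.hℓ, hl.tB, hl.νμ, hl.opB, hl.limB, hl.lt.trans_le h, hl.thr.trans h, hl.thr'.trans h,
    hl.thr''.trans h⟩

/-- **The isolating sets of the atomic models over a model and finitely many points are small below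
every smaller base point.** -/
theorem pg_tiny1 (h₀ : BasePt K ℓ κf α θ) (hK : K.IsLS ℓ)
    (hunb : ∀ ν, ν < κf ν ∧ K.CategoricalIn (κf ν)) (hst : Stab K ℓ α (H287.thr κf))
    {C : Type u} [L.Structure C] (hCm : K.mem C) (hs : Sat K θ C) (hCc : #C = Order.succ θ)
    (hΛ : BasePt K ℓ κf α Λ) (hθΛ : θ < Λ) (hτ : BasePt K ℓ κf α τ) (hτθ : τ < θ) {P p N : Set C}
    (hP : P ∈ (H541.pg h₀ hK hunb hst hCm hs hCc).S) (hp : p.Finite)
    (hN : (H541.pg h₀ hK hunb hst hCm hs hCc).Atomic N (p ∪ P)) :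
    ∀ E ⊆ N, #E < τ → ∃ B ⊆ p ∪ P, #B < τ ∧
      (H541.pg h₀ hK hunb hst hCm hs hCc).Isol B (p ∪ P) E := by
  intro E hE hEc
  have hτ0 := H541.aleph0_le_pt hτ hK
  obtain ⟨D, hD, hDc, rfl⟩ := hP
  have hpf : Finite p := hp
  let v : p → C := fun x => x
  have hv : range v = p := Subtype.range_coe
  let ν₀ : Cardinal.{u} := max ℓ #E
  have hν₀ : ν₀ < τ := max_lt hτ.pt.lt hEc
  have hℓν₀ : ℓ ≤ ν₀ := le_max_left _ _
  obtain ⟨ν, μ, ρ, h1, h2, hl⟩ := H541.exists_lvl hτ (σ := tB α ν₀) (hτ.tb ν₀ hν₀)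
  have hρτ : H287.thr κf ρ < τ := hτ.pt.thr ρ hl.lt
  have hl' := lvl_mono hl hτθ.le
  obtain ⟨N₁, hN₁, hN₁c, hDN, hvN, hdom⟩ := exists_dom_at h₀ hΛ hθΛ hst hK hunb hl'
    (hρτ.trans hτθ) hCm hCc hs D hD hDc v
  -- the atomic model moves into `N₁`
  obtain ⟨k, hk, hk1, hk2⟩ := hN.exists_embed (f := id)
    (fun A _ _ => ⟨1, (H541.pg h₀ hK hunb hst hCm hs hCc).G.one_mem, fun _ _ => rfl⟩)
    (N' := (N₁ : Set C)) ⟨N₁, hN₁, hN₁c, rfl⟩ (by
      rintro x (hx | hx)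
      · exact hvN ⟨x, hx⟩
      · exact hDN hx)
  have hκ : #p ≤ ν₀ := (lt_aleph0_of_finite p).le.trans (hK.1.trans hℓν₀)
  obtain ⟨B, -, hBD, hBc, hiso⟩ := exists_isol_bd h₀ hK hunb hl' (hρτ.trans hτθ) hℓν₀ h1 hCm hCc
    hs D hD hDc hκ v (N := (N₁ : Set C)) hvN hdom (ι := E) (le_max_right _ _)
    (fun e => k (e : C)) (fun e => hk2 e (hE e.2))
  refine ⟨p ∪ (B : Set C), union_subset_union_right _ hBD, ?_, ?_⟩
  · exact (mk_union_le _ _).trans_lt (add_lt_of_lt hτ0 ((lt_aleph0_of_finite p).trans_le hτ0)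
      (hBc.trans_lt hρτ))
  · have h3 : (H541.pg h₀ hK hunb hst hCm hs hCc).Isol (p ∪ (B : Set C)) (p ∪ (D : Set C))
        (k '' E) := by
      rintro g ⟨l, hl⟩ hgB A hA hAc
      obtain ⟨h, h3, h4, h5⟩ := hiso l (fun x hx => by
        rw [hl]
        exact hgB x (Or.inr hx)) (fun i => by
        rw [hl]
        exact hgB _ (Or.inl i.2))
      refine ⟨h.toEquiv, H541.mem_autG h, fun a ha => ?_, ?_⟩
      · rcases hA ha with ha | ha
        · exact h4 ⟨a, ha⟩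
        · exact h3 a ha
      · rintro _ ⟨e, he, rfl⟩
        exact (h5 ⟨e, he⟩).trans (hl (k e))
    have h4 := h3.smul (k := k⁻¹) ((H541.pg h₀ hK hunb hst hCm hs hCc).G.inv_mem hk) (by
      intro b hb
      refine H541.PG.fix_inv (hk1 b ?_)
      exact union_subset_union_right p hBD hb)
    have h5 : (k⁻¹ : Equiv.Perm C) '' (k '' E) = E := by
      rw [← image_comp]
      have : ((k⁻¹ : Equiv.Perm C) : C → C) ∘ k = id := by
        funext a
        exact H541.PG.inv_ap k a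
      rw [this, image_id]
    rwa [h5] at h4

end Vale.Agent.P307.R2.H913
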